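import Vale.Agent.P264.Common
import Mathlib.Analysis.Normed.Lp.SmoothApprox
import Mathlib.MeasureTheory.Function.L2Space

/-!
The Hilbert space `L²((0, ∞), rho 5)` in which the rescaled linearised flow acts.
-/

namespace Vale.Agent.P264.LinOp

open Set MeasureTheory Filter Topology
open scoped ContDiff ENNReal

/-- The weighted measure. -/
noncomputable def μ5 : Measure ℝ :=
  (volume.restrict (Ioi 0)).withDensity fun y => ENNReal.ofReal (rho 5 y)

/-- The state space. -/
abbrev H : Type := Lp ℝ 2 μ5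

theorem rho_nonneg (j : ℕ) {y : ℝ} (hy : 0 ≤ y) : 0 ≤ rho j y := by
  unfold rho; positivity

theorem rho_five_le (y : ℝ) : |rho 5 y| ≤ (1 + y ^ 2)⁻¹ := by
  unfold rho
  have h1 : 0 < 1 + y ^ 2 := by positivity
  rw [abs_div, abs_pow, abs_of_pos (pow_pos h1 5), div_le_iff₀ (pow_pos h1 5), inv_mul_eq_div,
    le_div_iff₀ h1]
  have hy : |y| ≤ 1 + y ^ 2 := by nlinarith [sq_abs y, sq_nonneg (|y| - 1)]
  calc |y| ^ 3 * (1 + y ^ 2) ≤ (1 + y ^ 2) ^ 3 * (1 + y ^ 2) := by gcongr
    _ = (1 + y ^ 2) ^ 4 := by ring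
    _ ≤ (1 + y ^ 2) ^ 5 := pow_le_pow_right₀ (by nlinarith [sq_nonneg y]) (by norm_num)

theorem continuous_rho (j : ℕ) : Continuous (rho j) := by
  unfold rho
  exact Continuous.div (by fun_prop) (by fun_prop) fun y => by positivity

theorem integrable_rho : Integrable (rho 5) :=
  integrable_inv_one_add_sq.mono' (continuous_rho 5).aestronglyMeasurable
    (Eventually.of_forall fun y => by simpa [Real.norm_eq_abs] using rho_five_le y)

instance : IsFiniteMeasure μ5 := by
  unfold μ5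
  exact isFiniteMeasure_withDensity_ofReal integrable_rho.restrict.hasFiniteIntegral

theorem integral_μ5 (g : ℝ → ℝ) :
    ∫ y, g y ∂μ5 = ∫ y in Ioi 0, rho 5 y * g y := by
  unfold μ5
  rw [integral_withDensity_eq_integral_toReal_smul (by
    exact (continuous_rho 5).measurable.ennreal_ofReal) (Eventually.of_forall fun y => by simp)]
  refine setIntegral_congr_fun measurableSet_Ioi fun y hy => ?_
  simp [ENNReal.toReal_ofReal (rho_nonneg 5 (le_of_lt hy))]

open scoped Classical in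
/-- Zero extension of a function given on `[0, Y]`. -/
noncomputable def state (Y : ℝ) (V : ℝ → ℝ) : H :=
  if h : MemLp ((Icc 0 Y).indicator V) 2 μ5 then h.toLp _ else 0

theorem memLp_indicator {Y : ℝ} {V : ℝ → ℝ} (hV : ContinuousOn V (Icc 0 Y)) :
    MemLp ((Icc 0 Y).indicator V) 2 μ5 := by
  obtain ⟨C, hC⟩ := isCompact_Icc.exists_bound_of_continuousOn hV
  refine MemLp.of_bound ?_ |C| (Eventually.of_forall fun y => ?_)
  · exact (aestronglyMeasurable_indicator_iff measurableSet_Icc).2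
      (hV.aestronglyMeasurable measurableSet_Icc)
  · by_cases hy : y ∈ Icc 0 Y
    · rw [indicator_of_mem hy]; exact (hC y hy).trans (le_abs_self C)
    · rw [indicator_of_notMem hy, norm_zero]; exact abs_nonneg C

theorem state_coe {Y : ℝ} {V : ℝ → ℝ} (hV : ContinuousOn V (Icc 0 Y)) :
    (state Y V : ℝ → ℝ) =ᵐ[μ5] (Icc 0 Y).indicator V := by
  rw [state, dif_pos (memLp_indicator hV)]
  exact MemLp.coeFn_toLp _

theorem norm_sq_eq (x : H) : ‖x‖ ^ 2 = ∫ y, (x y) ^ 2 ∂μ5 := by
  rw [← real_inner_self_eq_norm_sq, L2.inner_def]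
  exact integral_congr_ae (Eventually.of_forall fun y => by simp [sq])

theorem integral_state {Y : ℝ} (hY : 0 ≤ Y) (g : ℝ → ℝ) :
    ∫ y, (Icc 0 Y).indicator g y ∂μ5 = ∫ y in (0:ℝ)..Y, rho 5 y * g y := by
  rw [integral_μ5, intervalIntegral.integral_of_le hY]
  have h : (fun y => rho 5 y * (Icc 0 Y).indicator g y)
      = (Icc 0 Y).indicator fun y => rho 5 y * g y := by
    funext y; by_cases hy : y ∈ Icc 0 Y <;> simp [hy]
  rw [h, setIntegral_indicator measurableSet_Icc]
  have h2 : Ioi 0 ∩ Icc 0 Y = Ioc 0 Y := by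
    ext y; constructor
    · rintro ⟨h1, h2⟩; exact ⟨h1, h2.2⟩
    · rintro ⟨h1, h2⟩; exact ⟨h1, h1.le, h2⟩
  rw [h2]

theorem norm_state_sq {Y : ℝ} (hY : 0 ≤ Y) {V : ℝ → ℝ} (hV : ContinuousOn V (Icc 0 Y)) :
    ‖state Y V‖ ^ 2 = wsq 5 0 (fun _ => 1) Y V := by
  rw [norm_sq_eq]
  have h : (fun y => (state Y V y) ^ 2) =ᵐ[μ5] (Icc 0 Y).indicator fun y => V y ^ 2 :=
    (state_coe hV).mono fun y hy => by
      dsimp only
      rw [hy]; by_cases hm : y ∈ Icc 0 Y <;> simp [hm]
  rw [integral_congr_ae h, integral_state hY, wsq]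
  simp

theorem state_sub {Y : ℝ} {V W : ℝ → ℝ} (hV : ContinuousOn V (Icc 0 Y))
    (hW : ContinuousOn W (Icc 0 Y)) : state Y (fun y => V y - W y) = state Y V - state Y W := by
  refine Lp.ext ?_
  filter_upwards [state_coe (hV.sub hW), state_coe hV, state_coe hW,
    Lp.coeFn_sub (state Y V) (state Y W)] with y h1 h2 h3 h4
  rw [h4, Pi.sub_apply, h2, h3]
  refine h1.trans ?_
  by_cases hy : y ∈ Icc 0 Y <;> simp [hy]

theorem state_add {Y : ℝ} {V W : ℝ → ℝ} (hV : ContinuousOn V (Icc 0 Y))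
    (hW : ContinuousOn W (Icc 0 Y)) : state Y (fun y => V y + W y) = state Y V + state Y W := by
  refine Lp.ext ?_
  filter_upwards [state_coe (hV.add hW), state_coe hV, state_coe hW,
    Lp.coeFn_add (state Y V) (state Y W)] with y h1 h2 h3 h4
  rw [h4, Pi.add_apply, h2, h3]
  refine h1.trans ?_
  by_cases hy : y ∈ Icc 0 Y <;> simp [hy]

theorem state_smul {Y : ℝ} (c : ℝ) {V : ℝ → ℝ} (hV : ContinuousOn V (Icc 0 Y)) :
    state Y (fun y => c * V y) = c • state Y V := by
  refine Lp.ext ?_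
  filter_upwards [state_coe (hV.const_smul c), state_coe hV,
    Lp.coeFn_smul c (state Y V)] with y h1 h2 h3
  rw [h3, Pi.smul_apply, h2]
  refine h1.trans ?_
  by_cases hy : y ∈ Icc 0 Y <;> simp [hy]

/-- Smooth functions with compact support in `(0, ∞)`. -/
def IsTest (p : ℝ → ℝ) : Prop :=
  ContDiff ℝ ∞ p ∧ ∃ a b : ℝ, 0 < a ∧ a ≤ b ∧ ∀ y, y ∉ Icc a b → p y = 0

theorem IsTest.memLp {p : ℝ → ℝ} (hp : IsTest p) : MemLp p 2 μ5 := by
  obtain ⟨a, b, -, -, h⟩ := hp.2
  exact hp.1.continuous.memLp_of_hasCompactSupport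
    (HasCompactSupport.intro isCompact_Icc h)

/-- A test function as an element of the state space. -/
noncomputable def testState {p : ℝ → ℝ} (hp : IsTest p) : H := hp.memLp.toLp p

theorem IsTest.add {p q : ℝ → ℝ} (hp : IsTest p) (hq : IsTest q) : IsTest (p + q) := by
  obtain ⟨a, b, ha, hab, h⟩ := hp.2
  obtain ⟨a', b', ha', hab', h'⟩ := hq.2
  refine ⟨hp.1.add hq.1, min a a', max b b', lt_min ha ha',
    (min_le_left _ _).trans (hab.trans (le_max_left _ _)), fun y hy => ?_⟩
  have h1 : y ∉ Icc a b := fun hm =>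
    hy ⟨(min_le_left _ _).trans hm.1, hm.2.trans (le_max_left _ _)⟩
  have h2 : y ∉ Icc a' b' := fun hm =>
    hy ⟨(min_le_right _ _).trans hm.1, hm.2.trans (le_max_right _ _)⟩
  simp [h y h1, h' y h2]

theorem IsTest.smul {p : ℝ → ℝ} (hp : IsTest p) (c : ℝ) : IsTest (c • p) := by
  obtain ⟨a, b, ha, hab, h⟩ := hp.2
  exact ⟨hp.1.const_smul c, a, b, ha, hab, fun y hy => by simp [h y hy]⟩

theorem isTest_zero : IsTest 0 :=
  ⟨contDiff_const, 1, 1, one_pos, le_rfl, fun _ _ => rfl⟩

/-- The test functions form a submodule. -/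
noncomputable def testSubmodule : Submodule ℝ H where
  carrier := {x | ∃ p : ℝ → ℝ, IsTest p ∧ (x : ℝ → ℝ) =ᵐ[μ5] p}
  add_mem' := by
    rintro x z ⟨p, hp, hx⟩ ⟨q, hq, hz⟩
    exact ⟨p + q, hp.add hq, (Lp.coeFn_add x z).trans (hx.add hz)⟩
  zero_mem' := ⟨0, isTest_zero, Lp.coeFn_zero _ _ _⟩
  smul_mem' := by
    rintro c x ⟨p, hp, hx⟩
    refine ⟨c • p, hp.smul c, (Lp.coeFn_smul c x).trans (hx.mono fun y hy => ?_)⟩
    simp [hy]

theorem μ5_Iic_zero : μ5 (Iic 0) = 0 := by
  unfold μ5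
  refine withDensity_absolutelyContinuous _ _ ?_
  rw [Measure.restrict_apply measurableSet_Iic, Set.Iic_inter_Ioi]
  simp

theorem testSubmodule_dense : Dense (testSubmodule : Set H) := by
  rw [Metric.dense_iff]
  intro x r hr
  have hd := MeasureTheory.Lp.dense_hasCompactSupport_contDiff (F := ℝ) (μ := μ5)
    (p := 2) (by norm_num)
  obtain ⟨z, hz, g, hzg, hgs, hgd⟩ := Metric.dense_iff.mp hd x (r / 2) (by positivity)
  have hgm : MemLp g 2 μ5 := hgd.continuous.memLp_of_hasCompactSupport hgs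
  obtain ⟨C, hC⟩ := hgs.exists_bound_of_continuous hgd.continuous
  obtain ⟨B, hB⟩ := hgs.isCompact.isBounded.subset_closedBall (0 : ℝ)
  set cut : ℕ → ℝ → ℝ := fun n y => Real.smoothTransition ((n + 1) * y - 1) with hcut
  have hcd : ∀ n, ContDiff ℝ ∞ (cut n) := fun n =>
    Real.smoothTransition.contDiff.comp ((contDiff_const.mul contDiff_id).sub contDiff_const)
  have hlim : Tendsto (fun n => ∫ y, ((1 - cut n y) * g y) ^ 2 ∂μ5) atTop (𝓝 0) := by
    rw [show (0:ℝ) = ∫ _y, (0:ℝ) ∂μ5 from (integral_zero _ _).symm]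
    refine tendsto_integral_of_dominated_convergence (fun _ => C ^ 2) (fun n => ?_)
      (integrable_const _) (fun n => Eventually.of_forall fun y => ?_) ?_
    · exact (((continuous_const.sub (hcd n).continuous).mul hgd.continuous).pow 2
        ).aestronglyMeasurable
    · have h0 := Real.smoothTransition.nonneg ((n + 1) * y - 1)
      have h1 := Real.smoothTransition.le_one ((n + 1) * y - 1)
      have h2 : |g y| ≤ C := by simpa [Real.norm_eq_abs] using hC y
      rw [Real.norm_eq_abs, abs_pow, abs_mul]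
      refine pow_le_pow_left₀ (by positivity) ?_ 2
      refine (mul_le_of_le_one_left (abs_nonneg _) ?_).trans h2
      rw [abs_le]; constructor <;> simp only [hcut] <;> linarith
    · have hpos : ∀ᵐ y ∂μ5, 0 < y :=
        ae_iff.2 (by simpa [← Iic_def] using μ5_Iic_zero)
      filter_upwards [hpos] with y hy
      refine tendsto_const_nhds.congr' ?_
      obtain ⟨N, hN⟩ := exists_nat_gt (2 / y)
      refine eventually_atTop.2 ⟨N, fun n hn => ?_⟩
      have : (2:ℝ) ≤ (n + 1) * y := by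
        have h1 : (N:ℝ) ≤ n := by exact_mod_cast hn
        have h2 : 2 < (N:ℝ) * y := (div_lt_iff₀ hy).1 hN
        nlinarith
      simp [hcut, Real.smoothTransition.one_of_one_le
        (show (1:ℝ) ≤ (n + 1) * y - 1 by linarith)]
  obtain ⟨n, hn⟩ := (hlim.eventually (gt_mem_nhds (show (0:ℝ) < (r / 2) ^ 2 by positivity))).exists
  have hp : IsTest fun y => cut n y * g y := by
    refine ⟨(hcd n).mul hgd, 1 / ((n:ℝ) + 1), max (1 / ((n:ℝ) + 1)) B, by positivity,
      le_max_left _ _, fun y hy => ?_⟩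
    by_contra hne
    obtain ⟨hc0, hg0⟩ := mul_ne_zero_iff.1 hne
    apply hy
    constructor
    · by_contra hlt
      apply hc0
      refine Real.smoothTransition.zero_of_nonpos ?_
      have : y * ((n:ℝ) + 1) < 1 := (lt_div_iff₀ (by positivity)).1 (not_le.1 hlt)
      linarith
    · have := hB (subset_tsupport g hg0)
      rw [Metric.mem_closedBall, dist_zero_right, Real.norm_eq_abs] at this
      exact (le_abs_self y).trans (this.trans (le_max_right _ _))
  refine ⟨testState hp, ?_, ⟨_, hp, MemLp.coeFn_toLp _⟩⟩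
  rw [Metric.mem_ball] at hz ⊢
  have hsq : ‖testState hp - z‖ ^ 2 < (r / 2) ^ 2 := by
    rw [norm_sq_eq]
    refine lt_of_eq_of_lt (integral_congr_ae ?_) hn
    filter_upwards [Lp.coeFn_sub (testState hp) z, hp.memLp.coeFn_toLp, hzg] with y h1 h2 h3
    rw [h1, Pi.sub_apply, h3]
    show ((testState hp : ℝ → ℝ) y - g y) ^ 2 = _
    rw [show (testState hp : ℝ → ℝ) y = cut n y * g y from h2]
    ring
  have h' : ‖testState hp - z‖ < r / 2 := lt_of_pow_lt_pow_left₀ 2 (by positivity) hsq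
  rw [dist_comm] at hz
  calc dist (testState hp) x ≤ dist (testState hp) z + dist z x := dist_triangle _ _ _
    _ < r := by rw [dist_eq_norm (testState hp) z, dist_comm z x]; linarith

end Vale.Agent.P264.LinOp
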