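import Vale.Agent.P264.Setup
import Vale.Agent.P264.LinOp.Space

/-!
What the linear-operator module delivers to the assembly.
-/

namespace Vale.Agent.P264.LinOp

open Set Filter Topology
open scoped ContDiff

/-- Rescaled coefficient, as in `Dict.SnapEqnTarget`. -/
noncomputable def rcoef (a : ℝ → ℝ → ℝ) (s z : ℝ) : ℝ :=
  Real.exp s * a (tof s) (Real.exp (-s / 2) * z)

/-- The state of a potential at rescaled time `s`. -/
noncomputable def stateAt (L : ℝ) (w : ℝ → ℝ → ℝ) (s : ℝ) : H :=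
  state (Ys L s) (snap w s)

/-- Conditions on a coefficient over the window `[s₀, s₀ + T]`: an energy coefficient with
constant `M` that is `δ`-close to the shrinker's `F ^ 2` up to `y = 1/δ`. -/
structure Good (σ : Shrinker) (M δ L : ℝ) (a : ℝ → ℝ → ℝ) (s₀ T : ℝ) : Prop where
  δ_pos : 0 < δ
  start : 0 ≤ s₀
  long : 1 / δ ≤ L
  smooth : ContDiffOn ℝ ∞ (Function.uncurry a) (Ico 0 1 ×ˢ Icc 0 L)
  edge : ∀ s ∈ Icc s₀ (s₀ + T), rcoef a s (Ys L s) = 0 ∧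
    derivWithin (rcoef a s) (Icc 0 (Ys L s)) (Ys L s) = 0
  pos : ∀ s ∈ Icc s₀ (s₀ + T), ∀ y ∈ Ioo 0 (Ys L s), 0 < rcoef a s y
  upper : ∀ s ∈ Icc s₀ (s₀ + T), ∀ y ∈ Ioo 0 (Ys L s), rcoef a s y ≤ M * y ^ 2
  slope : ∀ s ∈ Icc s₀ (s₀ + T), ∀ y ∈ Ioo 0 (Ys L s),
    deriv (rcoef a s) y ^ 2 ≤ M * rcoef a s y
  close : ∀ s ∈ Icc s₀ (s₀ + T), ∀ y ∈ Ioo 0 (1 / δ),
    |rcoef a s y - (y * σ.q y) ^ 2| ≤ δ * (y * σ.q y) ^ 2
  origin : ∀ s ∈ Icc s₀ (s₀ + T),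
    Tendsto (fun y => rcoef a s y / y ^ 2) (𝓝[>] 0) (𝓝 1)

/-- The forcing of a potential is at most `F` on the window. -/
def Forced (F L : ℝ) (f : ℝ → ℝ → ℝ) (s₀ T : ℝ) : Prop :=
  0 ≤ F ∧ ∀ s ∈ Icc s₀ (s₀ + T), ∀ y ∈ Ioo 0 (Ys L s),
    rho 5 y * (Real.exp (-s / 2) * f (tof s) (Real.exp (-s / 2) * y)) ^ 2 * (1 + y ^ 2) ≤ F ^ 2

/-- Homogeneous potentials with good coefficient and prescribed test data exist. This is the only
place where the assumption that every datum has a flow enters; proved by the assembly. -/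
def Exist (σ : Shrinker) (M : ℝ) : Prop :=
  ∀ p : ℝ → ℝ, IsTest p → ∀ δ T : ℝ, 0 < δ → 0 ≤ T →
    ∃ (L : ℝ) (a w : ℝ → ℝ → ℝ), Pot L a (fun _ _ => 0) w ∧ Good σ M δ L a 0 T ∧
      (∀ y, L ≤ y → p y = 0) ∧ ∀ x ∈ Icc 0 L, w 0 x = p x

/-- The time-one operator of the linearisation at the shrinker, its finite rank defect, and the
comparison with every potential whose coefficient is close to the shrinker's on a long interval. -/
def LinOpTarget : Prop :=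
  ∀ (σ : Shrinker) (M : ℝ), Exist σ M →
    ∃ (B P : H →L[ℝ] H) (θ C₁ : ℝ), 0 ≤ θ ∧ θ < 1 ∧
      FiniteDimensional ℝ (LinearMap.range P.toLinearMap) ∧
      (∀ v, ‖B (v - P v)‖ ≤ θ * ‖v‖) ∧
      ∀ (m : ℕ) (ε : ℝ), 0 < ε → ∃ δ₀ C : ℝ, 0 < δ₀ ∧ 0 < C ∧
        ∀ (δ L s₀ F : ℝ) (a f w : ℝ → ℝ → ℝ), δ ≤ δ₀ → Pot L a f w →
          Good σ M δ L a s₀ m → Forced F L f s₀ m →
          ‖stateAt L w (s₀ + m) - (B ^ m) (stateAt L w s₀)‖
            ≤ (C₁ * θ ^ m + ε) * ‖stateAt L w s₀‖ + C * F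

end Vale.Agent.P264.LinOp
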