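import Vale.Agent.P264.LinOp.Comb

/-!
The integrated comparison of three potentials in the state space.
-/

namespace Vale.Agent.P264.LinOp

open Set Filter Topology MeasureTheory
open scoped ContDiff

/-- A combination of zero extensions, cut below `K` and split at `R`. -/
theorem combo_split {K R : ℝ} (hR : 0 ≤ R) (hRK : R ≤ K) (α β : ℝ) {YU YV YW : ℝ} {u v z κ : ℝ → ℝ}
    (hKu : K ≤ YU) (hKv : K ≤ YV) (hKz : K ≤ YW) (hu : ContinuousOn u (Icc 0 YU))
    (hv : ContinuousOn v (Icc 0 YV)) (hz : ContinuousOn z (Icc 0 YW)) (hκ : Continuous κ)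
    (h0 : ∀ y, 0 ≤ κ y) (h1 : ∀ y, κ y ≤ 1) (hone : ∀ y ≤ R, κ y = 1) :
    wsq 5 8 κ K (fun y => u y - α * v y - β * z y)
        ≤ ‖state YU u - α • state YV v - β • state YW z‖ ^ 2 ∧
      ‖state YU u - α • state YV v - β • state YW z‖ ^ 2
        ≤ wsq 5 8 κ K (fun y => u y - α * v y - β * z y)
          + 3 * (‖tail R (state YU u)‖ ^ 2 + α ^ 2 * ‖tail R (state YV v)‖ ^ 2
            + β ^ 2 * ‖tail R (state YW z)‖ ^ 2) := by
  have hK : 0 ≤ K := hR.trans hRK
  set x := state YU u - α • state YV v - β • state YW z with hx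
  set g : ℝ → ℝ := fun y => κ y ^ 8 * (u y - α * v y - β * z y) ^ 2 with hg
  have hgc : ContinuousOn g (Icc 0 K) :=
    (hκ.pow 8).continuousOn.mul ((((hu.mono (Icc_subset_Icc le_rfl hKu))).sub
      (continuousOn_const.mul (hv.mono (Icc_subset_Icc le_rfl hKv)))).sub
      (continuousOn_const.mul (hz.mono (Icc_subset_Icc le_rfl hKz))) |>.pow 2)
  have hgi : Integrable ((Icc 0 K).indicator g) μ5 :=
    (hgc.integrableOn_Icc).integrable_indicator measurableSet_Icc
  have eZ : wsq 5 8 κ K (fun y => u y - α * v y - β * z y)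
      = ∫ y, (Icc 0 K).indicator g y ∂μ5 := by
    rw [integral_state hK, wsq]
    exact intervalIntegral.integral_congr fun y _ => by simp only [hg]; ring
  have hpos : ∀ᵐ y ∂μ5, 0 < y := ae_iff.2 (by simpa [← Iic_def] using μ5_Iic_zero)
  have hae : ∀ᵐ y ∂μ5, x y = (Icc 0 YU).indicator u y - α * (Icc 0 YV).indicator v y
      - β * (Icc 0 YW).indicator z y := by
    filter_upwards [Lp.coeFn_sub (state YU u - α • state YV v) (β • state YW z),
      Lp.coeFn_sub (state YU u) (α • state YV v), Lp.coeFn_smul α (state YV v),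
      Lp.coeFn_smul β (state YW z), state_coe hu, state_coe hv, state_coe hz]
      with y e1 e2 e3 e4 e5 e6 e7
    rw [hx, e1, Pi.sub_apply, e2, Pi.sub_apply, e3, e4, Pi.smul_apply, Pi.smul_apply, e5, e6, e7,
      smul_eq_mul, smul_eq_mul]
  have hin : ∀ y ∈ Icc 0 K, (Icc 0 YU).indicator u y = u y ∧ (Icc 0 YV).indicator v y = v y ∧
      (Icc 0 YW).indicator z y = z y := fun y hy =>
    ⟨indicator_of_mem (show y ∈ Icc 0 YU from ⟨hy.1, hy.2.trans hKu⟩) _,
      indicator_of_mem (show y ∈ Icc 0 YV from ⟨hy.1, hy.2.trans hKv⟩) _,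
      indicator_of_mem (show y ∈ Icc 0 YW from ⟨hy.1, hy.2.trans hKz⟩) _⟩
  have hx2 := (Lp.memLp x).integrable_sq
  rw [eZ, norm_sq_eq x]
  constructor
  · refine integral_mono_ae hgi hx2 ?_
    filter_upwards [hae] with y hy
    by_cases hm : y ∈ Icc 0 K
    · obtain ⟨a, b, c⟩ := hin y hm
      rw [indicator_of_mem hm, hy, a, b, c]
      exact mul_le_of_le_one_left (sq_nonneg _) (pow_le_one₀ (h0 y) (h1 y))
    · rw [indicator_of_notMem hm]; exact sq_nonneg _
  · have ht : ∀ X : H, Integrable ((Ioi R).indicator fun y => X y ^ 2) μ5 := fun X =>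
      (Lp.memLp X).integrable_sq.indicator measurableSet_Ioi
    rw [norm_tail_sq, norm_tail_sq, norm_tail_sq, ← integral_const_mul (α ^ 2),
      ← integral_const_mul (β ^ 2), ← integral_add (ht _) ((ht _).const_mul _),
      ← integral_add ((ht _).fun_add ((ht _).const_mul _)) ((ht _).const_mul _),
      ← integral_const_mul, ← integral_add hgi
        ((((ht _).fun_add ((ht _).const_mul _)).fun_add ((ht _).const_mul _)).const_mul _)]
    refine integral_mono_ae hx2 (hgi.fun_add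
      ((((ht _).fun_add ((ht _).const_mul _)).fun_add ((ht _).const_mul _)).const_mul _)) ?_
    filter_upwards [hae, hpos, state_coe hu, state_coe hv, state_coe hz] with y hy hy0 e5 e6 e7
    have hg0 : 0 ≤ (Icc 0 K).indicator g y :=
      indicator_nonneg (fun a _ => by simp only [hg]; positivity [h0 a]) y
    rw [hy]
    by_cases hm : y ∈ Ioi R
    · simp only [indicator_of_mem hm, e5, e6, e7]
      linarith [sq_add_le α β ((Icc 0 YU).indicator u y) ((Icc 0 YV).indicator v y)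
        ((Icc 0 YW).indicator z y)]
    · have hyR : y ≤ R := not_lt.1 hm
      have hm' : y ∈ Icc 0 K := ⟨hy0.le, hyR.trans hRK⟩
      obtain ⟨a, b, c⟩ := hin y hm'
      simp [indicator_of_notMem hm, indicator_of_mem hm', hg, a, b, c, hone y hyR]

/-- The near part of a combination stays small. -/
theorem lyap (hi : Inputs) (σ : Shrinker) (M T : ℝ) : ∃ C : ℝ, 0 < C ∧
    ∀ (δ F α β R : ℝ) (U : Tr σ M δ T F) (V W : Tr σ M δ T 0),
      δ ≤ 1 / 1000 → 1 ≤ R → 2 * R < 1 / δ → 1 / R ^ 2 ≤ δ → ∀ r ∈ Icc 0 T,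
      wsq 5 8 (fun y => Real.smoothTransition (-1 / R * y + 2)) (2 * R)
          (fun y => snap U.w (U.s₀ + r) y - α * snap V.w (V.s₀ + r) y - β * snap W.w (W.s₀ + r) y)
        ≤ C * (wsq 5 8 (fun y => Real.smoothTransition (-1 / R * y + 2)) (2 * R)
            (fun y => snap U.w (U.s₀ + 0) y - α * snap V.w (V.s₀ + 0) y
              - β * snap W.w (W.s₀ + 0) y)
          + δ * (‖U.st 0‖ ^ 2 + α ^ 2 * ‖V.st 0‖ ^ 2 + β ^ 2 * ‖W.st 0‖ ^ 2) + F ^ 2) := by
  obtain ⟨E, hE, hap⟩ := apriori hi σ M T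
  obtain ⟨Cc, hCc, hcomb⟩ := comb_deriv hi σ M
  obtain ⟨δe, hδe, -, hfull⟩ := full hi σ
  obtain ⟨c, C₁, hc, hC₁, hfull⟩ := hfull M
  set k := Cc + C₁ with hk
  set P := Real.exp (k * |T|) + |T| * Real.exp (2 * k * |T|) with hP
  refine ⟨P * (1 + Cc / c + Cc * E + 2), by positivity,
    fun δ F α β R U V W hδ1 hR1 hRδ hR2 r hr => ?_⟩
  have hT : 0 ≤ T := hr.1.trans hr.2
  rw [abs_of_nonneg hT] at hP
  have hδ0 := U.good.δ_pos
  set κ : ℝ → ℝ := fun y => Real.smoothTransition (-1 / R * y + 2) with hκ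
  have hκc : Continuous κ := Real.smoothTransition.continuous.comp (by fun_prop)
  have hpt : ∀ {G : ℝ} (X : Tr σ M δ T G), ∀ p ∈ Icc 0 T, X.s₀ + p ∈ Icc X.s₀ (X.s₀ + T) :=
    fun X p hp => ⟨by linarith [hp.1], by linarith [hp.2]⟩
  have hs : ∀ {G : ℝ} (X : Tr σ M δ T G), ∀ p ∈ Icc 0 T, 0 ≤ X.s₀ + p := fun X p hp => by
    linarith [X.good.start, hp.1]
  set Z : ℝ → ℝ := fun p => wsq 5 8 κ (2 * R) (fun y => snap U.w (U.s₀ + p) y
    - α * snap V.w (V.s₀ + p) y - β * snap W.w (W.s₀ + p) y) with hZ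
  set nU := ‖U.st 0‖ ^ 2
  set nV := ‖V.st 0‖ ^ 2
  set nW := ‖W.st 0‖ ^ 2
  set S := nU + α ^ 2 * nV + β ^ 2 * nW with hS
  have hN0 : ∀ {G : ℝ} (X : Tr σ M δ T G), normN X.L X.w X.s₀ = ‖X.st 0‖ ^ 2 := fun X => by
    rw [X.norm_sq le_rfl, add_zero]
  have hapX : ∀ {G : ℝ} (X : Tr σ M δ T G), ∀ p ∈ Icc 0 T,
      normN X.L X.w (X.s₀ + p) ≤ E * (‖X.st 0‖ ^ 2 + G ^ 2) := fun X p hp => by
    rw [← hN0 X]
    exact hap δ X.L X.s₀ _ X.a X.f X.w X.pot X.good X.forced hδ1 _ (hpt X p hp)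
  set γ := Cc * δ ^ 2 / c with hγ
  have hγ0 : 0 ≤ γ := by positivity
  set Q : ℝ → ℝ := fun p => Z p
    + γ * (α ^ 2 * normN V.L V.w (V.s₀ + p) + β ^ 2 * normN W.L W.w (W.s₀ + p)) with hQ
  have hcN : ∀ {G : ℝ} (X : Tr σ M δ T G),
      ContinuousOn (fun p => normN X.L X.w (X.s₀ + p)) (Icc 0 T) := fun X => by
    have h : ContinuousOn (normN X.L X.w) (Icc X.s₀ (X.s₀ + T)) :=
      (continuousOn_wsq X.pot.smooth (good_pos X.good) continuous_const 0 X.good.start
        (show X.s₀ ≤ X.s₀ + T by linarith) (κ := fun _ => 1)).congr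
        fun p _ => normN_eq X.L X.w p
    exact h.comp (f := fun p => X.s₀ + p) (by fun_prop) fun p hp => hpt X p hp
  have hcZ : ContinuousOn Z (Icc 0 T) := by
    refine Middle.continuousOn_slice_integral (by linarith) hT ?_
    have sm : ∀ {G : ℝ} (X : Tr σ M δ T G), ContinuousOn
        (fun q : ℝ × ℝ => snap X.w (X.s₀ + q.1) q.2) (Icc 0 T ×ˢ Icc 0 (2 * R)) := fun X =>
      (snap_smooth2 X.pot.smooth (good_pos X.good) X.good.start
        (hRδ.le.trans X.good.long)).continuousOn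
    exact (((hκc.comp continuous_snd).pow 8).mul
      ((continuous_rho 5).comp continuous_snd)).continuousOn.mul
      ((((sm U).sub (continuousOn_const.mul (sm V))).sub (continuousOn_const.mul (sm W))).pow 2)
  have hcQ : ContinuousOn Q (Icc 0 T) :=
    hcZ.add (continuousOn_const.mul ((continuousOn_const.mul (hcN V)).add
      (continuousOn_const.mul (hcN W))))
  set G := Cc * E * δ * (S + F ^ 2) + 2 * F ^ 2 with hG
  have hd : ∀ p ∈ Ioo 0 T, HasDerivAt Q (deriv Q p) p ∧ deriv Q p ≤ k * Q p + G := by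
    intro p hp
    have hpI := Ioo_subset_Icc_self hp
    obtain ⟨Z', hZ', hZb⟩ := hcomb δ T F α β R U V W hδ1 hR1 hRδ p hp
    have hpo : ∀ {G : ℝ} (X : Tr σ M δ T G), X.s₀ + p ∈ Ioo X.s₀ (X.s₀ + T) := fun X =>
      ⟨by linarith [hp.1], by linarith [hp.2]⟩
    obtain ⟨NV, hNV, hVb⟩ := hfull δ V.L V.s₀ T 0 _ V.a V.f V.w V.pot V.good V.forced hδ1 (hpo V)
    obtain ⟨NW, hNW, hWb⟩ := hfull δ W.L W.s₀ T 0 _ W.a W.f W.w W.pot W.good W.forced hδ1 (hpo W)
    have hsum := hZ'.add ((((hNV.comp_const_add V.s₀ p).const_mul (α ^ 2)).add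
      ((hNW.comp_const_add W.s₀ p).const_mul (β ^ 2))).const_mul γ)
    refine ⟨hsum.deriv.symm ▸ hsum, ?_⟩
    rw [show deriv Q p = Z' + γ * (α ^ 2 * NV + β ^ 2 * NW) from hsum.deriv]
    have one : ∀ (X : Tr σ M δ T 0) (N' : ℝ), N' ≤ -normN X.L X.w (X.s₀ + p)
          - c * (diss 5 (fun _ => 1) (Ys X.L (X.s₀ + p)) (rcoef X.a (X.s₀ + p))
            (snap X.w (X.s₀ + p)) + near δe (snap X.w (X.s₀ + p)))
          + C₁ * loss 5 (fun _ => 1) (Ys X.L (X.s₀ + p)) (snap X.w (X.s₀ + p)) + 2 * (0:ℝ) ^ 2 →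
        N' ≤ C₁ * normN X.L X.w (X.s₀ + p)
          - c * diss 5 (fun _ => 1) (Ys X.L (X.s₀ + p)) (rcoef X.a (X.s₀ + p))
            (snap X.w (X.s₀ + p)) := by
      intro X N' hb
      have hl := loss_le (Ys_pos (s := X.s₀ + p) (good_pos X.good)).le (κ := fun _ => (1:ℝ))
        continuous_const (snap_slice X.pot.smooth (hs X p hpI)).continuousOn (c := 1)
        fun y _ => by rw [one_pow, div_le_one (by positivity)]; linarith [sq_nonneg y]
      rw [one_mul, ← normN] at hl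
      have := normN_nonneg (good_pos X.good) X.w (X.s₀ + p)
      have := mul_nonneg hc.le (near_nonneg hδe.le (snap X.w (X.s₀ + p)))
      linarith [mul_le_mul_of_nonneg_left hl hC₁.le]
    have hV' := mul_le_mul_of_nonneg_left (one V NV hVb) (mul_nonneg hγ0 (sq_nonneg α))
    have hW' := mul_le_mul_of_nonneg_left (one W NW hWb) (mul_nonneg hγ0 (sq_nonneg β))
    set nu := normN U.L U.w (U.s₀ + p)
    set nv := normN V.L V.w (V.s₀ + p)
    set nw := normN W.L W.w (W.s₀ + p)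
    set dv := diss 5 (fun _ => 1) (Ys V.L (V.s₀ + p)) (rcoef V.a (V.s₀ + p)) (snap V.w (V.s₀ + p))
    set dw := diss 5 (fun _ => 1) (Ys W.L (W.s₀ + p)) (rcoef W.a (W.s₀ + p)) (snap W.w (W.s₀ + p))
    have hsum' : nu + α ^ 2 * nv + β ^ 2 * nw ≤ E * (S + F ^ 2) := by
      have := hapX U p hpI
      have := mul_le_mul_of_nonneg_left (hapX V p hpI) (sq_nonneg α)
      have := mul_le_mul_of_nonneg_left (hapX W p hpI) (sq_nonneg β)
      rw [hS]
      linarith
    have hR' : Cc / R ^ 2 * (nu + α ^ 2 * nv + β ^ 2 * nw) ≤ Cc * E * δ * (S + F ^ 2) := by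
      have hn : 0 ≤ nu + α ^ 2 * nv + β ^ 2 * nw := by
        have := normN_nonneg (good_pos U.good) U.w (U.s₀ + p)
        have := normN_nonneg (good_pos V.good) V.w (V.s₀ + p)
        have := normN_nonneg (good_pos W.good) W.w (W.s₀ + p)
        positivity
      calc _ = Cc * (1 / R ^ 2 * (nu + α ^ 2 * nv + β ^ 2 * nw)) := by ring
        _ ≤ Cc * (δ * (E * (S + F ^ 2))) :=
            mul_le_mul_of_nonneg_left (mul_le_mul hR2 hsum' hn hδ0.le) hCc.le
        _ = _ := by ring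
    have e1 : γ * α ^ 2 * (C₁ * nv - c * dv) + γ * β ^ 2 * (C₁ * nw - c * dw)
        = γ * C₁ * (α ^ 2 * nv + β ^ 2 * nw) - Cc * δ ^ 2 * (α ^ 2 * dv + β ^ 2 * dw) := by
      rw [hγ]; field_simp; ring
    have hnn : 0 ≤ α ^ 2 * nv + β ^ 2 * nw := by
      have := normN_nonneg (good_pos V.good) V.w (V.s₀ + p)
      have := normN_nonneg (good_pos W.good) W.w (W.s₀ + p)
      positivity
    have hZ0 : 0 ≤ Z p := integral_nonneg_Ioo (by linarith) fun y hy => by
      have := rho_nonneg 5 hy.1.le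
      have := pow_nonneg (Real.smoothTransition.nonneg (-1 / R * y + 2)) 8
      positivity
    have hQp : k * Q p = Cc * Z p + C₁ * Z p + Cc * (γ * (α ^ 2 * nv + β ^ 2 * nw))
        + γ * C₁ * (α ^ 2 * nv + β ^ 2 * nw) := by
      simp only [hQ, hk]; ring
    have := mul_nonneg hC₁.le hZ0
    have := mul_nonneg hCc.le (mul_nonneg hγ0 hnn)
    simp only [hZ] at hQp hZ0 this ⊢
    linarith
  have hg := gron (by positivity) hcQ (fun p hp => (hd p hp).1) (fun p hp => (hd p hp).2) r hr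
  rw [sub_zero, sub_zero] at hg
  have hQ0 : Q 0 ≤ Z 0 + δ * (Cc / c) * S := by
    simp only [hQ, hS, add_zero, hN0]
    refine add_le_add le_rfl ?_
    have hγδ : γ ≤ δ * (Cc / c) := by
      rw [hγ]
      calc Cc * δ ^ 2 / c = δ * (δ * (Cc / c)) := by ring
        _ ≤ 1 * (δ * (Cc / c)) := mul_le_mul_of_nonneg_right (by linarith) (by positivity)
        _ = _ := one_mul _
    exact mul_le_mul hγδ (by linarith [sq_nonneg (‖U.st 0‖)]) (by positivity) (by positivity)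
  set d := Z 0
  have hd0 : 0 ≤ d := integral_nonneg_Ioo (by linarith) fun y hy => by
    have := rho_nonneg 5 hy.1.le
    have := pow_nonneg (Real.smoothTransition.nonneg (-1 / R * y + 2)) 8
    positivity
  have hek : Real.exp (k * r) ≤ Real.exp (k * T) :=
    Real.exp_le_exp.2 (mul_le_mul_of_nonneg_left hr.2 (by positivity))
  have hS0 : 0 ≤ S := by positivity
  have hδS : 0 ≤ δ * S := by positivity
  have hZr : Z r ≤ P * (1 + Cc / c + Cc * E + 2) * (d + δ * S + F ^ 2) := by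
    have h1 : Z r ≤ Q r := by
      simp only [hQ]
      have := normN_nonneg (good_pos V.good) V.w (V.s₀ + r)
      have := normN_nonneg (good_pos W.good) W.w (W.s₀ + r)
      have : 0 ≤ γ * (α ^ 2 * normN V.L V.w (V.s₀ + r) + β ^ 2 * normN W.L W.w (W.s₀ + r)) := by
        positivity
      linarith
    have hq : Q 0 ≤ (1 + Cc / c + Cc * E + 2) * (d + δ * S + F ^ 2) := by
      refine hQ0.trans ?_
      have : 0 ≤ Cc / c := by positivity
      have := mul_nonneg (show 0 ≤ Cc / c + Cc * E + 2 by positivity) hd0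
      have := mul_nonneg (show 0 ≤ 1 + Cc * E + 2 by positivity) hδS
      have := mul_nonneg (show 0 ≤ 1 + Cc / c + Cc * E + 2 by positivity) (sq_nonneg F)
      linarith
    have hgG : G ≤ (1 + Cc / c + Cc * E + 2) * (d + δ * S + F ^ 2) := by
      rw [hG]
      have h3 := mul_le_mul_of_nonneg_left (show δ * F ^ 2 ≤ F ^ 2 from
        mul_le_of_le_one_left (sq_nonneg F) (by linarith)) (show 0 ≤ Cc * E by positivity)
      have := mul_nonneg (show 0 ≤ 1 + Cc / c + Cc * E + 2 by positivity) hd0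
      have := mul_nonneg (show 0 ≤ 1 + Cc / c + 2 by positivity) hδS
      have := mul_nonneg (show 0 ≤ 1 + Cc / c by positivity) (sq_nonneg F)
      linarith
    have hz' : 0 ≤ Real.exp (k * T) := (Real.exp_pos _).le
    have hQ00 : 0 ≤ Q 0 := by
      have : 0 ≤ Z 0 := integral_nonneg_Ioo (by linarith) fun y hy => by
        have := rho_nonneg 5 hy.1.le
        have := pow_nonneg (Real.smoothTransition.nonneg (-1 / R * y + 2)) 8
        positivity
      have := normN_nonneg (good_pos V.good) V.w (V.s₀ + 0)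
      have := normN_nonneg (good_pos W.good) W.w (W.s₀ + 0)
      simp only [hQ]
      positivity
    rw [abs_of_pos (show 0 < k by positivity)] at hg
    have h5 : Q r ≤ P * ((1 + Cc / c + Cc * E + 2) * (d + δ * S + F ^ 2)) := by
      refine hg.trans ?_
      rw [hP, add_mul (Real.exp (k * T))]
      refine add_le_add (mul_le_mul hek hq hQ00 hz') ?_
      calc G * T * Real.exp (2 * k * T) = T * Real.exp (2 * k * T) * G := by ring
        _ ≤ _ := mul_le_mul_of_nonneg_left hgG (by positivity)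
    linarith
  exact hZr

/-- States of three potentials stay close when their coefficients are close to the shrinker. -/
theorem main_est (hi : Inputs) (σ : Shrinker) (M T : ℝ) : ∃ C δ₀ : ℝ, 0 < C ∧ 0 < δ₀ ∧
    ∀ (δ F α β : ℝ) (U : Tr σ M δ T F) (V W : Tr σ M δ T 0), δ ≤ δ₀ → ∀ r ∈ Icc 0 T,
      ‖U.st r - α • V.st r - β • W.st r‖ ^ 2
        ≤ 3 * Real.exp (-r) * (‖tail (Real.sqrt δ)⁻¹ (U.st 0)‖ ^ 2
            + α ^ 2 * ‖tail (Real.sqrt δ)⁻¹ (V.st 0)‖ ^ 2
            + β ^ 2 * ‖tail (Real.sqrt δ)⁻¹ (W.st 0)‖ ^ 2)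
          + C * (‖U.st 0 - α • V.st 0 - β • W.st 0‖ ^ 2
            + δ * (‖U.st 0‖ ^ 2 + α ^ 2 * ‖V.st 0‖ ^ 2 + β ^ 2 * ‖W.st 0‖ ^ 2) + F ^ 2) := by
  obtain ⟨C₂, hC₂, htail⟩ := tail_est hi σ M T
  obtain ⟨C₃, hC₃, hly⟩ := lyap hi σ M T
  refine ⟨3 * C₂ + C₃, min (1 / 1000) ((5 * Real.exp (|T| / 2))⁻¹ ^ 2), by positivity,
    by positivity, fun δ F α β U V W hδ r hr => ?_⟩
  have hT : 0 ≤ T := hr.1.trans hr.2
  rw [abs_of_nonneg hT] at hδ
  have hδ0 := U.good.δ_pos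
  have hδ1 : δ ≤ 1 / 1000 := hδ.trans (min_le_left _ _)
  set sd := Real.sqrt δ with hsd
  have hsd0 : 0 < sd := Real.sqrt_pos.2 hδ0
  have hsd2 : sd * sd = δ := Real.mul_self_sqrt hδ0.le
  have heT : 1 ≤ Real.exp (T / 2) := Real.one_le_exp (by linarith)
  have hsdT : sd * (5 * Real.exp (T / 2)) ≤ 1 := by
    have h := Real.sqrt_le_sqrt (hδ.trans (min_le_right _ _))
    rw [Real.sqrt_sq (by positivity)] at h
    have := mul_le_mul_of_nonneg_right h (show 0 ≤ 5 * Real.exp (T / 2) by positivity)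
    rwa [inv_mul_cancel₀ (by positivity), ← hsd] at this
  set R₀ := sd⁻¹ with hR₀
  have hR₀1 : 1 ≤ R₀ := by
    rw [hR₀]
    refine (one_le_inv₀ hsd0).2 ?_
    nlinarith
  set R := 2 * R₀ * Real.exp (T / 2) with hR
  have hR1 : 1 ≤ R := by
    have := mul_le_mul (show 1 ≤ 2 * R₀ by linarith) heT zero_le_one (by linarith)
    linarith
  have hRδ : 2 * R < 1 / δ := by
    have h4 : 4 * Real.exp (T / 2) * sd < 1 := by
      nlinarith [mul_pos (Real.exp_pos (T / 2)) hsd0]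
    calc 2 * R = 4 * Real.exp (T / 2) * sd / δ := by
          rw [hR, hR₀, ← hsd2]; field_simp; ring
      _ < 1 / δ := div_lt_div_of_pos_right h4 hδ0
  have hR2 : 1 / R ^ 2 ≤ δ := by
    have : R₀ ≤ R := by
      rw [hR]; nlinarith
    calc 1 / R ^ 2 ≤ 1 / R₀ ^ 2 :=
          one_div_le_one_div_of_le (by positivity) (pow_le_pow_left₀ (by linarith) this 2)
      _ = δ := by rw [hR₀, inv_pow, one_div, inv_inv, sq, hsd2]
  have hR02 : 1 / R₀ ^ 2 = δ := by rw [hR₀, inv_pow, one_div, inv_inv, sq, hsd2]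
  set κ : ℝ → ℝ := fun y => Real.smoothTransition (-1 / R * y + 2) with hκ
  have hκc : Continuous κ := Real.smoothTransition.continuous.comp (by fun_prop)
  have hone : ∀ y ≤ R, κ y = 1 := fun y hy => by
    refine Real.smoothTransition.one_of_one_le ?_
    have h1 : y / R ≤ 1 := (div_le_one (by linarith)).2 hy
    rw [show -1 / R * y = -(y / R) by ring]; linarith
  have hpt : ∀ {G : ℝ} (X : Tr σ M δ T G), ∀ p ∈ Icc 0 T, X.s₀ + p ∈ Icc X.s₀ (X.s₀ + T) :=
    fun X p hp => ⟨by linarith [hp.1], by linarith [hp.2]⟩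
  have hs : ∀ {G : ℝ} (X : Tr σ M δ T G), ∀ p ∈ Icc 0 T, 0 ≤ X.s₀ + p := fun X p hp => by
    linarith [X.good.start, hp.1]
  have hKY : ∀ {G : ℝ} (X : Tr σ M δ T G), ∀ p ∈ Icc 0 T, 2 * R ≤ Ys X.L (X.s₀ + p) :=
    fun X p hp => hRδ.le.trans (X.good.long.trans (le_Ys (good_pos X.good) (hs X p hp)))
  have hsplit : ∀ p ∈ Icc 0 T, _ ∧ _ := fun p hp =>
    combo_split (K := 2 * R) (R := R) (by linarith) (by linarith) α β (hKY U p hp) (hKY V p hp)
      (hKY W p hp) (snap_slice U.pot.smooth (hs U p hp)).continuousOn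
      (snap_slice V.pot.smooth (hs V p hp)).continuousOn
      (snap_slice W.pot.smooth (hs W p hp)).continuousOn hκc
      (fun y => Real.smoothTransition.nonneg _) (fun y => Real.smoothTransition.le_one _) hone
  have hN0 : ∀ {G : ℝ} (X : Tr σ M δ T G), normN X.L X.w X.s₀ = ‖X.st 0‖ ^ 2 := fun X => by
    rw [X.norm_sq le_rfl, add_zero]
  have hts : ∀ {G : ℝ} (X : Tr σ M δ T G), ‖tail R (X.st r)‖ ^ 2
      ≤ Real.exp (-r) * ‖tail R₀ (X.st 0)‖ ^ 2 + C₂ * (δ * ‖X.st 0‖ ^ 2 + G ^ 2) := fun {G} X => by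
    have h := htail δ X.L X.s₀ G R₀ X.a X.f X.w X.pot X.good X.forced hδ1 hR₀1 _ (hpt X r hr)
    rw [add_sub_cancel_left, div_eq_mul_one_div (normN X.L X.w X.s₀) (R₀ ^ 2), hR02, hN0,
      mul_comm (‖X.st 0‖ ^ 2) δ] at h
    rw [hR]
    simpa [Tr.st] using h
  have hZr := hly δ F α β R U V W hδ1 hR1 hRδ hR2 r hr
  have hZ0 : wsq 5 8 κ (2 * R) (fun y => snap U.w (U.s₀ + 0) y - α * snap V.w (V.s₀ + 0) y
      - β * snap W.w (W.s₀ + 0) y) ≤ ‖U.st 0 - α • V.st 0 - β • W.st 0‖ ^ 2 :=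
    (hsplit 0 (left_mem_Icc.2 hT)).1
  refine ((hsplit r hr).2).trans ?_
  set nU := ‖U.st 0‖ ^ 2
  set nV := ‖V.st 0‖ ^ 2
  set nW := ‖W.st 0‖ ^ 2
  set d := ‖U.st 0 - α • V.st 0 - β • W.st 0‖ ^ 2
  have hZr' : wsq 5 8 κ (2 * R) (fun y => snap U.w (U.s₀ + r) y - α * snap V.w (V.s₀ + r) y
      - β * snap W.w (W.s₀ + r) y) ≤ C₃ * (d + δ * (nU + α ^ 2 * nV + β ^ 2 * nW) + F ^ 2) :=
    hZr.trans (mul_le_mul_of_nonneg_left (by linarith) hC₃.le)
  have hu := hts U
  have hv := mul_le_mul_of_nonneg_left (hts V) (sq_nonneg α)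
  have hw := mul_le_mul_of_nonneg_left (hts W) (sq_nonneg β)
  have := mul_nonneg (show 0 ≤ 3 * C₂ by positivity) (sq_nonneg ‖U.st 0 - α • V.st 0 - β • W.st 0‖)
  simp only [Tr.st] at hu hv hw ⊢
  simp only [nU, nV, nW, d, Tr.st, stateAt] at *
  linarith

end Vale.Agent.P264.LinOp
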