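import Vale.Agent.P264.LinOp.Flow

/-!
Moments against test functions depend Hölder continuously on time; hence a time-one inequality
with finitely many observations.
-/

namespace Vale.Agent.P264.LinOp

open Set Filter Topology MeasureTheory
open scoped ContDiff

/-- Dividing a function vanishing near zero by a power keeps it smooth. -/
theorem smooth_div_pow {ψ : ℝ → ℝ} (hψ : ContDiff ℝ ∞ ψ) {a : ℝ} (ha : 0 < a)
    (h : ∀ y, y < a → ψ y = 0) (n : ℕ) : ContDiff ℝ ∞ fun y => ψ y / y ^ n := by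
  refine contDiff_iff_contDiffAt.2 fun y => ?_
  rcases lt_or_ge y a with hy | hy
  · exact contDiffAt_const.congr_of_eventuallyEq (f := fun _ => (0:ℝ))
      ((eventually_lt_nhds hy).mono fun z hz => by simp [h z hz])
  · exact (hψ.contDiffAt).div (contDiffAt_id.pow n) (pow_ne_zero _ (ha.trans_le hy).ne')

/-- Two integrations by parts against a function supported inside. -/
theorem parts_dst {K : ℝ} (hK : 0 < K) {u : ℝ → ℝ} (hu : ContDiff ℝ ∞ u) (h0 : u 0 = 0)
    (h0' : deriv u 0 = 0) (hK0 : u K = 0) (hK1 : deriv u K = 0) {h : ℝ → ℝ}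
    (hh : ContDiffOn ℝ ∞ h (Icc 0 K)) :
    (∫ y in (0:ℝ)..K, u y * (y ^ 7 * dst h y))
      = ∫ y in (0:ℝ)..K, deriv (deriv u) y * (y ^ 7 * h y) := by
  have hu1 : ContDiff ℝ ∞ (deriv u) := (contDiff_infty_iff_deriv.1 hu).2
  have hd1 := d1_smooth hK hh
  have hd2 := d2_smooth hK hh
  have hder : ∀ f : ℝ → ℝ, ContDiffOn ℝ ∞ f (Icc 0 K) → ∀ z ∈ Ioo 0 K,
      HasDerivAt f (d1 K f z) z := fun f hf z hz => by
    rw [d1_eq hz]
    exact ((hf.contDiffAt (Icc_mem_nhds hz.1 hz.2)).differentiableAt (by simp)).hasDerivAt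
  set v : ℝ → ℝ := fun y => y ^ 7 * h y with hv
  set v1 : ℝ → ℝ := fun y => 7 * y ^ 6 * h y + y ^ 7 * d1 K h y with hv1
  set v2 : ℝ → ℝ := fun y => 42 * y ^ 5 * h y + 14 * y ^ 6 * d1 K h y + y ^ 7 * d2 K h y with hv2
  have c0 : ContinuousOn v (Icc 0 K) := (continuousOn_id.pow 7).mul hh.continuousOn
  have c1 : ContinuousOn v1 (Icc 0 K) :=
    ((continuousOn_const.mul (continuousOn_id.pow 6)).mul hh.continuousOn).add
      ((continuousOn_id.pow 7).mul hd1.continuousOn)
  have c2 : ContinuousOn v2 (Icc 0 K) :=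
    (((continuousOn_const.mul (continuousOn_id.pow 5)).mul hh.continuousOn).add
      ((continuousOn_const.mul (continuousOn_id.pow 6)).mul hd1.continuousOn)).add
      ((continuousOn_id.pow 7).mul hd2.continuousOn)
  have e0 : ∀ z ∈ Ioo 0 K, HasDerivAt v (v1 z) z := fun z hz => by
    refine (((hasDerivAt_id z).pow 7).mul (hder h hh z hz)).congr_deriv ?_
    simp [hv1]
  have e1 : ∀ z ∈ Ioo 0 K, HasDerivAt v1 (v2 z) z := fun z hz => by
    refine (((((hasDerivAt_id z).pow 6).const_mul 7).mul (hder h hh z hz)).add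
      (((hasDerivAt_id z).pow 7).mul (hder _ hd1 z hz))).congr_deriv ?_
    simp only [hv2, d2, id, Pi.pow_apply]
    push_cast
    ring
  have huI : ∀ f : ℝ → ℝ, ContDiff ℝ ∞ f → ∀ z ∈ Ioo (min 0 K) (max 0 K),
      HasDerivAt f (deriv f z) z :=
    fun f hf z _ => (hf.differentiable (by simp) z).hasDerivAt
  have ii : ∀ f : ℝ → ℝ, ContinuousOn f (Icc 0 K) → IntervalIntegrable f volume 0 K := fun f hf =>
    ContinuousOn.intervalIntegrable (by rwa [uIcc_of_le hK.le])
  have emin : Ioo (min 0 K) (max 0 K) = Ioo 0 K := by rw [min_eq_left hK.le, max_eq_right hK.le]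
  have p1 := intervalIntegral.integral_mul_deriv_eq_deriv_mul_of_hasDerivAt (a := (0:ℝ)) (b := K)
    (v := v1) hu.continuous.continuousOn (by rwa [uIcc_of_le hK.le]) (huI u hu)
    (by rw [emin]; exact e1) (ii _ hu1.continuous.continuousOn) (ii _ c2)
  have p2 := intervalIntegral.integral_mul_deriv_eq_deriv_mul_of_hasDerivAt (a := (0:ℝ)) (b := K)
    (v := v) hu1.continuous.continuousOn (by rwa [uIcc_of_le hK.le]) (huI _ hu1)
    (by rw [emin]; exact e0) (ii _ ((contDiff_infty_iff_deriv.1 hu1).2.continuous.continuousOn))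
    (ii _ c1)
  rw [h0, hK0, p2, h0', hK1] at p1
  have e : (∫ y in (0:ℝ)..K, u y * (y ^ 7 * dst h y)) = ∫ y in (0:ℝ)..K, u y * v2 y :=
    integral_congr_Ioo hK.le fun y hy => by
      rw [dst_expand hh hy, mul_div_cancel₀ _ (pow_ne_zero _ hy.1.ne')]
  rw [e, p1]
  simp [hv]

/-- A moment of a snapshot. -/
noncomputable def mom (ψ : ℝ → ℝ) (K : ℝ) (w : ℝ → ℝ → ℝ) (s : ℝ) : ℝ :=
  ∫ y in (0:ℝ)..K, ψ y * snap w s y

theorem forced_zero {L : ℝ} {f : ℝ → ℝ → ℝ} {s₀ T s y : ℝ} (hF : Forced 0 L f s₀ T)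
    (hs : s ∈ Icc s₀ (s₀ + T)) (hy : y ∈ Ioo 0 (Ys L s)) :
    Real.exp (-s / 2) * f (tof s) (Real.exp (-s / 2) * y) = 0 := by
  have h := hF.2 s hs y hy
  have hr : 0 < rho 5 y := by have := hy.1; unfold rho; positivity
  rw [zero_pow two_ne_zero] at h
  by_contra hne
  have : 0 < rho 5 y * (Real.exp (-s / 2) * f (tof s) (Real.exp (-s / 2) * y)) ^ 2
      * (1 + y ^ 2) := mul_pos (mul_pos hr (pow_two_pos_of_ne_zero hne)) (by positivity)
  linarith

/-- Time derivative bound for a moment of an unforced potential. -/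
theorem mom_deriv (hi : Inputs) {ψ : ℝ → ℝ} (hψ : ContDiff ℝ ∞ ψ) {a b K : ℝ} (ha : 0 < a)
    (hab : a ≤ b) (hbK : b < K) (hz : ∀ y, y ∉ Icc a b → ψ y = 0) (M : ℝ) :
    ∃ C : ℝ, 0 < C ∧ ∀ (σ : Shrinker) (δ L s₀ T : ℝ) (A f w : ℝ → ℝ → ℝ),
      Pot L A f w → Good σ M δ L A s₀ T → Forced 0 L f s₀ T → K ≤ L →
      ∀ s ∈ Ioo s₀ (s₀ + T),
      ∃ D, HasDerivAt (mom ψ K w) D s ∧ ∀ lam : ℝ, 0 < lam →
        |D| ≤ lam * (diss 5 (fun _ => 1) (Ys L s) (rcoef A s) (snap w s) + normN L w s)
          + C / lam := by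
  have hK : 0 < K := ha.trans_le (hab.trans hbK.le)
  have hzl : ∀ y, y < a → ψ y = 0 := fun y hy => hz y fun hm => absurd hm.1 (not_le.2 hy)
  have hzr : ∀ y, b < y → ψ y = 0 := fun y hy => hz y fun hm => absurd hm.2 (not_le.2 hy)
  have hu : ContDiff ℝ ∞ fun y => ψ y / y ^ 7 := smooth_div_pow hψ ha hzl 7
  set u : ℝ → ℝ := fun y => ψ y / y ^ 7 with hudef
  have hu2 : ContDiff ℝ ∞ (deriv (deriv u)) :=
    (contDiff_infty_iff_deriv.1 (contDiff_infty_iff_deriv.1 hu).2).2
  set p : ℝ → ℝ := fun y => y * ψ y with hp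
  have hpd : ContDiff ℝ ∞ p := contDiff_id.mul hψ
  have hk : ContDiff ℝ ∞ (fun y => (ψ y / 2 + deriv p y / 2) / y ^ 3) := by
    refine smooth_div_pow ((hψ.div_const 2).add ((contDiff_infty_iff_deriv.1 hpd).2.div_const 2))
      ha (fun y hy => ?_) 3
    have : p =ᶠ[𝓝 y] fun _ => (0:ℝ) :=
      (eventually_lt_nhds hy).mono fun z hz' => by simp [hp, hzl z hz']
    rw [hzl y hy, this.deriv_eq]; simp
  set k : ℝ → ℝ := fun y => (ψ y / 2 + deriv p y / 2) / y ^ 3 with hkdef
  set C₁ := ∫ y in (0:ℝ)..K, (|M| * deriv (deriv u) y ^ 2 * |y| ^ 13 * (1 + y ^ 2) ^ 5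
    + k y ^ 2 * |y| ^ 3 * (1 + y ^ 2) ^ 5)
  refine ⟨|C₁| + 1, by positivity, fun σ δ L s₀ T A f w hpot hg hf hKL s hs => ?_⟩
  have hL := good_pos hg
  have hs0 : 0 < s := lt_of_le_of_lt hg.start hs.1
  have hsI : s ∈ Icc s₀ (s₀ + T) := Ioo_subset_Icc_self hs
  have hY : 0 < Ys L s := Ys_pos hL
  have hKY : K ≤ Ys L s := hKL.trans (le_Ys hL hs0.le)
  have hsub : Icc 0 K ⊆ Icc 0 (Ys L s) := Icc_subset_Icc le_rfl hKY
  have hIoo : ∀ y ∈ Ioo 0 K, y ∈ Ioo 0 (Ys L s) := fun y hy => ⟨hy.1, hy.2.trans_le hKY⟩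
  have h2 : Calc.Smooth2 (Icc 0 (s + 1)) (Icc 0 K) fun r y => ψ y * snap w (0 + r) y :=
    (hψ.comp contDiff_snd).contDiffOn.mul (snap_smooth2 hpot.smooth hL le_rfl hKL)
  have hder := Middle.hasDerivAt_slice_integral hK.le (subset_refl _)
    (uniqueDiffOn_Icc (by linarith)) (uniqueDiffOn_Icc hK) h2 (t := s)
    (by rw [interior_Icc]; exact ⟨hs0, by linarith⟩)
  simp only [zero_add] at hder h2
  refine ⟨_, hder, fun lam hlam => ?_⟩
  set V := snap w s with hV
  have hVs : ContDiffOn ℝ ∞ V (Icc 0 K) := (snap_slice hpot.smooth hs0.le).mono hsub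
  have hAs : ContDiffOn ℝ ∞ (rcoef A s) (Icc 0 K) := (rcoef_slice hg.smooth hs0.le).mono hsub
  set h : ℝ → ℝ := fun y => rcoef A s y * d2 K V y with hh
  have hhs : ContDiffOn ℝ ∞ h (Icc 0 K) := hAs.mul (d2_smooth hK hVs)
  have ii : ∀ f : ℝ → ℝ, ContinuousOn f (Icc 0 K) → IntervalIntegrable f volume 0 K := fun f hf =>
    ContinuousOn.intervalIntegrable (by rwa [uIcc_of_le hK.le])
  -- boundary data of the test functions
  have hu0 : u =ᶠ[𝓝 0] fun _ => (0:ℝ) :=
    (eventually_lt_nhds ha).mono fun z hz' => by simp [hudef, hzl z hz']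
  have huK : u =ᶠ[𝓝 K] fun _ => (0:ℝ) :=
    (eventually_gt_nhds hbK).mono fun z hz' => by simp [hudef, hzr z hz']
  have hparts := parts_dst hK hu hu0.eq_of_nhds (by simpa using hu0.deriv_eq) huK.eq_of_nhds
    (by simpa using huK.deriv_eq) hhs
  -- the drift part
  have hdrift : (∫ y in (0:ℝ)..K, ψ y * (V y / 2 - y * d1 K V y / 2))
      = ∫ y in (0:ℝ)..K, k y * y ^ 3 * V y := by
    have q := intervalIntegral.integral_mul_deriv_eq_deriv_mul_of_hasDerivAt (a := (0:ℝ)) (b := K)
      (u := p) (v := V) (u' := deriv p) (v' := d1 K V)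
      hpd.continuous.continuousOn (by rw [uIcc_of_le hK.le]; exact hVs.continuousOn)
      (fun z _ => (hpd.differentiable (by simp) z).hasDerivAt)
      (fun z hz' => by
        rw [min_eq_left hK.le, max_eq_right hK.le] at hz'
        rw [d1_eq hz']
        exact ((hVs.contDiffAt (Icc_mem_nhds hz'.1 hz'.2)).differentiableAt (by simp)).hasDerivAt)
      (ii _ (contDiff_infty_iff_deriv.1 hpd).2.continuous.continuousOn)
      (ii _ (d1_smooth hK hVs).continuousOn)
    rw [show p 0 = 0 by simp [hp], show p K = 0 by simp [hp, hzr K hbK]] at q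
    simp only [zero_mul, sub_zero, zero_sub] at q
    have e1 : (∫ y in (0:ℝ)..K, ψ y * (V y / 2 - y * d1 K V y / 2))
        = (∫ y in (0:ℝ)..K, ψ y / 2 * V y) - (∫ y in (0:ℝ)..K, p y * d1 K V y) / 2 := by
      rw [← intervalIntegral.integral_div, ← intervalIntegral.integral_sub]
      · exact intervalIntegral.integral_congr fun y _ => by simp only [hp]; ring
      · exact ii _ ((hψ.continuous.div_const 2).continuousOn.mul hVs.continuousOn)
      · exact ii _ ((hpd.continuous.continuousOn.mul (d1_smooth hK hVs).continuousOn).div_const 2)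
    rw [e1, q, neg_div, sub_neg_eq_add, ← intervalIntegral.integral_div,
      ← intervalIntegral.integral_add]
    · refine integral_congr_Ioo hK.le fun y hy => ?_
      simp only [hkdef]
      rw [div_mul_cancel₀ _ (pow_ne_zero _ hy.1.ne')]
      ring
    · exact ii _ ((hψ.continuous.div_const 2).continuousOn.mul hVs.continuousOn)
    · exact ii _ (((contDiff_infty_iff_deriv.1 hpd).2.continuous.continuousOn.mul
        hVs.continuousOn).div_const 2)
  have e : (∫ y in (0:ℝ)..K,
        Calc.pdT (Icc 0 (s + 1)) (Icc 0 K) (fun r y => ψ y * snap w r y) s y)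
      = (∫ y in (0:ℝ)..K, k y * y ^ 3 * V y)
        - ∫ y in (0:ℝ)..K, deriv (deriv u) y * (y ^ 7 * h y) := by
    rw [← hdrift, ← hparts, ← intervalIntegral.integral_sub]
    · refine integral_congr_Ioo hK.le fun y hy => ?_
      have hsn := hasDerivAt_snap hpot.smooth hs0 (hIoo y hy)
      rw [← h2.deriv_t (Icc_mem_nhds hs0 (by linarith)) (Ioo_subset_Icc_self hy),
        (hsn.const_mul (ψ y)).deriv, dtx_eq hi hpot hL hs0 (hIoo y hy),
        forced_zero hf hsI (hIoo y hy), drift, ← d1_eq hy,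
        dst_congr (Y := K) (g := h) (fun z hz' => by simp only [hh]; rw [d2_eq hz']) hy]
      simp only [hudef]
      field_simp [hy.1.ne']
      ring
    · exact ii _ (hψ.continuous.continuousOn.mul ((hVs.continuousOn.div_const 2).sub
        ((continuousOn_id.mul (d1_smooth hK hVs).continuousOn).div_const 2)))
    · refine (intervalIntegrable_congr_uIoo fun y hy => ?_).1
        (ii (fun y => u y * (42 * y ^ 5 * h y + 14 * y ^ 6 * d1 K h y + y ^ 7 * d2 K h y))
          (hu.continuous.continuousOn.mul ((((continuousOn_const.mul (continuousOn_id.pow 5)).mul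
            hhs.continuousOn).add ((continuousOn_const.mul (continuousOn_id.pow 6)).mul
            (d1_smooth hK hhs).continuousOn)).add
            ((continuousOn_id.pow 7).mul (d2_smooth hK hhs).continuousOn))))
      rw [uIoo_of_le hK.le] at hy
      rw [dst_expand hhs hy, mul_div_cancel₀ _ (pow_ne_zero _ hy.1.ne')]
  rw [e]
  have iG : IntervalIntegrable (fun y => |M| * deriv (deriv u) y ^ 2 * |y| ^ 13 * (1 + y ^ 2) ^ 5
      + k y ^ 2 * |y| ^ 3 * (1 + y ^ 2) ^ 5) volume 0 K :=
    Continuous.intervalIntegrable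
      ((((continuous_const.mul (hu2.continuous.pow 2)).mul (continuous_abs.pow 13)).mul
        (by fun_prop)).add (((hk.continuous.pow 2).mul (continuous_abs.pow 3)).mul (by fun_prop)))
      _ _
  have iP : IntervalIntegrable
      (fun y => rho 5 y * (rcoef A s y * d2 K V y ^ 2) + rho 5 y * V y ^ 2) volume 0 K :=
    ii _ (((continuous_rho 5).continuousOn.mul
      (hAs.continuousOn.mul ((d2_smooth hK hVs).continuousOn.pow 2))).add
      ((continuous_rho 5).continuousOn.mul (hVs.continuousOn.pow 2)))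
  have i1 : IntervalIntegrable (fun y => k y * y ^ 3 * V y) volume 0 K :=
    ii _ ((hk.continuous.continuousOn.mul (continuousOn_id.pow 3)).mul hVs.continuousOn)
  have i2 : IntervalIntegrable (fun y => deriv (deriv u) y * (y ^ 7 * h y)) volume 0 K :=
    ii _ (hu2.continuous.continuousOn.mul ((continuousOn_id.pow 7).mul hhs.continuousOn))
  rw [← intervalIntegral.integral_sub i1 i2]
  refine (intervalIntegral.abs_integral_le_integral_abs hK.le).trans ?_
  have hpt : (∫ y in (0:ℝ)..K, |k y * y ^ 3 * V y - deriv (deriv u) y * (y ^ 7 * h y)|)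
      ≤ ∫ y in (0:ℝ)..K, (lam * (rho 5 y * (rcoef A s y * d2 K V y ^ 2) + rho 5 y * V y ^ 2)
        + lam⁻¹ * (|M| * deriv (deriv u) y ^ 2 * |y| ^ 13 * (1 + y ^ 2) ^ 5
          + k y ^ 2 * |y| ^ 3 * (1 + y ^ 2) ^ 5)) := by
    refine intervalIntegral.integral_mono_on_of_le_Ioo hK.le (i1.sub i2).abs
      ((iP.const_mul _).add (iG.const_mul _)) fun y hy => ?_
    have hy0 := hy.1
    have hA0 := (hg.pos s hsI y (hIoo y hy)).le
    have hA1 := hg.upper s hsI y (hIoo y hy)
    have hr : 0 < rho 5 y := by unfold rho; positivity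
    have amgm : ∀ x z : ℝ, |x * z| ≤ lam * (rho 5 y * z ^ 2) + lam⁻¹ * (x ^ 2 / rho 5 y) := by
      intro x z
      rw [show lam⁻¹ * (x ^ 2 / rho 5 y) = x ^ 2 / (lam * rho 5 y) by field_simp, ← mul_assoc,
        ← sub_nonneg, show lam * rho 5 y * z ^ 2 + x ^ 2 / (lam * rho 5 y) - |x * z|
          = ((lam * rho 5 y * |z| - |x| / 2) ^ 2 + 3 / 4 * |x| ^ 2) / (lam * rho 5 y) by
            rw [abs_mul, eq_div_iff (by positivity), sub_mul, add_mul,
              div_mul_cancel₀ _ (show lam * rho 5 y ≠ 0 by positivity), ← sq_abs x, ← sq_abs z]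
            ring]
      positivity
    refine (abs_sub _ _).trans ?_
    have h1 := amgm (k y * y ^ 3) (V y)
    have e1 : (k y * y ^ 3) ^ 2 / rho 5 y = k y ^ 2 * |y| ^ 3 * (1 + y ^ 2) ^ 5 := by
      rw [abs_of_pos hy0, rho]; field_simp
    have h2 := amgm (deriv (deriv u) y * y ^ 7 * Real.sqrt (rcoef A s y))
      (Real.sqrt (rcoef A s y) * d2 K V y)
    rw [show deriv (deriv u) y * y ^ 7 * Real.sqrt (rcoef A s y)
          * (Real.sqrt (rcoef A s y) * d2 K V y)
        = deriv (deriv u) y * (y ^ 7 * h y) by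
      simp only [hh]
      linear_combination (deriv (deriv u) y * y ^ 7 * d2 K V y) * Real.mul_self_sqrt hA0] at h2
    have e2 : (Real.sqrt (rcoef A s y) * d2 K V y) ^ 2 = rcoef A s y * d2 K V y ^ 2 := by
      rw [mul_pow, Real.sq_sqrt hA0]
    have e3 : (deriv (deriv u) y * y ^ 7 * Real.sqrt (rcoef A s y)) ^ 2 / rho 5 y
        ≤ |M| * deriv (deriv u) y ^ 2 * |y| ^ 13 * (1 + y ^ 2) ^ 5 := by
      rw [mul_pow, Real.sq_sqrt hA0, abs_of_pos hy0, div_le_iff₀ hr]
      calc (deriv (deriv u) y * y ^ 7) ^ 2 * rcoef A s y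
          ≤ (deriv (deriv u) y * y ^ 7) ^ 2 * (|M| * y ^ 2) :=
            mul_le_mul_of_nonneg_left (hA1.trans (mul_le_mul_of_nonneg_right (le_abs_self M)
              (sq_nonneg y))) (sq_nonneg _)
        _ = _ := by simp only [rho]; field_simp
    have e3' := mul_le_mul_of_nonneg_left e3 (inv_nonneg.2 hlam.le)
    rw [e1] at h1
    rw [e2] at h2
    linarith
  refine hpt.trans ?_
  rw [intervalIntegral.integral_add (iP.const_mul _) (iG.const_mul _),
    intervalIntegral.integral_const_mul, intervalIntegral.integral_const_mul]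
  refine add_le_add (mul_le_mul_of_nonneg_left ?_ hlam.le) ?_
  · have hV2 := (snap_slice hpot.smooth hs0.le)
    have iD : IntervalIntegrable
        (fun y => rho 5 y * (rcoef A s y * deriv (deriv V) y ^ 2)) volume 0 (Ys L s) := by
      refine (intervalIntegrable_congr_uIoo fun y hy => ?_).1 (ContinuousOn.intervalIntegrable
        (u := fun y => rho 5 y * (rcoef A s y * d2 (Ys L s) V y ^ 2)) ?_)
      · rw [uIoo_of_le hY.le] at hy; rw [d2_eq hy]
      · rw [uIcc_of_le hY.le]
        exact (continuous_rho 5).continuousOn.mul ((rcoef_slice hg.smooth hs0.le).continuousOn.mul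
          ((d2_smooth hY hV2).continuousOn.pow 2))
    have iN : IntervalIntegrable (fun y => rho 5 y * V y ^ 2) volume 0 (Ys L s) :=
      ContinuousOn.intervalIntegrable (by
        rw [uIcc_of_le hY.le]
        exact (continuous_rho 5).continuousOn.mul (hV2.continuousOn.pow 2))
    have eP : (∫ y in (0:ℝ)..K, (rho 5 y * (rcoef A s y * d2 K V y ^ 2) + rho 5 y * V y ^ 2))
        = ∫ y in (0:ℝ)..K, (rho 5 y * (rcoef A s y * deriv (deriv V) y ^ 2) + rho 5 y * V y ^ 2) :=
      integral_congr_Ioo hK.le fun y hy => by rw [d2_eq hy]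
    have eN : diss 5 (fun _ => 1) (Ys L s) (rcoef A s) V + normN L w s
        = ∫ y in (0:ℝ)..Ys L s,
            (rho 5 y * (rcoef A s y * deriv (deriv V) y ^ 2) + rho 5 y * V y ^ 2) := by
      rw [intervalIntegral.integral_add iD iN]; simp [diss, normN, wsq, hV]
    rw [eP, eN]
    refine intervalIntegral.integral_mono_interval le_rfl hK.le hKY ?_ (iD.add iN)
    rw [← Measure.restrict_congr_set Ioo_ae_eq_Ioc]
    refine (ae_restrict_mem measurableSet_Ioo).mono fun y hy => ?_
    have hr := rho_nonneg 5 hy.1.le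
    have := (hg.pos s hsI y hy).le
    positivity
  · rw [div_eq_inv_mul]
    exact mul_le_mul_of_nonneg_left (by linarith [le_abs_self C₁]) (inv_nonneg.2 hlam.le)

/-- Moments of unforced potentials move at most like the square root of the elapsed time. -/
theorem mom_holder (hi : Inputs) (σ : Shrinker) (M : ℝ) {ψ : ℝ → ℝ} (hψ : ContDiff ℝ ∞ ψ)
    {a b K : ℝ} (ha : 0 < a) (hab : a ≤ b) (hbK : b < K) (hz : ∀ y, y ∉ Icc a b → ψ y = 0) :
    ∃ C : ℝ, 0 < C ∧ ∀ (δ L s₀ : ℝ) (A f w : ℝ → ℝ → ℝ), Pot L A f w →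
      Good σ M δ L A s₀ 1 → Forced 0 L f s₀ 1 → δ ≤ 1 / 1000 → K ≤ L → ∀ r r' : ℝ, s₀ ≤ r → r ≤ r' → r' ≤ s₀ + 1 →
        (mom ψ K w r' - mom ψ K w r) ^ 2 ≤ C * (r' - r) * normN L w s₀ := by
  obtain ⟨C₀, hC₀, hd⟩ := mom_deriv hi hψ ha hab hbK hz M
  obtain ⟨δe, hδe, -, hfull⟩ := full hi σ
  obtain ⟨c, C₁, hc, hC₁, hfull⟩ := hfull M
  obtain ⟨E, hE, hap⟩ := apriori hi σ M 1
  set Q := E / c + (1 + (1 + C₁) / c) * E + C₀ with hQ
  refine ⟨(2 * Q) ^ 2, by positivity, fun δ L s₀ A f w hp hg hF hδ hKL r r' hr hrr hr' => ?_⟩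
  have hL := good_pos hg
  have hK : 0 < K := ha.trans_le (hab.trans hbK.le)
  set N₀ := normN L w s₀
  have hN₀ : 0 ≤ N₀ := normN_nonneg hL w s₀
  rcases eq_or_lt_of_le hrr with h | hlt
  · rw [← h]; simp
  set h := r' - r with hh
  have hh0 : 0 < h := by linarith
  have hh1 : h ≤ 1 := by linarith
  have hs00 : 0 ≤ r := hg.start.trans hr
  -- one-sided increments
  have key : ∀ lam : ℝ, 0 < lam → |mom ψ K w r' - mom ψ K w r| ≤ Q * (lam * N₀ + h / lam) := by
    intro lam hlam
    have hNle : ∀ s ∈ Icc r r', normN L w s ≤ E * N₀ := fun s hs => by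
      have := hap δ L s₀ 0 A f w hp hg hF hδ s ⟨hr.trans hs.1, hs.2.trans hr'⟩
      simpa using this
    have hm : ContinuousOn (mom ψ K w) (Icc r r') := by
      refine Middle.continuousOn_slice_integral hK.le hrr ?_
      refine (hψ.continuous.comp continuous_snd).continuousOn.mul ?_
      have h2 := (snap_smooth2 hp.smooth hL le_rfl hKL (T := r')).continuousOn
      simp only [zero_add] at h2
      exact h2.mono (prod_mono (Icc_subset_Icc hs00 le_rfl) subset_rfl)
    have hn : ContinuousOn (normN L w) (Icc r r') :=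
      (continuousOn_wsq hp.smooth hL continuous_const 0 hs00 hrr (κ := fun _ => 1)).congr
        fun s _ => normN_eq L w s
    have side : ∀ e : ℝ, |e| = 1 →
        e * mom ψ K w r' + lam / c * normN L w r' ≤ e * mom ψ K w r + lam / c * normN L w r
          + (lam * (1 + (1 + C₁) / c) * E * N₀ + C₀ / lam) * h := by
      intro e he
      have hdd : ∀ s ∈ Ioo r r', HasDerivAt (fun s => e * mom ψ K w s + lam / c * normN L w s)
          (deriv (fun s => e * mom ψ K w s + lam / c * normN L w s) s) s ∧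
          deriv (fun s => e * mom ψ K w s + lam / c * normN L w s) s
            ≤ 0 * (e * mom ψ K w s + lam / c * normN L w s)
              + (lam * (1 + (1 + C₁) / c) * E * N₀ + C₀ / lam) := by
        intro s hs
        have hsI : s ∈ Ioo s₀ (s₀ + 1) := ⟨hr.trans_lt hs.1, hs.2.trans_le hr'⟩
        obtain ⟨D, hD, hDb⟩ := hd σ δ L s₀ 1 A f w hp hg hF hKL s hsI
        obtain ⟨N', hN, hNb⟩ := hfull δ L s₀ 1 0 s A f w hp hg hF hδ hsI
        have hsum := (hD.const_mul e).add (hN.const_mul (lam / c))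
        refine ⟨hsum.deriv.symm ▸ hsum, ?_⟩
        rw [show deriv (fun s => e * mom ψ K w s + lam / c * normN L w s) s
          = e * D + lam / c * N' from hsum.deriv, zero_mul, zero_add]
        have h1 : e * D ≤ |D| := (le_abs_self _).trans (le_of_eq (by rw [abs_mul, he, one_mul]))
        have h2 := hDb lam hlam
        have hs0 : 0 ≤ s := hg.start.trans hsI.1.le
        have hY : 0 < Ys L s := Ys_pos hL
        have hl := loss_le hY.le (κ := fun _ => (1:ℝ)) continuous_const
          (snap_slice hp.smooth hs0).continuousOn (c := 1) fun y _ => by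
            rw [one_pow, div_le_one (by positivity)]; linarith [sq_nonneg y]
        rw [one_mul, ← normN] at hl
        have hNs := hNle s (Ioo_subset_Icc_self hs)
        have hn0 := normN_nonneg hL w s
        set DS := diss 5 (fun _ => 1) (Ys L s) (rcoef A s) (snap w s)
        have hb : N' ≤ -(c * DS) + C₁ * normN L w s := by
          have := mul_nonneg hc.le (near_nonneg hδe.le (snap w s))
          linarith [mul_le_mul_of_nonneg_left hl hC₁.le]
        have h3 := mul_le_mul_of_nonneg_left hb (div_nonneg hlam.le hc.le)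
        have e4 : lam / c * (-(c * DS) + C₁ * normN L w s)
            = -(lam * DS) + lam * (C₁ / c) * normN L w s := by field_simp
        have h5 := mul_le_mul_of_nonneg_left hNs
          (show 0 ≤ lam * (1 + (1 + C₁) / c) by positivity)
        have h6 : (0:ℝ) ≤ lam * normN L w s * (1 / c) := by positivity
        rw [e4] at h3
        have e5 : lam * (1 + (1 + C₁) / c) * normN L w s
            = lam * normN L w s + lam * normN L w s * (1 / c)
              + lam * (C₁ / c) * normN L w s := by ring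
        linarith
      have := gron (by positivity) ((continuousOn_const.mul hm).add (continuousOn_const.mul hn))
        (fun s hs => (hdd s hs).1) (fun s hs => (hdd s hs).2) r' (right_mem_Icc.2 hrr)
      simpa using this
    have h1 := side 1 abs_one
    have h2 := side (-1) (by norm_num)
    have hn1 : 0 ≤ lam / c * normN L w r' :=
      mul_nonneg (by positivity) (normN_nonneg hL w r')
    have hn2 : lam / c * normN L w r ≤ lam / c * (E * N₀) :=
      mul_le_mul_of_nonneg_left (hNle r (left_mem_Icc.2 hrr)) (by positivity)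
    have hl0 : 0 ≤ lam * N₀ := by positivity
    have hl1 : 0 ≤ h / lam := by positivity
    have hb : lam / c * (E * N₀) + (lam * (1 + (1 + C₁) / c) * E * N₀ + C₀ / lam) * h
        ≤ Q * (lam * N₀ + h / lam) := by
      have e1 : (lam * (1 + (1 + C₁) / c) * E * N₀ + C₀ / lam) * h
          = (1 + (1 + C₁) / c) * E * (lam * N₀ * h) + C₀ * (h / lam) := by ring
      have e2 : lam / c * (E * N₀) = E / c * (lam * N₀) := by ring
      have e3 := mul_le_mul_of_nonneg_left (mul_le_of_le_one_right hl0 hh1)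
        (show 0 ≤ (1 + (1 + C₁) / c) * E by positivity)
      have e4 := mul_nonneg hC₀.le hl0
      have e5 := mul_nonneg (show 0 ≤ E / c + (1 + (1 + C₁) / c) * E by positivity) hl1
      rw [e1, e2, hQ]
      linarith
    rw [abs_le]
    constructor <;> linarith
  refine le_of_forall_pos_le_add fun ν hν => ?_
  have hQ0 : 0 < Q := by positivity
  set ν' := ν / ((2 * Q) ^ 2 * h) with hν'
  have hν0 : 0 < ν' := by positivity
  set P := Real.sqrt h * Real.sqrt (N₀ + ν') with hP
  have hsh := Real.sq_sqrt hh0.le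
  have hsn := Real.sq_sqrt (show 0 ≤ N₀ + ν' by positivity)
  have hnp : 0 < Real.sqrt (N₀ + ν') := Real.sqrt_pos.2 (by positivity)
  have h1 := key (Real.sqrt h / Real.sqrt (N₀ + ν')) (div_pos (Real.sqrt_pos.2 hh0) hnp)
  have h2 : Real.sqrt h / Real.sqrt (N₀ + ν') * N₀ ≤ P := by
    rw [div_mul_eq_mul_div, div_le_iff₀ hnp, hP, mul_assoc, ← sq, hsn]
    exact mul_le_mul_of_nonneg_left (by linarith) (Real.sqrt_nonneg h)
  have h3 : h / (Real.sqrt h / Real.sqrt (N₀ + ν')) = P := by
    rw [div_div_eq_mul_div, hP, div_eq_iff (Real.sqrt_pos.2 hh0).ne']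
    linear_combination (-Real.sqrt (N₀ + ν')) * hsh
  have h4 : |mom ψ K w r' - mom ψ K w r| ≤ 2 * Q * P := by
    refine h1.trans ?_
    rw [h3]
    have := mul_le_mul_of_nonneg_left h2 hQ0.le
    linarith
  rw [← sq_abs]
  refine (pow_le_pow_left₀ (abs_nonneg _) h4 2).trans (le_of_eq ?_)
  rw [hP]
  rw [mul_pow, mul_pow, mul_pow, hsh, hsn]
  simp only [hν']
  field_simp

end Vale.Agent.P264.LinOp
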