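import Vale.Agent.P264.LinOp.Comb
import Vale.Agent.P264.LinOp.Moment

/-!
The time-one energy inequality with finitely many observations.
-/

namespace Vale.Agent.P264.LinOp

open Set Filter Topology MeasureTheory
open scoped ContDiff RealInnerProductSpace

/-- A moment against a test function is a bounded functional on the state space. -/
theorem moment_functional {ψ : ℝ → ℝ} (hψ : IsTest ψ) {K : ℝ} (hK : 0 ≤ K)
    (hz : ∀ y, K < y → ψ y = 0) :
    ∃ l : H →L[ℝ] ℝ, ∀ (Y : ℝ) (V : ℝ → ℝ), K ≤ Y → ContinuousOn V (Icc 0 Y) →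
      l (state Y V) = ∫ y in (0:ℝ)..K, ψ y * V y := by
  obtain ⟨a, b, ha, hab, h⟩ := hψ.2
  set g : ℝ → ℝ := fun y => ψ y / y ^ 3 * (1 + y ^ 2) ^ 5 with hgdef
  have hg : IsTest g := by
    refine ⟨(smooth_div_pow hψ.1 ha (fun y hy => h y fun hm => absurd hm.1 (not_le.2 hy)) 3).mul
      ((contDiff_const.add (contDiff_id.pow 2)).pow 5), a, b, ha, hab, fun y hy => ?_⟩
    simp [hgdef, h y hy]
  refine ⟨innerSL ℝ (testState hg), fun Y V hY hV => ?_⟩
  rw [innerSL_apply_apply, L2.inner_def]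
  have e1 : (∫ y, ⟪(testState hg : ℝ → ℝ) y, (state Y V : ℝ → ℝ) y⟫ ∂μ5)
      = ∫ y, (Icc 0 Y).indicator (fun z => g z * V z) y ∂μ5 := by
    refine integral_congr_ae ?_
    filter_upwards [hg.memLp.coeFn_toLp, state_coe hV] with y h1 h2
    rw [h2, show (testState hg : ℝ → ℝ) y = g y from h1]
    by_cases hm : y ∈ Icc 0 Y <;> simp [hm, mul_comm]
  rw [e1, integral_state (hK.trans hY)]
  have hc : ContinuousOn (fun y => rho 5 y * (g y * V y)) (Icc 0 Y) :=
    (continuous_rho 5).continuousOn.mul (hg.1.continuous.continuousOn.mul hV)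
  rw [← intervalIntegral.integral_add_adjacent_intervals
    (ci hK (hc.mono (Icc_subset_Icc le_rfl hY)))
    (ContinuousOn.intervalIntegrable (hc.mono (by rw [uIcc_of_le hY]; exact Icc_subset_Icc hK le_rfl)))]
  have e2 : (∫ y in K..Y, rho 5 y * (g y * V y)) = 0 := by
    rw [intervalIntegral.integral_of_le hY]
    refine setIntegral_eq_zero_of_forall_eq_zero fun y hy => ?_
    simp [hgdef, hz y hy.1]
  rw [e2, add_zero]
  refine integral_congr_Ioo hK fun y hy => ?_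
  have := hy.1
  simp only [hgdef, rho]
  field_simp

theorem loss_split {R Y : ℝ} (hR0 : 0 < R) (hRY : R ≤ Y) {V : ℝ → ℝ}
    (hV : ContinuousOn V (Icc 0 Y)) :
    loss 5 (fun _ => 1) Y V
      ≤ (∫ y in (0:ℝ)..R, rho 5 y * V y ^ 2) + 1 / R ^ 2 * wsq 5 0 (fun _ => 1) Y V := by
  have hY : 0 < Y := hR0.trans_le hRY
  have iin := ci hY.le (f := fun y => rho 5 y * V y ^ 2)
    ((continuous_rho 5).continuousOn.mul (hV.pow 2))
  have iL := ci hY.le (f := fun y => rho 5 y * V y ^ 2 / (1 + y ^ 2))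
    (((continuous_rho 5).continuousOn.mul (hV.pow 2)).div (by fun_prop) fun y _ => by positivity)
  rw [show loss 5 (fun _ => 1) Y V = ∫ y in (0:ℝ)..Y, rho 5 y * V y ^ 2 / (1 + y ^ 2) by
      simp [loss],
    show wsq 5 0 (fun _ => 1) Y V = ∫ y in (0:ℝ)..Y, rho 5 y * V y ^ 2 by simp [wsq]]
  have sA : uIcc 0 R ⊆ uIcc 0 Y := by
    rw [uIcc_of_le hR0.le, uIcc_of_le hY.le]; exact Icc_subset_Icc le_rfl hRY
  have sB : uIcc R Y ⊆ uIcc 0 Y := by
    rw [uIcc_of_le hRY, uIcc_of_le hY.le]; exact Icc_subset_Icc hR0.le le_rfl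
  rw [← intervalIntegral.integral_add_adjacent_intervals (iL.mono_set sA) (iL.mono_set sB)]
  refine add_le_add (intervalIntegral.integral_mono_on_of_le_Ioo hR0.le (iL.mono_set sA)
    (iin.mono_set sA) fun y hy => ?_) ?_
  · have := rho_nonneg 5 hy.1.le
    exact div_le_self (by positivity) (by linarith [sq_nonneg y])
  · have hsub : (∫ y in R..Y, rho 5 y * V y ^ 2) ≤ ∫ y in (0:ℝ)..Y, rho 5 y * V y ^ 2 :=
      intervalIntegral.integral_mono_interval hR0.le hRY le_rfl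
        ((ae_restrict_mem measurableSet_Ioc).mono fun y hy => by
          have := rho_nonneg 5 hy.1.le
          positivity) iin
    refine le_trans ?_ (mul_le_mul_of_nonneg_left hsub (by positivity))
    rw [← intervalIntegral.integral_const_mul]
    refine intervalIntegral.integral_mono_on_of_le_Ioo hRY (iL.mono_set sB)
      ((iin.mono_set sB).const_mul _) fun y hy => ?_
    have hy0 : 0 ≤ y := hR0.le.trans hy.1.le
    have := rho_nonneg 5 hy0
    rw [one_div_mul_eq_div]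
    exact div_le_div_of_nonneg_left (by positivity) (by positivity) (by nlinarith [hy.1])

theorem coef_lower {σ : Shrinker} {M δ L s₀ T s S δ' q₀ : ℝ} {a : ℝ → ℝ → ℝ}
    (hg : Good σ M δ L a s₀ T) (hδ : δ ≤ 1 / 1000) (hsI : s ∈ Icc s₀ (s₀ + T))
    (hS : S ≤ Ys L s) (hSδ : S < 1 / δ) (hmin : ∀ y ∈ Icc 0 S, q₀ ≤ σ.q y) (hq0 : 0 < q₀)
    (hcf : Coef (Ys L s) M δ' (rcoef a s)) :
    (∀ y ∈ Icc 0 (Ys L s), 0 ≤ rcoef a s y) ∧
      ∀ y ∈ Icc 0 S, q₀ ^ 2 / 2 * y ^ 2 ≤ rcoef a s y := by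
  have hs0 : 0 ≤ s := hg.start.trans hsI.1
  have hY : 0 < Ys L s := Ys_pos (good_pos hg)
  have hA0 : ∀ y ∈ Icc 0 (Ys L s), 0 ≤ rcoef a s y := by
    intro y hy
    rcases eq_or_lt_of_le hy.1 with h | h
    · rw [← h]
      have hc : ContinuousWithinAt (rcoef a s) (Ioi 0) 0 :=
        ((hcf.smooth.continuousOn 0 (left_mem_Icc.2 hY.le)).mono_of_mem_nhdsWithin
          (mem_of_superset (Ioc_mem_nhdsGT hY) Ioc_subset_Icc_self))
      refine ge_of_tendsto hc ?_
      filter_upwards [Ioo_mem_nhdsGT hY] with z hz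
      exact (hg.pos s hsI z hz).le
    · rcases eq_or_lt_of_le hy.2 with h' | h'
      · rw [h']; exact (hg.edge s hsI).1.ge
      · exact (hg.pos s hsI y ⟨h, h'⟩).le
  refine ⟨hA0, fun y hy => ?_⟩
  rcases eq_or_lt_of_le hy.1 with h | h
  · rw [← h]; simpa using hA0 0 (left_mem_Icc.2 hY.le)
  · have h1 := abs_le.1 (hg.close s hsI y ⟨h, by linarith [hy.2]⟩)
    have h2 : q₀ ^ 2 * y ^ 2 ≤ (y * σ.q y) ^ 2 := by
      rw [mul_pow, mul_comm (y ^ 2)]
      exact mul_le_mul_of_nonneg_right (pow_le_pow_left₀ hq0.le (hmin y hy) 2) (sq_nonneg y)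
    have h3 := mul_le_mul_of_nonneg_right (show δ ≤ 1 / 2 by linarith) (sq_nonneg (y * σ.q y))
    linarith

/-- Finitely many observations control the norm after unit time. -/
theorem rank_est (hi : Inputs) (σ : Shrinker) (M : ℝ) :
    ∃ (θ K δ₀ : ℝ) (N : ℕ) (t : Fin N → ℝ) (l : Fin N → H →L[ℝ] ℝ),
      0 ≤ θ ∧ θ < 1 ∧ 0 ≤ K ∧ 0 < δ₀ ∧ (∀ i, t i ∈ Icc (0:ℝ) 1) ∧
      ∀ δ : ℝ, δ ≤ δ₀ → ∀ U : Tr σ M δ 1 0,
        ‖U.st 1‖ ≤ θ * ‖U.st 0‖ + K * ∑ i, |l i (U.st (t i))| := by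
  classical
  obtain ⟨δe, hδe, hδe1, hfull⟩ := full hi σ
  obtain ⟨c, C, hc, hC, hfull⟩ := hfull M
  set R := 2 * C + 2 with hR
  have hR1 : 1 ≤ R := by linarith
  have hR0 : 0 < R := by linarith
  obtain ⟨y₀, hy₀, hmin⟩ := (isCompact_Icc (a := (0:ℝ)) (b := 2 * R)).exists_isMinOn
    (nonempty_Icc.2 (by linarith)) (σ.q_smooth.continuousOn.mono Icc_subset_Ici_self)
  set m := σ.q y₀ ^ 2 / 2 with hm
  have hq0 : 0 < σ.q y₀ := σ.q_pos y₀ hy₀.1
  have hm0 : 0 < m := by positivity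
  set η := min (1 / 4) c / C with hη
  have hη0 : 0 < η := by positivity
  obtain ⟨Nc, ψ, Cc, hCc, hψ, hcell⟩ :=
    hi.cells 5 (by norm_num) (by norm_num) δe m R η hδe (by linarith) hm0 hη0
  choose hψd a b ha hab hb hz using hψ
  have hK : 0 < 3 * R := by positivity
  have hbK : ∀ i, b i < 3 * R := fun i => by linarith [hb i]
  choose H₀ hH₀ hhold using fun i =>
    mom_holder hi σ M (hψd i) (ha i) (hab i) (hbK i) (hz i)
  have hzK : ∀ i y, 3 * R < y → ψ i y = 0 := fun i y hy =>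
    hz i y fun hm' => by linarith [hm'.2, hbK i]
  choose ℓ hℓ using fun i =>
    moment_functional (ψ := ψ i) ⟨hψd i, a i, b i, ha i, hab i, hz i⟩ hK.le (hzK i)
  set Sh := ∑ i, H₀ i
  have hSh : 0 ≤ Sh := Finset.sum_nonneg fun i _ => (hH₀ i).le
  set ex := Real.exp (2 * |(-(1:ℝ) / 2)| * 1)
  set e₀ := Real.exp (-(1:ℝ) / 2)
  have he₀ : e₀ < 1 := Real.exp_lt_one_iff.2 (by norm_num)
  obtain ⟨n, hn⟩ := exists_nat_gt (2 * C * Cc * Sh * ex / (1 - e₀))
  have hnum : 0 ≤ 2 * C * Cc * Sh * ex := by positivity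
  have hn0 : (0:ℝ) < n := lt_of_le_of_lt (div_nonneg hnum (by linarith)) hn
  set g := 2 * C * Cc * Sh * ex / n with hg
  have hg1 : e₀ + g < 1 := by
    have : g < 1 - e₀ := by
      have h := (div_lt_iff₀ (show 0 < 1 - e₀ by linarith)).1 hn
      rw [hg, div_lt_iff₀ hn0]
      linarith
    linarith
  have hg0 : 0 ≤ g := by positivity
  set θ := Real.sqrt (e₀ + g) with hθ
  set W := 2 * C * Cc * ex with hW
  set tt : Fin (Nc * (n + 1)) → ℝ := fun i => ((finProdFinEquiv.symm i).2 : ℕ) / (n:ℝ) with htt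
  refine ⟨θ, Real.sqrt W, min (1 / 1000) (1 / (4 * R)), Nc * (n + 1), tt,
    fun i => ℓ (finProdFinEquiv.symm i).1, Real.sqrt_nonneg _, (Real.sqrt_lt' one_pos).2 (by
      rw [one_pow]; exact hg1), Real.sqrt_nonneg _, by positivity, fun i => ⟨by positivity, ?_⟩,
    fun δ hδ U => ?_⟩
  · simp only [htt]
    rw [div_le_one hn0]
    exact_mod_cast Nat.lt_succ_iff.1 (finProdFinEquiv.symm i).2.isLt
  have hδ1 : δ ≤ 1 / 1000 := hδ.trans (min_le_left _ _)
  have hδ0 := U.good.δ_pos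
  have hL := good_pos U.good
  have h2R : 4 * R ≤ 1 / δ := by
    rw [le_div_iff₀ hδ0]
    have h' : δ * (4 * R) ≤ 1 := (le_div_iff₀ (by positivity)).1 (hδ.trans (min_le_right _ _))
    linarith
  have hKL : 3 * R ≤ U.L := le_trans (by linarith) U.good.long
  set w := U.w
  set s₀ := U.s₀
  have hs₀ : 0 ≤ s₀ := U.good.start
  set N₀ := normN U.L w s₀
  have hN₀ : 0 ≤ N₀ := normN_nonneg hL w s₀
  have hlst : ∀ i, ∀ r ∈ Icc (0:ℝ) 1, ℓ i (U.st r) = mom (ψ i) (3 * R) w (s₀ + r) := fun i r hr => by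
    rw [Tr.st, stateAt, mom]
    exact hℓ i _ _ (hKL.trans (le_Ys hL (by linarith [hr.1])))
      (snap_slice U.pot.smooth (by linarith [hr.1])).continuousOn
  set O₂ := ∑ i, (ℓ (finProdFinEquiv.symm i).1 (U.st (tt i))) ^ 2 with hO
  have hO0 : 0 ≤ O₂ := Finset.sum_nonneg fun i _ => sq_nonneg _
  set G := C * Cc * (2 * O₂ + 2 * Sh / n * N₀) with hG
  have hobs : ∀ r ∈ Ioo (0:ℝ) 1,
      (∑ i, (mom (ψ i) (3 * R) w (s₀ + r)) ^ 2) ≤ 2 * O₂ + 2 * Sh / n * N₀ := by
    intro r hr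
    set k : Fin (n + 1) := ⟨⌊r * n⌋₊, Nat.lt_succ_iff.2 (Nat.floor_le_of_le (by nlinarith [hr.2]))⟩
    have hk1 : ((k : ℕ) : ℝ) / n ≤ r :=
      (div_le_iff₀ hn0).2 (Nat.floor_le (mul_nonneg hr.1.le hn0.le))
    have hk2 : r - ((k : ℕ) : ℝ) / n ≤ 1 / n := by
      rw [sub_le_iff_le_add, ← add_div, le_div_iff₀ hn0]
      have h := Nat.lt_floor_add_one (r * (n:ℝ))
      have e : ((k : ℕ) : ℝ) = (⌊r * n⌋₊ : ℝ) := rfl
      linarith
    have hk0 : 0 ≤ ((k : ℕ) : ℝ) / n := by positivity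
    have step : ∀ i, (mom (ψ i) (3 * R) w (s₀ + r)) ^ 2
        ≤ 2 * (ℓ i (U.st (((k : ℕ) : ℝ) / n))) ^ 2 + 2 * (H₀ i / n * N₀) := fun i => by
      have hh := hhold i δ U.L s₀ U.a U.f w U.pot U.good U.forced hδ1 hKL (s₀ + ((k : ℕ) : ℝ) / n) (s₀ + r)
        (by linarith) (by linarith) (by linarith [hr.2])
      rw [hlst i _ ⟨hk0, hk1.trans hr.2.le⟩]
      have h3 : H₀ i * (s₀ + r - (s₀ + ((k : ℕ) : ℝ) / n)) * N₀ ≤ H₀ i / n * N₀ := by
        refine mul_le_mul_of_nonneg_right ?_ hN₀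
        rw [add_sub_add_left_eq_sub, div_eq_mul_one_div (H₀ i)]
        exact mul_le_mul_of_nonneg_left hk2 (hH₀ i).le
      nlinarith [sq_nonneg (mom (ψ i) (3 * R) w (s₀ + r)
        - 2 * mom (ψ i) (3 * R) w (s₀ + ((k : ℕ) : ℝ) / n))]
    refine (Finset.sum_le_sum fun i _ => step i).trans ?_
    rw [Finset.sum_add_distrib, ← Finset.mul_sum, ← Finset.mul_sum, ← Finset.sum_mul,
      ← Finset.sum_div]
    refine add_le_add (mul_le_mul_of_nonneg_left ?_ two_pos.le) (le_of_eq (by ring))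
    rw [hO, ← finProdFinEquiv.sum_comp, Fintype.sum_prod_type]
    refine Finset.sum_le_sum fun i _ => ?_
    simp only [htt, Equiv.symm_apply_apply]
    exact Finset.single_le_sum (f := fun j : Fin (n + 1) => (ℓ i (U.st (((j : ℕ) : ℝ) / n))) ^ 2)
      (fun j _ => sq_nonneg _) (Finset.mem_univ k)
  have hcont : ContinuousOn (normN U.L w) (Icc s₀ (s₀ + 1)) :=
    (continuousOn_wsq U.pot.smooth hL continuous_const 0 hs₀ (by linarith)
      (κ := fun _ => 1)).congr fun r _ => normN_eq U.L w r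
  have hd : ∀ s ∈ Ioo s₀ (s₀ + 1), HasDerivAt (normN U.L w) (deriv (normN U.L w) s) s ∧
      deriv (normN U.L w) s ≤ -1 / 2 * normN U.L w s + G := by
    intro s hs
    obtain ⟨N', hN, hle⟩ := hfull δ U.L s₀ 1 0 s U.a U.f w U.pot U.good U.forced hδ1 hs
    refine ⟨hN.deriv.symm ▸ hN, ?_⟩
    rw [hN.deriv]
    have hs0 : 0 < s := lt_of_le_of_lt hs₀ hs.1
    have hsI := Ioo_subset_Icc_self hs
    have hY : 0 < Ys U.L s := Ys_pos hL
    have hYK : 3 * R ≤ Ys U.L s := hKL.trans (le_Ys hL hs0.le)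
    have h2Y : 2 * R ≤ Ys U.L s := by linarith
    set V := snap w s
    set A := rcoef U.a s
    have hV := snap_slice U.pot.smooth hs0.le
    have hA := rcoef_slice U.good.smooth hs0.le
    obtain ⟨δ', hδ', -, hδ'1, hco⟩ := coef_of_good σ one_pos
    have hcf := hco M δ U.L U.a s₀ 1 s _ U.good hδ1 hsI (by linarith) le_rfl
    obtain ⟨hA0, hAm⟩ := coef_lower U.good hδ1 hsI (show 2 * R ≤ Ys U.L s from h2Y)
      (show 2 * R < 1 / δ by linarith) (fun y hy => hmin hy) hq0 hcf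
    have hce := hcell (Ys U.L s) A V h2Y hV hA.continuousOn hA0 hAm
    have hmom : ∀ i, (∫ y in (0:ℝ)..Ys U.L s, ψ i y * V y) = mom (ψ i) (3 * R) w s := by
      intro i
      have hc' : ContinuousOn (fun y => ψ i y * V y) (Icc 0 (Ys U.L s)) :=
        (hψd i).continuous.continuousOn.mul hV.continuousOn
      rw [mom, ← intervalIntegral.integral_add_adjacent_intervals (b := 3 * R)
        (ci hK.le (hc'.mono (Icc_subset_Icc le_rfl hYK)))
        (ContinuousOn.intervalIntegrable (hc'.mono (by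
          rw [uIcc_of_le hYK]; exact Icc_subset_Icc hK.le le_rfl)))]
      have : (∫ y in (3 * R)..Ys U.L s, ψ i y * V y) = 0 := by
        rw [intervalIntegral.integral_of_le hYK]
        exact setIntegral_eq_zero_of_forall_eq_zero fun y hy => by simp [hzK i y hy.1]
      rw [this, add_zero]
    simp only [hmom] at hce
    have hob := hobs (s - s₀) ⟨by linarith [hs.1], by linarith [hs.2]⟩
    rw [add_sub_cancel] at hob
    -- the loss
    have hloss := loss_split hR0 (show R ≤ Ys U.L s by linarith) hV.continuousOn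
    rw [show wsq 5 0 (fun _ => 1) (Ys U.L s) V = normN U.L w s from rfl] at hloss
    have hwsq : wsq 5 0 (fun _ => 1) (Ys U.L s) V = normN U.L w s := rfl
    rw [hwsq] at hce
    have hin : (∫ y in (0:ℝ)..R, rho 5 y * V y ^ 2) ≤ η * (diss 5 (fun _ => 1) (Ys U.L s) A V
        + near δe V + normN U.L w s) + Cc * (2 * O₂ + 2 * Sh / n * N₀) :=
      hce.trans (add_le_add le_rfl (mul_le_mul_of_nonneg_left hob hCc.le))
    have hd0 := diss_nonneg hY.le (fun _ => 1) V (a := A) fun y hy =>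
      hA0 y (Ioo_subset_Icc_self hy)
    have hn0' := near_nonneg hδe.le V
    have hNs := normN_nonneg hL w s
    have hCη : C * η = min (1 / 4) c := by rw [hη]; field_simp
    have hCR : C * (1 / R ^ 2) ≤ 1 / 4 := by
      rw [mul_one_div, div_le_iff₀ (by positivity), hR]
      linarith [sq_nonneg C]
    have h5 := mul_le_mul_of_nonneg_left (hloss.trans (add_le_add hin le_rfl)) hC.le
    have h6 := mul_le_mul_of_nonneg_right (min_le_right (1 / 4) c) (add_nonneg hd0 hn0')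
    have h7 := mul_le_mul_of_nonneg_right (min_le_left (1 / 4) c) hNs
    have h8 := mul_le_mul_of_nonneg_right hCR hNs
    have e : C * (η * (diss 5 (fun _ => 1) (Ys U.L s) A V + near δe V + normN U.L w s)
          + Cc * (2 * O₂ + 2 * Sh / n * N₀) + 1 / R ^ 2 * normN U.L w s)
        = (C * η) * (diss 5 (fun _ => 1) (Ys U.L s) A V + near δe V) + (C * η) * normN U.L w s
          + G + C * (1 / R ^ 2) * normN U.L w s := by rw [hG]; ring
    rw [e, hCη] at h5
    linarith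
  have hgr := gron (by positivity) hcont (fun r hr => (hd r hr).1) (fun r hr => (hd r hr).2)
    (s₀ + 1) (right_mem_Icc.2 (by linarith))
  simp only [add_sub_cancel_left, mul_one] at hgr
  have e1 : G * Real.exp (2 * |-1 / 2|) = W * O₂ + g * N₀ := by
    rw [hG, hW, hg]; simp only [ex, mul_one]; ring
  rw [e1] at hgr
  have hN1 : ‖U.st 1‖ ^ 2 ≤ (e₀ + g) * ‖U.st 0‖ ^ 2 + W * O₂ := by
    rw [U.norm_sq zero_le_one, U.norm_sq le_rfl, add_zero]
    simp only [w, s₀, N₀, e₀] at hgr ⊢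
    linarith
  have hb : (e₀ + g) * ‖U.st 0‖ ^ 2 + W * O₂
      ≤ (θ * ‖U.st 0‖ + Real.sqrt W * ∑ i, |ℓ (finProdFinEquiv.symm i).1 (U.st (tt i))|) ^ 2 := by
    have h1 : O₂ ≤ (∑ i, |ℓ (finProdFinEquiv.symm i).1 (U.st (tt i))|) ^ 2 := by
      have := Finset.sum_sq_le_sq_sum_of_nonneg (s := Finset.univ)
        (f := fun i => |ℓ (finProdFinEquiv.symm i).1 (U.st (tt i))|) fun i _ => abs_nonneg _
      simpa [hO, sq_abs] using this
    have h2 : θ ^ 2 = e₀ + g := Real.sq_sqrt (by positivity)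
    have h3 : Real.sqrt W ^ 2 = W := Real.sq_sqrt (by positivity)
    have hs : 0 ≤ ∑ i, |ℓ (finProdFinEquiv.symm i).1 (U.st (tt i))| :=
      Finset.sum_nonneg fun i _ => abs_nonneg _
    set S := ∑ i, |ℓ (finProdFinEquiv.symm i).1 (U.st (tt i))|
    have h4 := mul_le_mul_of_nonneg_left h1 (show 0 ≤ W by positivity)
    have h5 : 0 ≤ θ * ‖U.st 0‖ * (Real.sqrt W * S) := by
      have : 0 ≤ θ := Real.sqrt_nonneg _
      positivity
    rw [add_sq, mul_pow, mul_pow, h2, h3]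
    linarith
  exact le_of_pow_le_pow_left₀ two_ne_zero
    (add_nonneg (mul_nonneg (Real.sqrt_nonneg _) (norm_nonneg _))
      (mul_nonneg (Real.sqrt_nonneg _) (Finset.sum_nonneg fun i _ => abs_nonneg _)))
    (hN1.trans hb)

end Vale.Agent.P264.LinOp
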