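import Vale.Agent.P264.LinOp.Evolution
import Vale.Agent.P264.LinOp.Compare
import Vale.Agent.P264.LinOp.Rank

/-!
The linear operator of the linearisation at the shrinker.
-/

namespace Vale.Agent.P264.LinOp

open Set Filter Topology MeasureTheory
open scoped ContDiff

theorem tail_sub (R : ℝ) (x z : H) : tail R x - tail R z = tail R (x - z) := by
  refine Lp.ext ?_
  filter_upwards [Lp.coeFn_sub (tail R x) (tail R z), tail_coe R x, tail_coe R z,
    tail_coe R (x - z), Lp.coeFn_sub x z] with y h1 h2 h3 h4 h5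
  rw [h1, Pi.sub_apply, h2, h3, h4]
  by_cases hm : y ∈ Ioi R
  · rw [indicator_of_mem hm, indicator_of_mem hm, indicator_of_mem hm]; exact h5.symm
  · simp [hm]

theorem norm_tail_le (R : ℝ) (x : H) : ‖tail R x‖ ≤ ‖x‖ := by
  refine le_of_pow_le_pow_left₀ two_ne_zero (norm_nonneg _) ?_
  rw [norm_tail_sq, norm_sq_eq x]
  refine integral_mono ((Lp.memLp x).integrable_sq.indicator measurableSet_Ioi)
    (Lp.memLp x).integrable_sq fun y => ?_
  exact indicator_le_self' (fun a _ => sq_nonneg _) y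

theorem tail_tendsto (x : H) : Tendsto (fun R => ‖tail R x‖) atTop (𝓝 0) := by
  have h : Tendsto (fun R => ∫ y, (Ioi R).indicator (fun z => x z ^ 2) y ∂μ5) atTop (𝓝 0) := by
    rw [show (0:ℝ) = ∫ _y, (0:ℝ) ∂μ5 from (integral_zero _ _).symm]
    refine tendsto_integral_filter_of_dominated_convergence (fun y => x y ^ 2) ?_ ?_
      (Lp.memLp x).integrable_sq ?_
    · exact Eventually.of_forall fun R =>
        ((Lp.memLp x).integrable_sq.indicator measurableSet_Ioi).aestronglyMeasurable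
    · refine Eventually.of_forall fun R => Eventually.of_forall fun y => ?_
      rw [Real.norm_eq_abs, abs_of_nonneg (indicator_nonneg (fun a _ => sq_nonneg _) y)]
      exact indicator_le_self' (fun a _ => sq_nonneg _) y
    · refine Eventually.of_forall fun y => tendsto_const_nhds.congr' ?_
      filter_upwards [eventually_ge_atTop y] with R hR
      exact (indicator_of_notMem (show y ∉ Ioi R from not_lt.2 hR) _).symm
  have h2 := h.sqrt
  rw [Real.sqrt_zero] at h2
  refine h2.congr fun R => ?_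
  rw [← norm_tail_sq, Real.sqrt_sq (norm_nonneg _)]

/-- Smaller windows and coarser accuracy. -/
theorem good_mono {σ : Shrinker} {M δ δ' L : ℝ} {a : ℝ → ℝ → ℝ} {s₀ T s₁ T' : ℝ}
    (hg : Good σ M δ L a s₀ T) (hδ : δ ≤ δ') (h1 : s₀ ≤ s₁) (h2 : s₁ + T' ≤ s₀ + T) :
    Good σ M δ' L a s₁ T' := by
  have hs : Icc s₁ (s₁ + T') ⊆ Icc s₀ (s₀ + T) := Icc_subset_Icc h1 h2
  have hd : (1:ℝ) / δ' ≤ 1 / δ := one_div_le_one_div_of_le hg.δ_pos hδ
  exact ⟨hg.δ_pos.trans_le hδ, hg.start.trans h1, hd.trans hg.long, hg.smooth,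
    fun s h => hg.edge s (hs h), fun s h => hg.pos s (hs h), fun s h => hg.upper s (hs h),
    fun s h => hg.slope s (hs h),
    fun s h y hy => (hg.close s (hs h) y ⟨hy.1, hy.2.trans_le hd⟩).trans
      (mul_le_mul_of_nonneg_right hδ (sq_nonneg _)),
    fun s h => hg.origin s (hs h)⟩

theorem forced_mono {F L : ℝ} {f : ℝ → ℝ → ℝ} {s₀ T s₁ T' : ℝ} (hf : Forced F L f s₀ T)
    (h1 : s₀ ≤ s₁) (h2 : s₁ + T' ≤ s₀ + T) : Forced F L f s₁ T' :=
  ⟨hf.1, fun s h => hf.2 s (Icc_subset_Icc h1 h2 h)⟩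

/-- Restriction to a subwindow, with coarser accuracy. -/
def Tr.restrict {σ : Shrinker} {M δ T F : ℝ} (U : Tr σ M δ T F) {δ' i T' : ℝ} (hδ : δ ≤ δ')
    (hi : 0 ≤ i) (hT : i + T' ≤ T) : Tr σ M δ' T' F where
  L := U.L
  s₀ := U.s₀ + i
  a := U.a
  f := U.f
  w := U.w
  pot := U.pot
  good := good_mono U.good hδ (by linarith) (by linarith)
  forced := forced_mono U.forced (by linarith) (by linarith)

theorem Tr.restrict_st {σ : Shrinker} {M δ T F : ℝ} (U : Tr σ M δ T F) {δ' i T' : ℝ} (hδ : δ ≤ δ')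
    (hi : 0 ≤ i) (hT : i + T' ≤ T) (r : ℝ) :
    (U.restrict hδ hi hT).st r = U.st (i + r) := by
  simp [Tr.st, Tr.restrict, add_assoc]

theorem le_sqrt_mul {x y K : ℝ} (hK : 0 ≤ K) (hy : 0 ≤ y) (h : x ^ 2 ≤ K * y ^ 2) :
    x ≤ Real.sqrt K * y := by
  refine (le_abs_self x).trans ?_
  rw [← Real.sqrt_sq_eq_abs]
  refine (Real.sqrt_le_sqrt h).trans (le_of_eq ?_)
  rw [Real.sqrt_mul hK, Real.sqrt_sq hy]

/-- The approximate evolution of the linearisation. -/
noncomputable def approx (hi : Inputs) (σ : Shrinker) (M : ℝ) (hex : Exist σ M) : Approx H where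
  test := testSubmodule
  dense := testSubmodule_dense
  Sol δ S := {U | ∃ X : Tr σ M δ S 0, ∀ r, U r = X.st r}
  err δ x := Real.sqrt δ * ‖x‖ + ‖tail (Real.sqrt δ)⁻¹ x‖
  E := 2
  err_lip δ hδ h1 x z := by
    have a1 : Real.sqrt δ * ‖x‖ ≤ Real.sqrt δ * ‖z‖ + 1 * ‖x - z‖ := by
      have h2 := mul_le_mul_of_nonneg_left (norm_le_norm_add_norm_sub' x z) (Real.sqrt_nonneg δ)
      have h3 := mul_le_mul_of_nonneg_right (Real.sqrt_le_one.2 h1) (norm_nonneg (x - z))
      linarith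
    have a2 : ‖tail (Real.sqrt δ)⁻¹ x‖ ≤ ‖tail (Real.sqrt δ)⁻¹ z‖ + ‖x - z‖ := by
      have h2 := norm_le_norm_add_norm_sub' (tail (Real.sqrt δ)⁻¹ x) (tail (Real.sqrt δ)⁻¹ z)
      rw [tail_sub] at h2
      linarith [norm_tail_le (Real.sqrt δ)⁻¹ (x - z)]
    linarith
  err_lim x := by
    have h0 : Tendsto (fun δ => Real.sqrt δ) (𝓝[>] 0) (𝓝[>] 0) := by
      refine tendsto_nhdsWithin_iff.2 ⟨?_, ?_⟩
      · exact tendsto_nhdsWithin_of_tendsto_nhds
          (by simpa using Real.continuous_sqrt.tendsto (0:ℝ))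
      · filter_upwards [self_mem_nhdsWithin] with δ hδ using Real.sqrt_pos.2 hδ
    have h1 := (tail_tendsto x).comp (tendsto_inv_nhdsGT_zero.comp h0)
    have h2 := ((h0.mono_right nhdsWithin_le_nhds).mul_const ‖x‖).add h1
    simpa using h2
  exist x hx δ hδ S hS := by
    obtain ⟨p, hp, hxp⟩ := hx
    obtain ⟨L, a, w, hw, hg, hpL, hw0⟩ := hex p hp δ S hδ hS
    refine ⟨_, ⟨⟨L, 0, a, fun _ _ => 0, w, hw, hg, ⟨le_rfl, fun s _ y _ => by simp⟩⟩, fun r => rfl⟩,
      ?_⟩
    have hsn : ∀ y, snap w 0 y = w 0 y := fun y => by simp [snap, tof]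
    refine Lp.ext ?_
    have hpos : ∀ᵐ y ∂μ5, 0 < y := ae_iff.2 (by simpa [← Iic_def] using μ5_Iic_zero)
    filter_upwards [state_coe (Y := Ys L (0 + 0)) (V := snap w (0 + 0))
      (snap_slice hw.smooth (by norm_num)).continuousOn, hxp, hpos] with y h1 h2 h3
    refine h1.trans ?_
    rw [h2, add_zero]
    have hY : Ys L 0 = L := by simp [Ys]
    by_cases hm : y ∈ Icc 0 (Ys L 0)
    · rw [indicator_of_mem hm, hsn, hw0 y (hY ▸ hm)]
    · rw [indicator_of_notMem hm, hpL y]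
      by_contra hc
      exact hm ⟨h3.le, by rw [hY]; linarith [not_le.1 hc]⟩
  mono δ δ' S S' hδ hS := by
    rintro U ⟨X, hX⟩
    exact ⟨X.restrict hδ le_rfl (by linarith), fun r => by rw [X.restrict_st, zero_add, hX]⟩
  shift δ S i U hU hi0 hiS := by
    obtain ⟨X, hX⟩ := hU
    exact ⟨X.restrict le_rfl hi0 (by linarith), fun r => by rw [X.restrict_st]; exact hX _⟩
  compare S hS := by
    obtain ⟨C, δ₀, hC, hδ₀, h⟩ := main_est hi σ M S
    refine ⟨Real.sqrt (3 + C), δ₀, Real.sqrt_nonneg _, hδ₀, ?_⟩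
    rintro δ hδ hle α β U ⟨XU, hU⟩ V ⟨XV, hV⟩ W ⟨XW, hW⟩ s hs hsS
    have h1 := h δ 0 α β XU XV XW hle s ⟨hs, hsS⟩
    simp only [← hU, ← hV, ← hW, zero_pow two_ne_zero, add_zero] at h1
    refine le_sqrt_mul (by positivity) (by positivity) (h1.trans ?_)
    have he : Real.exp (-s) ≤ 1 := Real.exp_le_one_iff.2 (by linarith)
    set d := ‖U 0 - α • V 0 - β • W 0‖
    set tu := ‖tail (Real.sqrt δ)⁻¹ (U 0)‖
    set tv := ‖tail (Real.sqrt δ)⁻¹ (V 0)‖
    set tw := ‖tail (Real.sqrt δ)⁻¹ (W 0)‖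
    set nu := ‖U 0‖
    set nv := ‖V 0‖
    set nw := ‖W 0‖
    set q := Real.sqrt δ
    have hq : 0 ≤ q := Real.sqrt_nonneg _
    have hq2 : q ^ 2 = δ := Real.sq_sqrt hδ.le
    have hd : 0 ≤ d := norm_nonneg _
    have eu : 0 ≤ q * nu + tu := by positivity
    have ev : 0 ≤ |α| * (q * nv + tv) := by positivity
    have ew : 0 ≤ |β| * (q * nw + tw) := by positivity
    set Tt := tu ^ 2 + α ^ 2 * tv ^ 2 + β ^ 2 * tw ^ 2
    set Nn := δ * (nu ^ 2 + α ^ 2 * nv ^ 2 + β ^ 2 * nw ^ 2)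
    set P := d + (q * nu + tu) + |α| * (q * nv + tv) + |β| * (q * nw + tw)
    have sq3 : ∀ a b : ℝ, 0 ≤ a → 0 ≤ b → a ^ 2 + b ^ 2 ≤ (a + b) ^ 2 := fun a b ha hb => by
      nlinarith [mul_nonneg ha hb]
    have hP1 : d ^ 2 + Nn + Tt ≤ P ^ 2 := by
      have u1 := sq3 (q * nu) tu (by positivity) (norm_nonneg _)
      have v1 := mul_le_mul_of_nonneg_left (sq3 (q * nv) tv (by positivity) (norm_nonneg _))
        (sq_nonneg |α|)
      have w1 := mul_le_mul_of_nonneg_left (sq3 (q * nw) tw (by positivity) (norm_nonneg _))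
        (sq_nonneg |β|)
      have e1 := sq3 d (q * nu + tu) hd eu
      have e2 := sq3 (d + (q * nu + tu)) (|α| * (q * nv + tv)) (by linarith) ev
      have e3 := sq3 (d + (q * nu + tu) + |α| * (q * nv + tv)) (|β| * (q * nw + tw))
        (by linarith) ew
      rw [mul_pow, sq_abs] at e2 e3
      rw [mul_pow q, hq2, sq_abs] at v1 w1
      rw [mul_pow q, hq2] at u1
      simp only [Nn, Tt, P]
      linarith
    have hT0 : 0 ≤ Tt := by positivity
    have hN0 : 0 ≤ Nn := by positivity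
    have k1 := mul_le_mul_of_nonneg_left hP1 hC.le
    have k2 := mul_le_mul_of_nonneg_right (show 3 * Real.exp (-s) ≤ 3 by linarith) hT0
    have k3 := mul_nonneg hC.le hT0
    have k4 := sq_nonneg d
    linarith

/-- The module's deliverable. -/
theorem linOp (hi : Inputs) : LinOpTarget := by
  intro σ M hex
  set A := approx hi σ M hex
  obtain ⟨θ₀, K, d₀, N, t, l, hθ₀, hθ₁, hK, hd₀, ht, hrank⟩ := rank_est hi σ M
  obtain ⟨P, hPfin, hP⟩ := A.exists_projection hθ₀ hK hd₀ t ht l fun δ hδ hle U hU => by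
    obtain ⟨X, hX⟩ := hU
    have h := hrank δ hle X
    simp only [← hX] at h
    have : 0 ≤ K * A.err δ (U 0) :=
      mul_nonneg hK (add_nonneg (mul_nonneg (Real.sqrt_nonneg _) (norm_nonneg _)) (norm_nonneg _))
    linarith
  set θ₂ := Real.exp (-(1:ℝ) / 2)
  refine ⟨A.op 1, P, max θ₀ θ₂, 4, le_max_of_le_left hθ₀,
    max_lt hθ₁ (Real.exp_lt_one_iff.2 (by norm_num)), hPfin,
    fun v => (hP v).trans (mul_le_mul_of_nonneg_right (le_max_left _ _) (norm_nonneg v)),
    fun m ε hε => ?_⟩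
  obtain ⟨C, δ₁, hC, hδ₁, hmain⟩ := main_est hi σ M m
  set q := Real.sqrt C
  have hq : 0 < q := Real.sqrt_pos.2 hC
  set δ₀ := min δ₁ ((ε / (2 * q)) ^ 2)
  have hδ₀ : 0 < δ₀ := by positivity
  refine ⟨δ₀, q, hδ₀, hq, fun δ L s₀ F a f w hle hp hg hF => ?_⟩
  set V : Tr σ M δ₀ m F :=
    ⟨L, s₀, a, f, w, hp, good_mono hg hle le_rfl le_rfl, hF⟩
  have eV : ∀ r, stateAt L w (s₀ + r) = V.st r := fun r => rfl
  have eV0 : stateAt L w s₀ = V.st 0 := by rw [← eV 0, add_zero]
  rw [← A.op_pow, eV, eV0]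
  set x := V.st 0
  set b := 2 * max θ₀ θ₂ ^ m + ε / 2 with hb
  have key := A.le_of_approx (Nat.cast_nonneg m) x (V.st m) (a := b * ‖x‖ + q * F) (b := b)
    (c := q) hδ₀ (fun δ' hδ' hle' U hU => by
      obtain ⟨X, hX⟩ := hU
      set X' := X.restrict hle' le_rfl (show (0:ℝ) + m ≤ m by rw [zero_add])
      have h := hmain δ₀ F 1 0 V X' X' (min_le_left _ _) m ⟨Nat.cast_nonneg m, le_rfl⟩
      simp only [X', X.restrict_st, zero_add, ← hX, one_smul, zero_smul, sub_zero, one_pow,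
        one_mul, zero_pow two_ne_zero, zero_mul, add_zero] at h
      have hF0 := hF.1
      set u := ‖U 0‖
      set v := ‖x‖
      set s := Real.sqrt δ₀
      have hs : 0 ≤ s := Real.sqrt_nonneg _
      have hsε : q * s ≤ ε / 2 := by
        have h1 : s ≤ ε / (2 * q) := by
          have := Real.sqrt_le_sqrt (min_le_right δ₁ ((ε / (2 * q)) ^ 2))
          rwa [Real.sqrt_sq (by positivity)] at this
        have h2 := mul_le_mul_of_nonneg_left h1 hq.le
        rw [show q * (ε / (2 * q)) = ε / 2 by field_simp] at h2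
        exact h2
      have ht1 := pow_le_pow_left₀ (norm_nonneg _) (norm_tail_le s⁻¹ x) 2
      have ht2 := pow_le_pow_left₀ (norm_nonneg _) (norm_tail_le s⁻¹ (U 0)) 2
      have e0 : Real.exp (-(m:ℝ)) ≤ (max θ₀ θ₂ ^ m) ^ 2 := by
        rw [← pow_mul, mul_comm, pow_mul]
        refine le_trans (le_of_eq ?_) (pow_le_pow_left₀ (sq_nonneg θ₂)
          (pow_le_pow_left₀ (Real.exp_pos _).le (le_max_right _ _) 2) m)
        simp only [θ₂]
        rw [← Real.exp_nat_mul, ← Real.exp_nat_mul]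
        push_cast
        ring_nf
      set θm := max θ₀ θ₂ ^ m
      have hθm : 0 ≤ θm := pow_nonneg (le_max_of_le_left hθ₀) m
      set d := ‖x - U 0‖
      have hd : 0 ≤ d := norm_nonneg _
      have hu : 0 ≤ u := norm_nonneg _
      have hv : 0 ≤ v := norm_nonneg _
      -- the quadratic bound
      have h1 : ‖V.st m - U m‖ ^ 2
          ≤ (2 * θm * (v + u) + q * (d + s * (v + u) + F)) ^ 2 := by
        refine h.trans ?_
        have k1 := mul_le_mul_of_nonneg_left (add_le_add ht1 ht2)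
          (mul_nonneg (show (0:ℝ) ≤ 3 by norm_num) (Real.exp_pos (-(m:ℝ))).le)
        have k2 := mul_le_mul_of_nonneg_right e0
          (show 0 ≤ v ^ 2 + u ^ 2 by positivity)
        have hvu : v ^ 2 + u ^ 2 ≤ (v + u) ^ 2 := by nlinarith [mul_nonneg hu hv]
        have k3 := mul_le_mul_of_nonneg_left hvu (sq_nonneg θm)
        have k4 := mul_le_mul_of_nonneg_left hvu hδ₀.le
        have hs2 : s ^ 2 = δ₀ := Real.sq_sqrt hδ₀.le
        have hq2 : q ^ 2 = C := Real.sq_sqrt hC.le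
        have hk : d ^ 2 + δ₀ * (v + u) ^ 2 + F ^ 2 ≤ (d + s * (v + u) + F) ^ 2 := by
          rw [← hs2, ← mul_pow]
          have := mul_nonneg hd (show 0 ≤ s * (v + u) by positivity)
          have := mul_nonneg (show 0 ≤ d + s * (v + u) by positivity) hF0
          nlinarith
        have k5 := mul_le_mul_of_nonneg_left hk hC.le
        have k6 := mul_le_mul_of_nonneg_left k4 hC.le
        set P := d + s * (v + u) + F
        have k7 : 0 ≤ θm * (v + u) * (q * P) := by positivity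
        have e : (2 * θm * (v + u) + q * P) ^ 2
            = 4 * (θm ^ 2 * (v + u) ^ 2) + 4 * (θm * (v + u) * (q * P)) + C * P ^ 2 := by
          rw [← hq2]; ring
        rw [e]
        linarith [mul_nonneg (sq_nonneg θm) (sq_nonneg (v + u))]
      have h2 := le_of_pow_le_pow_left₀ two_ne_zero
        (show 0 ≤ 2 * θm * (v + u) + q * (d + s * (v + u) + F) by positivity) h1
      have h3 := mul_le_mul_of_nonneg_right hsε (add_nonneg hv hu)
      rw [hb]
      linarith)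
  refine key.trans (le_of_eq ?_)
  rw [hb]
  ring

end Vale.Agent.P264.LinOp
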