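import Vale.Agent.P264.LinOp.Flow

/-!
The comparison of three potentials with coefficients close to the shrinker: near part by the
energy of the combination, far part by the decay of the tails.
-/

namespace Vale.Agent.P264.LinOp

open Set Filter Topology MeasureTheory
open scoped ContDiff

/-- A potential with good coefficient and forcing at most `F` on a window. -/
structure Tr (σ : Shrinker) (M δ T F : ℝ) where
  L : ℝ
  s₀ : ℝ
  a : ℝ → ℝ → ℝ
  f : ℝ → ℝ → ℝ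
  w : ℝ → ℝ → ℝ
  pot : Pot L a f w
  good : Good σ M δ L a s₀ T
  forced : Forced F L f s₀ T

/-- Its state at relative time `r`. -/
noncomputable def Tr.st {σ : Shrinker} {M δ T F : ℝ} (U : Tr σ M δ T F) (r : ℝ) : H :=
  stateAt U.L U.w (U.s₀ + r)

theorem Tr.unforced {σ : Shrinker} {M δ T : ℝ} (U : Tr σ M δ T 0) {s y : ℝ}
    (hs : s ∈ Icc U.s₀ (U.s₀ + T)) (hy : y ∈ Ioo 0 (Ys U.L s)) :
    Real.exp (-s / 2) * U.f (tof s) (Real.exp (-s / 2) * y) = 0 := by
  have h := U.forced.2 s hs y hy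
  have hr : 0 < rho 5 y := by have := hy.1; unfold rho; positivity
  rw [zero_pow two_ne_zero] at h
  by_contra hne
  have : 0 < rho 5 y * (Real.exp (-s / 2) * U.f (tof s) (Real.exp (-s / 2) * y)) ^ 2
      * (1 + y ^ 2) := mul_pos (mul_pos hr (pow_two_pos_of_ne_zero hne)) (by positivity)
  linarith

theorem Tr.norm_sq {σ : Shrinker} {M δ T F : ℝ} (U : Tr σ M δ T F) {r : ℝ} (hr : 0 ≤ r) :
    ‖U.st r‖ ^ 2 = normN U.L U.w (U.s₀ + r) :=
  stateAt_norm_sq U.pot.smooth (good_pos U.good) (by linarith [U.good.start])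

theorem ci {Y : ℝ} (hY : 0 ≤ Y) {f : ℝ → ℝ} (hf : ContinuousOn f (Icc 0 Y)) :
    IntervalIntegrable f volume 0 Y :=
  ContinuousOn.intervalIntegrable (by rwa [uIcc_of_le hY])

theorem d1_comb {Y : ℝ} (α β : ℝ) {u v z : ℝ → ℝ} (hu : ContDiffOn ℝ ∞ u (Icc 0 Y))
    (hv : ContDiffOn ℝ ∞ v (Icc 0 Y)) (hz : ContDiffOn ℝ ∞ z (Icc 0 Y)) {y : ℝ}
    (hy : y ∈ Ioo 0 Y) :
    deriv (fun x => u x - α * v x - β * z x) y = deriv u y - α * deriv v y - β * deriv z y := by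
  have d : ∀ f : ℝ → ℝ, ContDiffOn ℝ ∞ f (Icc 0 Y) → DifferentiableAt ℝ f y := fun f hf =>
    (hf.contDiffAt (Icc_mem_nhds hy.1 hy.2)).differentiableAt (by simp)
  exact ((((d u hu).hasDerivAt).sub ((d v hv).hasDerivAt.const_mul α)).sub
    ((d z hz).hasDerivAt.const_mul β)).deriv

theorem d2_comb {Y : ℝ} (α β : ℝ) {u v z : ℝ → ℝ} (hu : ContDiffOn ℝ ∞ u (Icc 0 Y))
    (hv : ContDiffOn ℝ ∞ v (Icc 0 Y)) (hz : ContDiffOn ℝ ∞ z (Icc 0 Y)) {y : ℝ}
    (hy : y ∈ Ioo 0 Y) :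
    deriv (deriv fun x => u x - α * v x - β * z x) y
      = d2 Y u y - α * d2 Y v y - β * d2 Y z y := by
  have hY : 0 < Y := hy.1.trans hy.2
  have e : deriv (fun x => u x - α * v x - β * z x)
      =ᶠ[𝓝 y] fun x => d1 Y u x - α * d1 Y v x - β * d1 Y z x := by
    filter_upwards [Ioo_mem_nhds hy.1 hy.2] with x hx
    rw [d1_comb α β hu hv hz hx, d1_eq hx, d1_eq hx, d1_eq hx]
  rw [e.deriv_eq, d1_comb α β (d1_smooth hY hu) (d1_smooth hY hv) (d1_smooth hY hz) hy,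
    d2, d2, d2, d1_eq hy, d1_eq hy, d1_eq hy]

/-- Quotient of two good coefficients, continued by `1` at the origin. -/
noncomputable def quot (A B : ℝ → ℝ) (y : ℝ) : ℝ := if y = 0 then 1 else A y / B y

theorem quot_continuous {K : ℝ} {A B : ℝ → ℝ} (hA : ContinuousOn A (Icc 0 K))
    (hB : ContinuousOn B (Icc 0 K)) (hBp : ∀ y ∈ Ioc 0 K, B y ≠ 0)
    (a1 : Tendsto (fun y => A y / y ^ 2) (𝓝[>] 0) (𝓝 1))
    (b1 : Tendsto (fun y => B y / y ^ 2) (𝓝[>] 0) (𝓝 1)) :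
    ContinuousOn (quot A B) (Icc 0 K) := by
  intro y hy
  rcases eq_or_lt_of_le hy.1 with h | h
  · subst h
    refine ContinuousWithinAt.mono ?_ (Icc_subset_Ici_self)
    rw [← continuousWithinAt_Ioi_iff_Ici]
    have h2 : Tendsto (fun y => (A y / y ^ 2) / (B y / y ^ 2)) (𝓝[>] 0) (𝓝 1) := by
      have := a1.div b1 one_ne_zero
      rwa [div_one] at this
    refine Tendsto.congr' ?_ (by simpa [quot] using h2)
    filter_upwards [self_mem_nhdsWithin] with z (hz : 0 < z)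
    rw [quot, if_neg hz.ne', div_div_div_cancel_right₀ (pow_ne_zero _ hz.ne')]
  · refine ((hA y hy).div (hB y hy) (hBp y ⟨h, hy.2⟩)).congr_of_eventuallyEq ?_
      (by rw [quot, if_neg h.ne']; rfl)
    filter_upwards [mem_nhdsWithin_of_mem_nhds (eventually_gt_nhds h)] with z (hz : 0 < z)
    rw [quot, if_neg hz.ne']; rfl

theorem diss_mono {Y K : ℝ} {A V : ℝ → ℝ} (hK : 0 < K) (hKY : K ≤ Y)
    (hA : ContDiffOn ℝ ∞ A (Icc 0 Y)) (hV : ContDiffOn ℝ ∞ V (Icc 0 Y))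
    (hpos : ∀ y ∈ Ioo 0 Y, 0 ≤ A y) :
    (∫ y in (0:ℝ)..K, rho 5 y * (A y * deriv (deriv V) y ^ 2)) ≤ diss 5 (fun _ => 1) Y A V := by
  have hY : 0 < Y := hK.trans_le hKY
  have i : IntervalIntegrable (fun y => rho 5 y * (A y * deriv (deriv V) y ^ 2)) volume 0 Y := by
    refine (intervalIntegrable_congr_uIoo fun y hy => ?_).1 (ci hY.le
      (f := fun y => rho 5 y * (A y * d2 Y V y ^ 2)) ((continuous_rho 5).continuousOn.mul
        (hA.continuousOn.mul ((d2_smooth hY hV).continuousOn.pow 2))))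
    rw [uIoo_of_le hY.le] at hy; rw [d2_eq hy]
  rw [show diss 5 (fun _ => 1) Y A V = ∫ y in (0:ℝ)..Y, rho 5 y * (A y * deriv (deriv V) y ^ 2)
    by simp [diss]]
  refine intervalIntegral.integral_mono_interval le_rfl hK.le hKY ?_ i
  rw [← Measure.restrict_congr_set Ioo_ae_eq_Ioc]
  refine (ae_restrict_mem measurableSet_Ioo).mono fun y hy => ?_
  have := rho_nonneg 5 hy.1.le
  have := hpos y hy
  positivity

theorem norm_mono {Y K : ℝ} {V : ℝ → ℝ} (hK : 0 ≤ K) (hKY : K ≤ Y)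
    (hV : ContinuousOn V (Icc 0 Y)) :
    (∫ y in (0:ℝ)..K, rho 5 y * V y ^ 2) ≤ wsq 5 0 (fun _ => 1) Y V := by
  rw [show wsq 5 0 (fun _ => 1) Y V = ∫ y in (0:ℝ)..Y, rho 5 y * V y ^ 2 by simp [wsq]]
  refine intervalIntegral.integral_mono_interval le_rfl hK hKY ?_
    (ci (hK.trans hKY) ((continuous_rho 5).continuousOn.mul (hV.pow 2)))
  refine (ae_restrict_mem measurableSet_Ioc).mono fun y hy => ?_
  have := rho_nonneg 5 hy.1.le
  positivity

theorem sq_add_le (α β u v z : ℝ) :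
    (u - α * v - β * z) ^ 2 ≤ 3 * (u ^ 2 + α ^ 2 * v ^ 2 + β ^ 2 * z ^ 2) := by
  nlinarith [sq_nonneg (u + α * v), sq_nonneg (u + β * z), sq_nonneg (α * v - β * z)]

/-- Nearby coefficients give a small relative defect. -/
theorem defect {δ A B X : ℝ} (hδ : δ ≤ 1 / 2) (hA : 0 < A) (hB : 0 ≤ B) (hX : 0 ≤ X)
    (h1 : |A - X| ≤ δ * X) (h2 : |B - X| ≤ δ * X) (d : ℝ) :
    A * ((1 - B / A) * d) ^ 2 ≤ 16 * δ ^ 2 * (B * d ^ 2) := by
  obtain ⟨a1, a2⟩ := abs_le.1 h1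
  obtain ⟨b1, b2⟩ := abs_le.1 h2
  have hδX : δ * X ≤ 1 / 2 * X := mul_le_mul_of_nonneg_right hδ hX
  have hd : (A - B) ^ 2 ≤ 4 * δ ^ 2 * X ^ 2 := by
    nlinarith [mul_nonneg (show 0 ≤ 2 * (δ * X) - (A - B) by linarith)
      (show 0 ≤ 2 * (δ * X) + (A - B) by linarith)]
  have hXX : X ^ 2 ≤ 4 * (A * B) := by
    nlinarith [mul_le_mul (show X ≤ 2 * A by linarith) (show X ≤ 2 * B by linarith) hX
      (by linarith : (0:ℝ) ≤ 2 * A)]
  rw [show A * ((1 - B / A) * d) ^ 2 = (A - B) ^ 2 / A * d ^ 2 by field_simp]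
  rw [← mul_assoc]
  refine mul_le_mul_of_nonneg_right ((div_le_iff₀ hA).2 (hd.trans ?_)) (sq_nonneg d)
  nlinarith [mul_le_mul_of_nonneg_left hXX (show 0 ≤ 4 * δ ^ 2 by positivity)]

theorem loss_comb {K R : ℝ} (hK : 0 ≤ K) (hR : 1 ≤ R) (α β : ℝ) {κ u v z : ℝ → ℝ}
    (hκc : Continuous κ) (h0 : ∀ y, 0 ≤ κ y) (h1 : ∀ y, κ y ≤ 1) (hone : ∀ y ≤ R, κ y = 1)
    (hu : ContinuousOn u (Icc 0 K)) (hv : ContinuousOn v (Icc 0 K))
    (hz : ContinuousOn z (Icc 0 K)) :
    loss 5 κ K (fun y => u y - α * v y - β * z y)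
      ≤ wsq 5 8 κ K (fun y => u y - α * v y - β * z y) + 3 / R ^ 2 *
        ((∫ y in (0:ℝ)..K, rho 5 y * u y ^ 2) + α ^ 2 * (∫ y in (0:ℝ)..K, rho 5 y * v y ^ 2)
          + β ^ 2 * ∫ y in (0:ℝ)..K, rho 5 y * z y ^ 2) := by
  have hρc := continuous_rho 5
  have hD : ContinuousOn (fun y => u y - α * v y - β * z y) (Icc 0 K) :=
    (hu.sub (continuousOn_const.mul hv)).sub (continuousOn_const.mul hz)
  have cu := ci hK (f := fun y => rho 5 y * u y ^ 2) (hρc.continuousOn.mul (hu.pow 2))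
  have cv := (ci hK (f := fun y => rho 5 y * v y ^ 2)
    (hρc.continuousOn.mul (hv.pow 2))).const_mul (α ^ 2)
  have cz := (ci hK (f := fun y => rho 5 y * z y ^ 2)
    (hρc.continuousOn.mul (hz.pow 2))).const_mul (β ^ 2)
  have iW := ci hK (f := fun y => κ y ^ 8 * rho 5 y * (u y - α * v y - β * z y) ^ 2) (((hκc.pow 8).mul hρc).continuousOn.mul (hD.pow 2))
  have iL := ci hK ((((hκc.pow 4).mul hρc).continuousOn.mul (hD.pow 2)).div
    (g := fun y => 1 + y ^ 2) (by fun_prop) fun y _ => by positivity)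
  have step : (∫ y in (0:ℝ)..K, κ y ^ 4 * rho 5 y * (u y - α * v y - β * z y) ^ 2 / (1 + y ^ 2))
      ≤ ∫ y in (0:ℝ)..K, (κ y ^ 8 * rho 5 y * (u y - α * v y - β * z y) ^ 2
        + 3 / R ^ 2 * (rho 5 y * u y ^ 2 + α ^ 2 * (rho 5 y * v y ^ 2)
          + β ^ 2 * (rho 5 y * z y ^ 2))) := by
    refine intervalIntegral.integral_mono_on_of_le_Ioo hK iL
      (iW.add (((cu.add cv).add cz).const_mul _)) fun y hy => ?_
    have hr' := rho_nonneg 5 hy.1.le
    set d := u y - α * v y - β * z y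
    have hq : 0 ≤ rho 5 y * d ^ 2 := by positivity
    have hk : κ y ^ 4 / (1 + y ^ 2) ≤ κ y ^ 8 + 1 / R ^ 2 := by
      by_cases hy' : y ≤ R
      · rw [hone y hy', one_pow, one_pow]
        have : (1:ℝ) / (1 + y ^ 2) ≤ 1 := by rw [div_le_one (by positivity)]; nlinarith
        have : (0:ℝ) ≤ 1 / R ^ 2 := by positivity
        linarith
      · have : κ y ^ 4 / (1 + y ^ 2) ≤ 1 / R ^ 2 := by
          refine div_le_div₀ zero_le_one (pow_le_one₀ (h0 y) (h1 y)) (by positivity) ?_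
          nlinarith
        linarith [pow_nonneg (h0 y) 8]
    have hs := mul_le_mul_of_nonneg_left (sq_add_le α β (u y) (v y) (z y))
      (show 0 ≤ rho 5 y / R ^ 2 by positivity)
    calc κ y ^ 4 * rho 5 y * d ^ 2 / (1 + y ^ 2)
        = κ y ^ 4 / (1 + y ^ 2) * (rho 5 y * d ^ 2) := by ring
      _ ≤ (κ y ^ 8 + 1 / R ^ 2) * (rho 5 y * d ^ 2) := mul_le_mul_of_nonneg_right hk hq
      _ = κ y ^ 8 * rho 5 y * d ^ 2 + rho 5 y / R ^ 2 * d ^ 2 := by ring
      _ ≤ κ y ^ 8 * rho 5 y * d ^ 2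
          + rho 5 y / R ^ 2 * (3 * (u y ^ 2 + α ^ 2 * v y ^ 2 + β ^ 2 * z y ^ 2)) :=
        add_le_add le_rfl hs
      _ = _ := by ring
  rw [intervalIntegral.integral_add iW (((cu.add cv).add cz).const_mul _),
    intervalIntegral.integral_const_mul, intervalIntegral.integral_add (cu.add cv) cz,
    intervalIntegral.integral_add cu cv, intervalIntegral.integral_const_mul,
    intervalIntegral.integral_const_mul] at step
  exact step

theorem fsq_comb {K δ : ℝ} (hK : 0 ≤ K) (α β : ℝ) (hδ : δ ≤ 1 / 2) {κ A B C X v z f : ℝ → ℝ}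
    (hκc : Continuous κ) (h0 : ∀ y, 0 ≤ κ y) (h1 : ∀ y, κ y ≤ 1)
    (hA : ContinuousOn A (Icc 0 K)) (hB : ContinuousOn B (Icc 0 K)) (hC : ContinuousOn C (Icc 0 K))
    (hv : ContinuousOn v (Icc 0 K)) (hz : ContinuousOn z (Icc 0 K))
    (hf : ContinuousOn f (Icc 0 K))
    (hfe : ∀ y ∈ Ioo 0 K, f y = α * (1 - B y / A y) * v y + β * (1 - C y / A y) * z y)
    (pA : ∀ y ∈ Ioo 0 K, 0 < A y) (pB : ∀ y ∈ Ioo 0 K, 0 ≤ B y) (pC : ∀ y ∈ Ioo 0 K, 0 ≤ C y)
    (pX : ∀ y ∈ Ioo 0 K, 0 ≤ X y) (cA : ∀ y ∈ Ioo 0 K, |A y - X y| ≤ δ * X y)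
    (cB : ∀ y ∈ Ioo 0 K, |B y - X y| ≤ δ * X y) (cC : ∀ y ∈ Ioo 0 K, |C y - X y| ≤ δ * X y) :
    fsq 5 κ K A f ≤ 32 * δ ^ 2 *
      (α ^ 2 * (∫ y in (0:ℝ)..K, rho 5 y * (B y * v y ^ 2))
        + β ^ 2 * ∫ y in (0:ℝ)..K, rho 5 y * (C y * z y ^ 2)) := by
  have hρc := continuous_rho 5
  have iB := (ci hK (f := fun y => rho 5 y * (B y * v y ^ 2))
    (hρc.continuousOn.mul (hB.mul (hv.pow 2)))).const_mul (α ^ 2)
  have iC := (ci hK (f := fun y => rho 5 y * (C y * z y ^ 2))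
    (hρc.continuousOn.mul (hC.mul (hz.pow 2)))).const_mul (β ^ 2)
  have iF := ci hK ((((hκc.pow 8).mul hρc).continuousOn).mul (hA.mul (hf.pow 2)))
  have step : (∫ y in (0:ℝ)..K, κ y ^ 8 * rho 5 y * (A y * f y ^ 2))
      ≤ ∫ y in (0:ℝ)..K, 32 * δ ^ 2
        * (α ^ 2 * (rho 5 y * (B y * v y ^ 2)) + β ^ 2 * (rho 5 y * (C y * z y ^ 2))) := by
    refine intervalIntegral.integral_mono_on_of_le_Ioo hK iF ((iB.add iC).const_mul _)
      fun y hy => ?_
    have hr' := rho_nonneg 5 hy.1.le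
    have hk1 : κ y ^ 8 ≤ 1 := pow_le_one₀ (h0 y) (h1 y)
    have hA0 := pA y hy
    have e1 := defect hδ hA0 (pB y hy) (pX y hy) (cA y hy) (cB y hy) (α * v y)
    have e2 := defect hδ hA0 (pC y hy) (pX y hy) (cA y hy) (cC y hy) (β * z y)
    have e3 := mul_nonneg hA0.le (sq_nonneg ((1 - B y / A y) * (α * v y)
      - (1 - C y / A y) * (β * z y)))
    have hsum : A y * f y ^ 2
        ≤ 32 * δ ^ 2 * (α ^ 2 * (B y * v y ^ 2) + β ^ 2 * (C y * z y ^ 2)) := by
      rw [hfe y hy]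
      linarith
    calc κ y ^ 8 * rho 5 y * (A y * f y ^ 2) ≤ 1 * rho 5 y * (A y * f y ^ 2) :=
          mul_le_mul_of_nonneg_right (mul_le_mul_of_nonneg_right hk1 hr')
            (mul_nonneg hA0.le (sq_nonneg _))
      _ ≤ 1 * rho 5 y * (32 * δ ^ 2
          * (α ^ 2 * (B y * v y ^ 2) + β ^ 2 * (C y * z y ^ 2))) :=
          mul_le_mul_of_nonneg_left hsum (by positivity)
      _ = _ := by ring
  rw [intervalIntegral.integral_const_mul, intervalIntegral.integral_add iB iC,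
    intervalIntegral.integral_const_mul, intervalIntegral.integral_const_mul] at step
  exact step

/-- Bound for the time derivative of the cut energy of a combination. -/
theorem comb_deriv (hi : Inputs) (σ : Shrinker) (M : ℝ) : ∃ C : ℝ, 0 < C ∧
    ∀ (δ T F α β R : ℝ) (U : Tr σ M δ T F) (V W : Tr σ M δ T 0),
      δ ≤ 1 / 1000 → 1 ≤ R → 2 * R < 1 / δ → ∀ r ∈ Ioo 0 T,
      ∃ Z', HasDerivAt (fun r => wsq 5 8 (fun y => Real.smoothTransition (-1 / R * y + 2)) (2 * R)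
          (fun y => snap U.w (U.s₀ + r) y - α * snap V.w (V.s₀ + r) y
            - β * snap W.w (W.s₀ + r) y)) Z' r ∧
        Z' ≤ C * wsq 5 8 (fun y => Real.smoothTransition (-1 / R * y + 2)) (2 * R)
            (fun y => snap U.w (U.s₀ + r) y - α * snap V.w (V.s₀ + r) y
              - β * snap W.w (W.s₀ + r) y)
          + C / R ^ 2 * (normN U.L U.w (U.s₀ + r) + α ^ 2 * normN V.L V.w (V.s₀ + r)
              + β ^ 2 * normN W.L W.w (W.s₀ + r))
          + C * δ ^ 2 * (α ^ 2 * diss 5 (fun _ => 1) (Ys V.L (V.s₀ + r)) (rcoef V.a (V.s₀ + r))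
                (snap V.w (V.s₀ + r))
              + β ^ 2 * diss 5 (fun _ => 1) (Ys W.L (W.s₀ + r)) (rcoef W.a (W.s₀ + r))
                (snap W.w (W.s₀ + r)))
          + 2 * F ^ 2 := by
  obtain ⟨δ₁, hδ₁, hen⟩ := energy_static hi.coercive hi.forcing
  obtain ⟨δe, hδe, hδe1, hδe2, hcoef⟩ := coef_of_good σ hδ₁
  obtain ⟨G, hG, hcut⟩ := cut_affine
  obtain ⟨c, C₀, hc, hC₀, hen⟩ := hen M G δe hδe hδe1
  refine ⟨32 * (C₀ + 5) + 3 * (C₀ + 5), by positivity,
    fun δ T F α β R U V W hδ hR hRδ r hr => ?_⟩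
  set K := 2 * R with hKdef
  have hK : 0 < K := by positivity
  have hT : 0 < T := hr.1.trans hr.2
  have hLK : ∀ {G : ℝ} (X : Tr σ M δ T G), K < X.L := fun X => hRδ.trans_le X.good.long
  have hLp : ∀ {G : ℝ} (X : Tr σ M δ T G), 0 < X.L := fun X => good_pos X.good
  have hsI : ∀ {G : ℝ} (X : Tr σ M δ T G), X.s₀ + r ∈ Icc X.s₀ (X.s₀ + T) := fun X =>
    ⟨by linarith [hr.1], by linarith [hr.2]⟩
  have hs0 : ∀ {G : ℝ} (X : Tr σ M δ T G), 0 < X.s₀ + r := fun X => by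
    linarith [hr.1, X.good.start]
  have hKY : ∀ {G : ℝ} (X : Tr σ M δ T G), K < Ys X.L (X.s₀ + r) := fun X =>
    (hLK X).trans_le (le_Ys (hLp X) (hs0 X).le)
  have hIoo : ∀ {G : ℝ} (X : Tr σ M δ T G), ∀ y ∈ Ioo 0 K, y ∈ Ioo 0 (Ys X.L (X.s₀ + r)) :=
    fun X y hy => ⟨hy.1, hy.2.trans (hKY X)⟩
  set κ : ℝ → ℝ := fun y => Real.smoothTransition (-1 / R * y + 2) with hκdef
  have hcutK : Cut K G δe κ := by
    refine hcut K δe (-1 / R) 2 (fun y hy hm => ?_) fun y hy => ?_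
    · have h2 : y ≤ 2 * R := by
        have := hm.1; field_simp at this; linarith
      rw [neg_div, abs_neg, abs_of_pos (by positivity), div_mul_eq_mul_div, one_mul,
        div_le_iff₀ (by linarith)]
      linarith
    · rw [Real.smoothTransition.one_of_one_le, Real.smoothTransition.one_of_one_le (by norm_num)]
      have h1 : y / R ≤ 1 := (div_le_one (by linarith)).2 ((hy.trans hδe2).trans hR)
      rw [show -1 / R * y = -(y / R) by ring]; linarith
  have hκK : κ K = 0 := Real.smoothTransition.zero_of_nonpos (by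
    rw [hKdef]; field_simp; linarith)
  have hκd : ∀ y, deriv κ y ≤ 0 := fun y => by
    have h := ((Real.smoothTransition.contDiff (n := 1)).differentiable (by simp)
      (-1 / R * y + 2)).hasDerivAt
    have haff : HasDerivAt (fun z : ℝ => -1 / R * z + 2) (-1 / R) y := by
      simpa using ((hasDerivAt_id y).const_mul (-1 / R)).add_const 2
    have e : deriv κ y = deriv Real.smoothTransition (-1 / R * y + 2) * (-1 / R) :=
      (HasDerivAt.comp (h := fun z => -1 / R * z + 2) y h haff :).deriv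
    rw [e]
    refine mul_nonpos_of_nonneg_of_nonpos Real.smoothTransition.monotone.deriv_nonneg ?_
    rw [neg_div]; exact neg_nonpos.2 (by positivity)
  set u := snap U.w (U.s₀ + r) with hu_def
  set v := snap V.w (V.s₀ + r) with hv_def
  set z := snap W.w (W.s₀ + r) with hz_def
  have hsl : ∀ {G : ℝ} (X : Tr σ M δ T G), ContDiffOn ℝ ∞ (snap X.w (X.s₀ + r)) (Icc 0 K) :=
    fun X => (snap_slice X.pot.smooth (hs0 X).le).mono (Icc_subset_Icc le_rfl (hKY X).le)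
  have hal : ∀ {G : ℝ} (X : Tr σ M δ T G), ContDiffOn ℝ ∞ (rcoef X.a (X.s₀ + r)) (Icc 0 K) :=
    fun X => (rcoef_slice X.good.smooth (hs0 X).le).mono (Icc_subset_Icc le_rfl (hKY X).le)
  have hδe' : δe ≤ K := by linarith
  have hcf : ∀ {G : ℝ} (X : Tr σ M δ T G), Coef K M δe (rcoef X.a (X.s₀ + r)) := fun X =>
    hcoef M δ X.L X.a X.s₀ T _ K X.good hδ (hsI X) hδe' (hKY X).le
  set AU := rcoef U.a (U.s₀ + r)
  set AV := rcoef V.a (V.s₀ + r)
  set AW := rcoef W.a (W.s₀ + r)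
  set D : ℝ → ℝ := fun y => u y - α * v y - β * z y with hDdef
  have hDs : ContDiffOn ℝ ∞ D (Icc 0 K) :=
    ((hsl U).sub (contDiffOn_const.mul (hsl V))).sub (contDiffOn_const.mul (hsl W))
  set Ff : ℝ → ℝ := fun y => α * (AU y - AV y) * d2 K v y + β * (AU y - AW y) * d2 K z y
    with hFf
  set Kf : ℝ → ℝ := fun y => α * (1 - quot AV AU y) * d2 K v y + β * (1 - quot AW AU y) * d2 K z y
    with hKf
  set E : ℝ → ℝ := fun y => dtx U.L U.w (U.s₀ + r) y - α * dtx V.L V.w (V.s₀ + r) y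
    - β * dtx W.L W.w (W.s₀ + r) y with hEdef
  have hz0 : ∀ {G : ℝ} (X : Tr σ M δ T G), rcoef X.a (X.s₀ + r) 0 = 0 := fun X => by
    simpa using (hcf X).near0 0 (left_mem_Icc.2 hδe.le)
  have hUp : ∀ y ∈ Ioc 0 K, AU y ≠ 0 := fun y hy =>
    (U.good.pos _ (hsI U) y ⟨hy.1, hy.2.trans_lt (hKY U)⟩).ne'
  have hKc : ContinuousOn Kf (Icc 0 K) :=
    ((continuousOn_const.mul (continuousOn_const.sub (quot_continuous (hal V).continuousOn
      (hal U).continuousOn hUp (V.good.origin _ (hsI V)) (U.good.origin _ (hsI U))))).mul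
      (d2_smooth hK (hsl V)).continuousOn).add
    ((continuousOn_const.mul (continuousOn_const.sub (quot_continuous (hal W).continuousOn
      (hal U).continuousOn hUp (W.good.origin _ (hsI W)) (U.good.origin _ (hsI U))))).mul
      (d2_smooth hK (hsl W)).continuousOn)
  have hFK : ∀ y ∈ Icc 0 K, Ff y = AU y * Kf y := by
    intro y hy
    rcases eq_or_lt_of_le hy.1 with h | h
    · rw [← h]; simp only [hFf, hz0, AU, AV, AW]; ring
    · have := hUp y ⟨h, hy.2⟩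
      simp only [hFf, hKf, quot, if_neg h.ne']
      field_simp
  have hFs : ContDiffOn ℝ ∞ Ff (Icc 0 K) :=
    ((contDiffOn_const.mul ((hal U).sub (hal V))).mul (d2_smooth hK (hsl V))).add
      ((contDiffOn_const.mul ((hal U).sub (hal W))).mul (d2_smooth hK (hsl W)))
  have hEc : ContinuousOn E (Icc 0 K) := by
    have h : ∀ {G : ℝ} (X : Tr σ M δ T G),
        ContinuousOn (dtx X.L X.w (X.s₀ + r)) (Icc 0 K) := fun X =>
      (dtx_continuous X.pot.smooth (hLp X) (hs0 X).le).mono (Icc_subset_Icc le_rfl (hKY X).le)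
    exact ((h U).sub (continuousOn_const.mul (h V))).sub (continuousOn_const.mul (h W))
  have heq : ∀ y ∈ Ioo 0 K, E y = -dst (fun x => AU x * deriv (deriv D) x) y - dst Ff y
      + Real.exp (-(U.s₀ + r) / 2) * U.f (tof (U.s₀ + r)) (Real.exp (-(U.s₀ + r) / 2) * y) := by
    intro y hy
    have eU := dtx_eq hi U.pot (hLp U) (hs0 U) (hIoo U y hy)
    have eV := dtx_eq hi V.pot (hLp V) (hs0 V) (hIoo V y hy)
    have eW := dtx_eq hi W.pot (hLp W) (hs0 W) (hIoo W y hy)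
    rw [V.unforced (hsI V) (hIoo V y hy), add_zero] at eV
    rw [W.unforced (hsI W) (hIoo W y hy), add_zero] at eW
    have cg : ∀ (A f : ℝ → ℝ), dst (fun x => A x * deriv (deriv f) x) y
        = dst (fun x => A x * d2 K f x) y := fun A f =>
      dst_congr (fun x hx => by rw [d2_eq hx]) hy
    have hU := (hal U).mul (d2_smooth hK (hsl U))
    have hV := (hal V).mul (d2_smooth hK (hsl V))
    have hW := (hal W).mul (d2_smooth hK (hsl W))
    have hD2 := (hal U).mul (d2_smooth hK hDs)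
    have l1 := dst_lin (1:ℝ) hD2 hFs hy
    have l2 := dst_lin (-β) (hU.add ((contDiffOn_const (c := -α)).mul hV)) hW hy
    have l3 := dst_lin (-α) hU hV hy
    have same : dst (fun x => AU x * d2 K D x + 1 * Ff x) y
        = dst (fun x => (AU x * d2 K u x + -α * (AV x * d2 K v x))
          + -β * (AW x * d2 K z x)) y := by
      refine dst_congr (fun x hx => ?_) hy
      rw [d2_eq (V := D) hx, d2_comb α β (hsl U) (hsl V) (hsl W) hx]
      simp only [hFf]; ring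
    simp only [hEdef]
    rw [eU, eV, eW, cg AU u, cg AV v, cg AW z, cg AU D]
    linarith
  have hgb : ∀ y ∈ Ioo 0 K, rho 5 y
      * (Real.exp (-(U.s₀ + r) / 2) * U.f (tof (U.s₀ + r)) (Real.exp (-(U.s₀ + r) / 2) * y)) ^ 2
      * (1 + y ^ 2) ≤ F ^ 2 := fun y hy => U.forced.2 _ (hsI U) y (hIoo U y hy)
  have h1 := hen K F AU κ D Ff Kf E
    (fun y => Real.exp (-(U.s₀ + r) / 2) * U.f (tof (U.s₀ + r))
      (Real.exp (-(U.s₀ + r) / 2) * y))
    hδe' (hcf U) hcutK (Or.inl hκK) hDs hFs hKc hFK hEc hgb heq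
  -- the derivative
  have sm2 : ∀ {G : ℝ} (X : Tr σ M δ T G),
      Calc.Smooth2 (Icc 0 T) (Icc 0 K) fun p y => snap X.w (X.s₀ + p) y := fun X =>
    snap_smooth2 X.pot.smooth (hLp X) X.good.start (hLK X).le
  have hρ : ContDiff ℝ ∞ (rho 5) := by
    unfold rho
    exact (contDiff_id.pow 3).div ((contDiff_const.add (contDiff_id.pow 2)).pow 5)
      fun y => by positivity
  have hsm : Calc.Smooth2 (Icc 0 T) (Icc 0 K) fun p y => κ y ^ 8 * rho 5 y
      * (snap U.w (U.s₀ + p) y - α * snap V.w (V.s₀ + p) y - β * snap W.w (W.s₀ + p) y) ^ 2 :=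
    (((hcutK.smooth.comp contDiff_snd).pow 8).mul (hρ.comp contDiff_snd)).contDiffOn.mul
      ((((sm2 U).sub (contDiffOn_const.mul (sm2 V))).sub (contDiffOn_const.mul (sm2 W))).pow 2)
  refine ⟨_, Middle.hasDerivAt_slice_integral hK.le subset_rfl (uniqueDiffOn_Icc hT)
    (uniqueDiffOn_Icc hK) hsm (t := r) (by rw [interior_Icc]; exact hr), ?_⟩
  have hκc := hcutK.smooth.continuous
  have hρc := continuous_rho 5
  have iE : IntervalIntegrable (fun y => 2 * (κ y ^ 8 * rho 5 y * D y * E y)) volume 0 K :=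
    ci hK.le (continuousOn_const.mul
      ((((hκc.pow 8).mul hρc).continuousOn.mul hDs.continuousOn).mul hEc))
  have iR : IntervalIntegrable (fun y => κ y ^ 8 * rho 5 y * D y * drift D y) volume 0 K := by
    refine (intervalIntegrable_congr_uIoo fun y hy => ?_).1 (ci hK.le
      (f := fun y => κ y ^ 8 * rho 5 y * D y * (D y / 2 - y * d1 K D y / 2))
      ((((hκc.pow 8).mul hρc).continuousOn.mul hDs.continuousOn).mul
        ((hDs.continuousOn.div_const 2).sub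
          ((continuousOn_id.mul (d1_smooth hK hDs).continuousOn).div_const 2))))
    rw [uIoo_of_le hK.le] at hy
    rw [drift, d1_eq hy]
  have eZ : (∫ y in (0:ℝ)..K, Calc.pdT (Icc 0 T) (Icc 0 K) (fun p y => κ y ^ 8 * rho 5 y
        * (snap U.w (U.s₀ + p) y - α * snap V.w (V.s₀ + p) y - β * snap W.w (W.s₀ + p) y) ^ 2)
          r y)
      = (∫ y in (0:ℝ)..K, 2 * (κ y ^ 8 * rho 5 y * D y * E y))
        + 2 * ∫ y in (0:ℝ)..K, κ y ^ 8 * rho 5 y * D y * drift D y := by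
    rw [← intervalIntegral.integral_const_mul, ← intervalIntegral.integral_add iE (iR.const_mul 2)]
    refine integral_congr_Ioo hK.le fun y hy => ?_
    rw [← hsm.deriv_t (Icc_mem_nhds hr.1 hr.2) (Ioo_subset_Icc_self hy)]
    have hd : ∀ {G : ℝ} (X : Tr σ M δ T G), HasDerivAt (fun p => snap X.w (X.s₀ + p) y)
        (dtx X.L X.w (X.s₀ + r) y + drift (snap X.w (X.s₀ + r)) y) r := fun X =>
      (hasDerivAt_snap X.pot.smooth (hs0 X) (hIoo X y hy)).comp_const_add X.s₀ r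
    refine ((((((hd U).sub ((hd V).const_mul α)).sub ((hd W).const_mul β)).pow 2).const_mul
      (κ y ^ 8 * rho 5 y)).deriv).trans ?_
    have hdD : deriv D y = deriv u y - α * deriv v y - β * deriv z y :=
      d1_comb α β (hsl U) (hsl V) (hsl W) hy
    rw [show drift D y = D y / 2 - y * deriv D y / 2 from rfl, hdD]
    simp only [drift, hEdef, hDdef, Pi.sub_apply, u, v, z]
    push_cast
    ring
  rw [eZ, hi.drifting 5 K κ D hK.le hcutK.smooth hDs, hκK]
  -- transport sign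
  have e3 : (∫ y in (0:ℝ)..K, 2 * y * κ y ^ 7 * deriv κ y * rho 5 y * D y ^ 2) ≤ 0 := by
    rw [← neg_nonneg, ← intervalIntegral.integral_neg]
    refine integral_nonneg_Ioo hK.le fun y hy => ?_
    have h7 := pow_nonneg (hcutK.nonneg y) 7
    have hr' := rho_nonneg 5 hy.1.le
    have : 0 ≤ 2 * y * κ y ^ 7 * rho 5 y * D y ^ 2 := by
      have := hy.1; positivity
    nlinarith [mul_nonneg this (neg_nonneg.2 (hκd y))]
  have iW : IntervalIntegrable (fun y => κ y ^ 8 * rho 5 y * D y ^ 2) volume 0 K :=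
    ci hK.le (((hκc.pow 8).mul hρc).continuousOn.mul (hDs.continuousOn.pow 2))
  have iL : IntervalIntegrable (fun y => κ y ^ 4 * rho 5 y * D y ^ 2 / (1 + y ^ 2)) volume 0 K :=
    ci hK.le ((((hκc.pow 4).mul hρc).continuousOn.mul (hDs.continuousOn.pow 2)).div
      (by fun_prop) fun y _ => by positivity)
  have e2 : (∫ y in (0:ℝ)..K, κ y ^ 8 * rho 5 y * D y ^ 2
        * ((6 - 2 * ((5:ℕ):ℝ) * y ^ 2 / (1 + y ^ 2)) / 4))
      ≤ -1 * wsq 5 8 κ K D + 5 / 2 * loss 5 κ K D := by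
    rw [wsq, loss, ← intervalIntegral.integral_const_mul, ← intervalIntegral.integral_const_mul,
      ← intervalIntegral.integral_add (iW.const_mul _) (iL.const_mul _)]
    refine intervalIntegral.integral_mono_on_of_le_Ioo hK.le ?_ ((iW.const_mul _).add
      (iL.const_mul _)) fun y hy => ?_
    · exact iW.mul_continuousOn (g := fun y : ℝ => (6 - 2 * ((5:ℕ):ℝ) * y ^ 2 / (1 + y ^ 2)) / 4)
        (Continuous.continuousOn (((continuous_const.sub ((continuous_const.mul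
          (continuous_id.pow 2)).div (by fun_prop) fun y => by positivity))).div_const 4))
    · have hk : κ y ^ 8 ≤ κ y ^ 4 :=
        pow_le_pow_of_le_one (hcutK.nonneg y) (hcutK.le_one y) (by norm_num)
      have hr' := rho_nonneg 5 hy.1.le
      have := mul_le_mul_of_nonneg_right hk
        (show 0 ≤ rho 5 y * D y ^ 2 / (1 + y ^ 2) by positivity)
      have e : κ y ^ 8 * rho 5 y * D y ^ 2 * ((6 - 2 * ((5:ℕ):ℝ) * y ^ 2 / (1 + y ^ 2)) / 4)
          = -1 * (κ y ^ 8 * rho 5 y * D y ^ 2)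
            + 5 / 2 * (κ y ^ 8 * (rho 5 y * D y ^ 2 / (1 + y ^ 2))) := by
        push_cast; field_simp; ring
      rw [e]
      calc _ ≤ -1 * (κ y ^ 8 * rho 5 y * D y ^ 2)
            + 5 / 2 * (κ y ^ 4 * (rho 5 y * D y ^ 2 / (1 + y ^ 2))) := by linarith
        _ = _ := by ring
  -- the loss
  have nm : ∀ {G : ℝ} (X : Tr σ M δ T G),
      (∫ y in (0:ℝ)..K, rho 5 y * snap X.w (X.s₀ + r) y ^ 2)
        ≤ normN X.L X.w (X.s₀ + r) := fun X =>
    norm_mono hK.le (hKY X).le (snap_slice X.pot.smooth (hs0 X).le).continuousOn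
  have hl : loss 5 κ K D ≤ wsq 5 8 κ K D + 3 / R ^ 2 * (normN U.L U.w (U.s₀ + r)
      + α ^ 2 * normN V.L V.w (V.s₀ + r) + β ^ 2 * normN W.L W.w (W.s₀ + r)) := by
    refine (loss_comb hK.le hR α β hκc hcutK.nonneg hcutK.le_one (fun y hy => ?_)
      (hsl U).continuousOn (hsl V).continuousOn (hsl W).continuousOn).trans
      (add_le_add le_rfl (mul_le_mul_of_nonneg_left ?_ (by positivity)))
    · refine Real.smoothTransition.one_of_one_le ?_
      have h1 : y / R ≤ 1 := (div_le_one (by linarith)).2 hy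
      rw [show -1 / R * y = -(y / R) by ring]; linarith
    · have := mul_le_mul_of_nonneg_left (nm V) (sq_nonneg α)
      have := mul_le_mul_of_nonneg_left (nm W) (sq_nonneg β)
      linarith [nm U]
  -- the forcing of the combination
  set DV := diss 5 (fun _ => 1) (Ys V.L (V.s₀ + r)) AV v
  set DW := diss 5 (fun _ => 1) (Ys W.L (W.s₀ + r)) AW z
  have hcl : ∀ {G : ℝ} (X : Tr σ M δ T G), ∀ y ∈ Ioo 0 K,
      |rcoef X.a (X.s₀ + r) y - (y * σ.q y) ^ 2| ≤ δ * (y * σ.q y) ^ 2 := fun X y hy =>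
    X.good.close _ (hsI X) y ⟨hy.1, hy.2.trans hRδ⟩
  have hf2 : fsq 5 κ K AU Kf ≤ 32 * δ ^ 2 * (α ^ 2 * DV + β ^ 2 * DW) := by
    refine (fsq_comb hK.le α β (by linarith) hκc hcutK.nonneg hcutK.le_one
      (hal U).continuousOn (hal V).continuousOn (hal W).continuousOn
      (d2_smooth hK (hsl V)).continuousOn (d2_smooth hK (hsl W)).continuousOn hKc
      (fun y hy => ?_) (fun y hy => U.good.pos _ (hsI U) y (hIoo U y hy))
      (fun y hy => (V.good.pos _ (hsI V) y (hIoo V y hy)).le)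
      (fun y hy => (W.good.pos _ (hsI W) y (hIoo W y hy)).le)
      (fun y _ => sq_nonneg (y * σ.q y)) (hcl U) (hcl V) (hcl W)).trans
      (mul_le_mul_of_nonneg_left ?_ (by positivity))
    · simp only [hKf, quot, if_neg hy.1.ne']
      rfl
    · have dm : ∀ {G : ℝ} (X : Tr σ M δ T G),
          (∫ y in (0:ℝ)..K, rho 5 y * (rcoef X.a (X.s₀ + r) y * d2 K (snap X.w (X.s₀ + r)) y ^ 2))
            ≤ diss 5 (fun _ => 1) (Ys X.L (X.s₀ + r)) (rcoef X.a (X.s₀ + r))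
                (snap X.w (X.s₀ + r)) := fun X => by
        refine le_trans (le_of_eq (integral_congr_Ioo hK.le fun y hy => by rw [d2_eq hy]))
          (diss_mono hK (hKY X).le (rcoef_slice X.good.smooth (hs0 X).le)
            (snap_slice X.pot.smooth (hs0 X).le) fun y hy => (X.good.pos _ (hsI X) y hy).le)
      exact add_le_add (mul_le_mul_of_nonneg_left (dm V) (sq_nonneg α))
        (mul_le_mul_of_nonneg_left (dm W) (sq_nonneg β))
  have hd0 := diss_nonneg hK.le κ D (a := AU) fun y hy => ((hcf U).pos y hy).le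
  have hn0 := mul_nonneg (pow_nonneg (hcutK.nonneg 0) 8) (near_nonneg hδe.le D)
  have hNsum : 0 ≤ normN U.L U.w (U.s₀ + r) + α ^ 2 * normN V.L V.w (V.s₀ + r)
      + β ^ 2 * normN W.L W.w (W.s₀ + r) := by
    have := normN_nonneg (hLp U) U.w (U.s₀ + r)
    have := normN_nonneg (hLp V) V.w (V.s₀ + r)
    have := normN_nonneg (hLp W) W.w (W.s₀ + r)
    positivity
  have hDsum : 0 ≤ α ^ 2 * DV + β ^ 2 * DW := by
    have hp : ∀ {G : ℝ} (X : Tr σ M δ T G), 0 ≤ diss 5 (fun _ => 1) (Ys X.L (X.s₀ + r))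
        (rcoef X.a (X.s₀ + r)) (snap X.w (X.s₀ + r)) := fun X =>
      diss_nonneg (Ys_pos (hLp X)).le _ _ fun y hy => (X.good.pos _ (hsI X) y hy).le
    exact add_nonneg (mul_nonneg (sq_nonneg α) (hp V)) (mul_nonneg (sq_nonneg β) (hp W))
  set Nsum := normN U.L U.w (U.s₀ + r) + α ^ 2 * normN V.L V.w (V.s₀ + r)
      + β ^ 2 * normN W.L W.w (W.s₀ + r)
  set Dsum := α ^ 2 * DV + β ^ 2 * DW
  set Z := wsq 5 8 κ K D
  have hZ0 : 0 ≤ Z := integral_nonneg_Ioo hK.le fun y hy => by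
    have := rho_nonneg 5 hy.1.le
    have := pow_nonneg (hcutK.nonneg y) 8
    positivity
  have hLC := mul_le_mul_of_nonneg_left hl (show 0 ≤ C₀ + 5 by linarith)
  have hFC := mul_le_mul_of_nonneg_left hf2 hC₀.le
  have hcd := mul_nonneg hc.le (add_nonneg hd0 hn0)
  have hRN : 0 ≤ Nsum / R ^ 2 := by positivity
  have hδD : 0 ≤ δ ^ 2 * Dsum := by positivity
  have e8 : (32 * (C₀ + 5) + 3 * (C₀ + 5)) * Z + (32 * (C₀ + 5) + 3 * (C₀ + 5)) / R ^ 2 * Nsum
      + (32 * (C₀ + 5) + 3 * (C₀ + 5)) * δ ^ 2 * Dsum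
      = (C₀ + 5) * (Z + 3 / R ^ 2 * Nsum) + 34 * (C₀ + 5) * Z + 32 * (C₀ + 5) * (Nsum / R ^ 2)
        + C₀ * (32 * δ ^ 2 * Dsum) + (3 * C₀ + 175) * (δ ^ 2 * Dsum) := by ring
  have h9 := mul_nonneg (show 0 ≤ 34 * (C₀ + 5) by positivity) hZ0
  have h10 := mul_nonneg (show 0 ≤ 32 * (C₀ + 5) by positivity) hRN
  have h11 := mul_nonneg (show 0 ≤ 3 * C₀ + 175 by positivity) hδD
  rw [zero_pow (show (8:ℕ) ≠ 0 by norm_num)]
  linarith

end Vale.Agent.P264.LinOp
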