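import Mathlib.Analysis.InnerProductSpace.Projection.FiniteDimensional
import Mathlib.Analysis.InnerProductSpace.Dual
import Mathlib.Topology.MetricSpace.Cauchy

/-!
Linear evolution operators obtained as limits of approximate solutions, without any existence
theory for the limit equation: we only assume that approximate trajectories exist for a dense
set of data and that they compare with an error that tends to zero with the accuracy.
-/

namespace Vale.Agent.P264.LinOp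

open Filter Topology

/-- Approximate trajectories `Sol δ S` of accuracy `δ` up to time `S`, with error gauge `err`. -/
structure Approx (X : Type*) [NormedAddCommGroup X] [NormedSpace ℝ X] where
  test : Submodule ℝ X
  dense : Dense (test : Set X)
  Sol : ℝ → ℝ → Set (ℝ → X)
  err : ℝ → X → ℝ
  E : ℝ
  err_lip : ∀ δ, 0 < δ → δ ≤ 1 → ∀ x z, err δ x ≤ err δ z + E * ‖x - z‖
  err_lim : ∀ x, Tendsto (fun δ => err δ x) (𝓝[>] 0) (𝓝 0)
  exist : ∀ p ∈ test, ∀ δ, 0 < δ → ∀ S, 0 ≤ S → ∃ U ∈ Sol δ S, U 0 = p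
  mono : ∀ δ δ' S S', δ ≤ δ' → S' ≤ S → Sol δ S ⊆ Sol δ' S'
  shift : ∀ δ S i, ∀ U ∈ Sol δ S, 0 ≤ i → i ≤ S → (fun s => U (i + s)) ∈ Sol δ (S - i)
  compare : ∀ S, 0 ≤ S → ∃ C δ₀ : ℝ, 0 ≤ C ∧ 0 < δ₀ ∧ ∀ δ, 0 < δ → δ ≤ δ₀ → ∀ a b : ℝ,
    ∀ U ∈ Sol δ S, ∀ V ∈ Sol δ S, ∀ W ∈ Sol δ S, ∀ s, 0 ≤ s → s ≤ S →
      ‖U s - a • V s - b • W s‖ ≤ C * (‖U 0 - a • V 0 - b • W 0‖
        + err δ (U 0) + |a| * err δ (V 0) + |b| * err δ (W 0))

variable {X : Type*} [NormedAddCommGroup X] [NormedSpace ℝ X]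

namespace Approx

variable (A : Approx X)

/-- `y` is the state at time `s` of the evolution started at `x`. -/
def IsLim (s : ℝ) (x y : X) : Prop :=
  ∀ ε > 0, ∃ δ₀ > 0, ∃ η > 0, ∀ δ, 0 < δ → δ ≤ δ₀ → ∀ U ∈ A.Sol δ s,
    ‖U 0 - x‖ < η → ‖U s - y‖ < ε

theorem err_small (x : X) {ε : ℝ} (hε : 0 < ε) :
    ∃ δ₀ > 0, δ₀ ≤ 1 ∧ ∀ δ, 0 < δ → δ ≤ δ₀ → A.err δ x < ε := by
  have h := (A.err_lim x).eventually (gt_mem_nhds hε)
  rw [eventually_nhdsWithin_iff, Metric.eventually_nhds_iff] at h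
  obtain ⟨r, hr, hrε⟩ := h
  refine ⟨min (r / 2) 1, by positivity, min_le_right _ _, fun δ h0 hle => ?_⟩
  refine hrε ?_ h0
  rw [Real.dist_eq, sub_zero, abs_of_pos h0]
  have := hle.trans (min_le_left _ _)
  linarith

theorem exists_near (x : X) {δ η S : ℝ} (hδ : 0 < δ) (hη : 0 < η) (hS : 0 ≤ S) :
    ∃ U ∈ A.Sol δ S, ‖U 0 - x‖ < η := by
  obtain ⟨p, hp, hpx⟩ := Metric.dense_iff.mp A.dense x η hη
  obtain ⟨U, hU, hU0⟩ := A.exist p hpx δ hδ S hS
  exact ⟨U, hU, by rw [hU0, ← dist_eq_norm]; exact hp⟩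

theorem err_nonneg_bound {δ : ℝ} (hδ : 0 < δ) (h1 : δ ≤ 1) (x z : X) {η : ℝ}
    (h : ‖z - x‖ ≤ η) : A.err δ z ≤ A.err δ x + |A.E| * η := by
  have h2 := A.err_lip δ hδ h1 z x
  have h3 : A.E * ‖z - x‖ ≤ |A.E| * η :=
    (mul_le_mul_of_nonneg_right (le_abs_self _) (norm_nonneg _)).trans
      (mul_le_mul_of_nonneg_left h (abs_nonneg _))
  linarith

/-- Trajectories started near `x` stay near each other as the accuracy improves. -/
theorem cauchy_near (x : X) {s : ℝ} (hs : 0 ≤ s) {ε : ℝ} (hε : 0 < ε) :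
    ∃ δ₀ > 0, ∃ η > 0, ∀ δ, 0 < δ → δ ≤ δ₀ → ∀ U ∈ A.Sol δ s, ∀ V ∈ A.Sol δ s,
      ‖U 0 - x‖ < η → ‖V 0 - x‖ < η → ‖U s - V s‖ < ε := by
  obtain ⟨C, d, hC, hd, hcmp⟩ := A.compare s hs
  set K := (C + 1) * (4 + 4 * |A.E|) with hK
  have hK0 : 0 < K := by positivity
  obtain ⟨d', hd', hd1, herr⟩ := A.err_small x (div_pos hε hK0)
  refine ⟨min d d', lt_min hd hd', ε / K, by positivity,
    fun δ h0 hle U hU V hV hu hv => ?_⟩
  have hδd : δ ≤ d := hle.trans (min_le_left _ _)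
  have hδd' : δ ≤ d' := hle.trans (min_le_right _ _)
  have h := hcmp δ h0 hδd 1 0 U hU V hV V hV s hs le_rfl
  have e0 := herr δ h0 hδd'
  have eU := A.err_nonneg_bound h0 (hδd'.trans hd1) x (U 0) hu.le
  have eV := A.err_nonneg_bound h0 (hδd'.trans hd1) x (V 0) hv.le
  simp only [one_smul, zero_smul, sub_zero, abs_one, one_mul, abs_zero, zero_mul,
    add_zero] at h
  have hUV : ‖U 0 - V 0‖ ≤ 2 * (ε / K) := by
    calc ‖U 0 - V 0‖ = ‖(U 0 - x) - (V 0 - x)‖ := by rw [sub_sub_sub_cancel_right]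
      _ ≤ ‖U 0 - x‖ + ‖V 0 - x‖ := norm_sub_le _ _
      _ ≤ 2 * (ε / K) := by linarith
  have hb : ‖U 0 - V 0‖ + A.err δ (U 0) + A.err δ (V 0)
      ≤ (4 + 2 * |A.E|) * (ε / K) := by linarith
  calc ‖U s - V s‖ ≤ C * (‖U 0 - V 0‖ + A.err δ (U 0) + A.err δ (V 0)) := h
    _ ≤ C * ((4 + 2 * |A.E|) * (ε / K)) := mul_le_mul_of_nonneg_left hb hC
    _ < K * (ε / K) := by
        rw [← mul_assoc]
        refine mul_lt_mul_of_pos_right ?_ (div_pos hε hK0)
        rw [hK]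
        nlinarith [abs_nonneg A.E]
    _ = ε := by field_simp

theorem isLim_unique {s : ℝ} (hs : 0 ≤ s) {x y z : X} (hy : A.IsLim s x y)
    (hz : A.IsLim s x z) : y = z := by
  by_contra hne
  have hpos : 0 < ‖y - z‖ / 2 := by
    have := norm_pos_iff.mpr (sub_ne_zero.mpr hne); positivity
  obtain ⟨d, hd, η, hη, hU⟩ := hy _ hpos
  obtain ⟨d', hd', η', hη', hV⟩ := hz _ hpos
  obtain ⟨U, hUs, hU0⟩ := A.exists_near x (lt_min hd hd') (lt_min hη hη') hs
  have h1 := hU _ (lt_min hd hd') (min_le_left _ _) U hUs (hU0.trans_le (min_le_left _ _))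
  have h2 := hV _ (lt_min hd hd') (min_le_right _ _) U hUs (hU0.trans_le (min_le_right _ _))
  have : ‖y - z‖ ≤ ‖U s - z‖ + ‖U s - y‖ := by
    calc ‖y - z‖ = ‖(U s - z) - (U s - y)‖ := by rw [sub_sub_sub_cancel_left]
      _ ≤ _ := norm_sub_le _ _
  linarith

theorem exists_isLim [CompleteSpace X] {s : ℝ} (hs : 0 ≤ s) (x : X) :
    ∃ y, A.IsLim s x y := by
  have hn : ∀ n : ℕ, (0 : ℝ) < 1 / (n + 1) := fun n => by positivity
  choose U hU hU0 using fun n => A.exists_near x (hn n) (hn n) hs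
  have key : ∀ ε > 0, ∃ δ₀ > 0, ∃ η > 0, ∃ N : ℕ, ∀ n ≥ N, ∀ δ, 0 < δ → δ ≤ δ₀ →
      ∀ V ∈ A.Sol δ s, ‖V 0 - x‖ < η → ‖U n s - V s‖ < ε := by
    intro ε hε
    obtain ⟨d, hd, η, hη, h⟩ := A.cauchy_near x hs hε
    obtain ⟨N, hN⟩ := exists_nat_one_div_lt (lt_min hd hη)
    refine ⟨d, hd, η, hη, N, fun n hn' δ h0 hle V hV hV0 => ?_⟩
    have hsmall : 1 / ((n : ℝ) + 1) < min d η := (Nat.one_div_le_one_div hn').trans_lt hN
    exact h d hd le_rfl (U n) (A.mono _ _ _ _ (hsmall.le.trans (min_le_left _ _)) le_rfl (hU n))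
      V (A.mono _ _ _ _ hle le_rfl hV)
      ((hU0 n).trans (hsmall.trans_le (min_le_right _ _))) hV0
  have hc : CauchySeq fun n => U n s := by
    refine Metric.cauchySeq_iff.mpr fun ε hε => ?_
    obtain ⟨d, hd, η, hη, N, h⟩ := key ε hε
    obtain ⟨M, hM⟩ := exists_nat_one_div_lt (lt_min hd hη)
    refine ⟨max N M, fun m hm n hn' => ?_⟩
    have hsmall : 1 / ((n : ℝ) + 1) < min d η :=
      (Nat.one_div_le_one_div ((le_max_right _ _).trans hn')).trans_lt hM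
    rw [dist_eq_norm]
    exact h m ((le_max_left _ _).trans hm) _ (hn n) (hsmall.le.trans (min_le_left _ _)) (U n)
      (hU n) ((hU0 n).trans (hsmall.trans_le (min_le_right _ _)))
  obtain ⟨y, hy⟩ := cauchySeq_tendsto_of_complete hc
  refine ⟨y, fun ε hε => ?_⟩
  obtain ⟨d, hd, η, hη, N, h⟩ := key (ε / 2) (by positivity)
  refine ⟨d, hd, η, hη, fun δ h0 hle V hV hV0 => ?_⟩
  obtain ⟨M, hM⟩ := Metric.tendsto_atTop.mp hy (ε / 2) (by positivity)
  have h1 := h (max N M) (le_max_left _ _) δ h0 hle V hV hV0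
  have h2 := hM (max N M) (le_max_right _ _)
  rw [dist_eq_norm] at h2
  calc ‖V s - y‖ = ‖(U (max N M) s - y) - (U (max N M) s - V s)‖ := by
        rw [sub_sub_sub_cancel_left]
    _ ≤ _ := norm_sub_le _ _
    _ < ε := by linarith

theorem tri (a b : ℝ) (p q r : X) :
    ‖p - a • q - b • r‖ ≤ ‖p‖ + |a| * ‖q‖ + |b| * ‖r‖ := by
  refine (norm_sub_le _ _).trans ?_
  rw [norm_smul b r, Real.norm_eq_abs]
  refine add_le_add ((norm_sub_le _ _).trans ?_) le_rfl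
  rw [norm_smul a q, Real.norm_eq_abs]

/-- The limit respects linear combinations. -/
theorem isLim_comb {s : ℝ} (hs : 0 ≤ s) (a b : ℝ) {x z v w : X} (hv : A.IsLim s x v)
    (hw : A.IsLim s z w) : A.IsLim s (a • x + b • z) (a • v + b • w) := by
  intro r hr
  obtain ⟨C, d, hC, hd, hcmp⟩ := A.compare s hs
  set L := 1 + |a| + |b| with hL
  have hL0 : 0 < L := by positivity
  set M := C * ((2 + |A.E|) * L) + L with hM
  have hM0 : 0 < M := by positivity
  set ε := r / (2 * M) with hεdef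
  have hε : 0 < ε := by positivity
  obtain ⟨d2, hd2, η2, hη2, hV⟩ := hv ε hε
  obtain ⟨d3, hd3, η3, hη3, hW⟩ := hw ε hε
  obtain ⟨e1, he1, he1', herr1⟩ := A.err_small (a • x + b • z) hε
  obtain ⟨e2, he2, -, herr2⟩ := A.err_small x hε
  obtain ⟨e3, he3, -, herr3⟩ := A.err_small z hε
  refine ⟨min (min d (min d2 d3)) (min e1 (min e2 e3)),
    lt_min (lt_min hd (lt_min hd2 hd3)) (lt_min he1 (lt_min he2 he3)), ε, hε, ?_⟩
  intro δ hδ hle U hUs hU0
  simp only [le_min_iff] at hle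
  obtain ⟨⟨l1, l3, l4⟩, m1, m2, m3⟩ := hle
  have hδ1 : δ ≤ 1 := m1.trans he1'
  obtain ⟨V, hVs, hV0⟩ := A.exists_near x hδ (lt_min hη2 hε) hs
  obtain ⟨W, hWs, hW0⟩ := A.exists_near z hδ (lt_min hη3 hε) hs
  rw [lt_min_iff] at hV0 hW0
  have a2 := hV δ hδ l3 V hVs hV0.1
  have a3 := hW δ hδ l4 W hWs hW0.1
  have b1 : A.err δ (U 0) ≤ (1 + |A.E|) * ε := by
    have := A.err_nonneg_bound hδ hδ1 _ _ hU0.le
    linarith [herr1 δ hδ m1]
  have b2 : A.err δ (V 0) ≤ (1 + |A.E|) * ε := by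
    have := A.err_nonneg_bound hδ hδ1 _ _ hV0.2.le
    linarith [herr2 δ hδ m2]
  have b3 : A.err δ (W 0) ≤ (1 + |A.E|) * ε := by
    have := A.err_nonneg_bound hδ hδ1 _ _ hW0.2.le
    linarith [herr3 δ hδ m3]
  have c2 := mul_le_mul_of_nonneg_left b2 (abs_nonneg a)
  have c3 := mul_le_mul_of_nonneg_left b3 (abs_nonneg b)
  have b4 : ‖U 0 - a • V 0 - b • W 0‖ ≤ L * ε := by
    have e : U 0 - a • V 0 - b • W 0
        = (U 0 - (a • x + b • z)) - a • (V 0 - x) - b • (W 0 - z) := by module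
    rw [e, hL]
    have t := tri a b (U 0 - (a • x + b • z)) (V 0 - x) (W 0 - z)
    have t2 := mul_le_mul_of_nonneg_left hV0.2.le (abs_nonneg a)
    have t3 := mul_le_mul_of_nonneg_left hW0.2.le (abs_nonneg b)
    linarith
  have hmain : ‖U s - a • V s - b • W s‖ ≤ C * ((2 + |A.E|) * L * ε) := by
    refine (hcmp δ hδ l1 a b U hUs V hVs W hWs s hs le_rfl).trans
      (mul_le_mul_of_nonneg_left ?_ hC)
    rw [hL] at b4 ⊢
    linarith
  have e : U s - (a • v + b • w)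
      = (U s - a • V s - b • W s) - (-a) • (V s - v) - (-b) • (W s - w) := by module
  rw [e]
  have t := tri (-a) (-b) (U s - a • V s - b • W s) (V s - v) (W s - w)
  rw [abs_neg, abs_neg] at t
  have t2 := mul_le_mul_of_nonneg_left a2.le (abs_nonneg a)
  have t3 := mul_le_mul_of_nonneg_left a3.le (abs_nonneg b)
  have hMε : M * ε = r / 2 := by rw [hεdef]; field_simp
  rw [hM, hL] at hMε
  rw [hL] at hmain
  linarith

theorem bound_isLim {s : ℝ} (hs : 0 ≤ s) :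
    ∃ C : ℝ, ∀ x y : X, A.IsLim s x y → ‖y‖ ≤ C * ‖x‖ := by
  obtain ⟨C, d, hC, hd, hcmp⟩ := A.compare s hs
  refine ⟨C, fun x y hy => le_of_forall_pos_le_add fun r hr => ?_⟩
  set M := C * (2 + |A.E|) + 1 with hM
  have hM0 : 0 < M := by positivity
  set ε := r / M with hεdef
  have hε : 0 < ε := by positivity
  obtain ⟨d1, hd1, η, hη, hU⟩ := hy ε hε
  obtain ⟨e1, he1, he1', herr⟩ := A.err_small x hε
  have hδ : 0 < min (min d d1) e1 := lt_min (lt_min hd hd1) he1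
  obtain ⟨U, hUs, hU0⟩ := A.exists_near x hδ (lt_min hη hε) hs
  rw [lt_min_iff] at hU0
  have l1 : min (min d d1) e1 ≤ d := (min_le_left _ _).trans (min_le_left _ _)
  have l2 : min (min d d1) e1 ≤ d1 := (min_le_left _ _).trans (min_le_right _ _)
  have l3 : min (min d d1) e1 ≤ e1 := min_le_right _ _
  have a1 := hU _ hδ l2 U hUs hU0.1
  have h := hcmp _ hδ l1 0 0 U hUs U hUs U hUs s hs le_rfl
  simp only [zero_smul, sub_zero, abs_zero, zero_mul, add_zero] at h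
  have b1 := A.err_nonneg_bound hδ (l3.trans he1') _ _ hU0.2.le
  have b2 := herr _ hδ l3
  have b3 : ‖U 0‖ ≤ ‖x‖ + ε := by
    have := norm_le_norm_add_norm_sub' (U 0) x; linarith [hU0.2]
  have b4 : ‖y‖ ≤ ‖U s‖ + ε := by
    have := norm_le_norm_add_norm_sub' y (U s)
    rw [norm_sub_rev] at this; linarith
  have b5 : ‖U s‖ ≤ C * (‖x‖ + (2 + |A.E|) * ε) :=
    h.trans (mul_le_mul_of_nonneg_left (by linarith) hC)
  have : M * ε = r := by rw [hεdef]; field_simp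
  rw [hM] at this
  linarith

section Op
variable [CompleteSpace X]

/-- The state at time `s`, junk for negative times. -/
noncomputable def opFun (s : ℝ) (x : X) : X :=
  if hs : 0 ≤ s then Classical.choose (A.exists_isLim hs x) else 0

theorem opFun_spec {s : ℝ} (hs : 0 ≤ s) (x : X) : A.IsLim s x (A.opFun s x) := by
  rw [opFun, dif_pos hs]; exact Classical.choose_spec (A.exists_isLim hs x)

theorem opFun_eq {s : ℝ} (hs : 0 ≤ s) {x y : X} (h : A.IsLim s x y) : A.opFun s x = y :=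
  A.isLim_unique hs (A.opFun_spec hs x) h

theorem opFun_comb (s a b : ℝ) (x z : X) :
    A.opFun s (a • x + b • z) = a • A.opFun s x + b • A.opFun s z := by
  by_cases hs : 0 ≤ s
  · exact A.opFun_eq hs (A.isLim_comb hs a b (A.opFun_spec hs x) (A.opFun_spec hs z))
  · simp [opFun, hs]

/-- The linear map underlying `op`. -/
noncomputable def opLin (s : ℝ) : X →ₗ[ℝ] X where
  toFun := A.opFun s
  map_add' x z := by simpa using A.opFun_comb s 1 1 x z
  map_smul' c x := by simpa using A.opFun_comb s c 0 x x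

theorem opLin_bound (s : ℝ) : ∃ C : ℝ, ∀ x, ‖A.opLin s x‖ ≤ C * ‖x‖ := by
  by_cases hs : 0 ≤ s
  · obtain ⟨C, h⟩ := A.bound_isLim hs
    exact ⟨C, fun x => h x _ (A.opFun_spec hs x)⟩
  · exact ⟨0, fun x => by simp [opLin, opFun, hs]⟩

/-- The evolution operator. -/
noncomputable def op (s : ℝ) : X →L[ℝ] X :=
  (A.opLin s).mkContinuousOfExistsBound (A.opLin_bound s)

theorem op_spec {s : ℝ} (hs : 0 ≤ s) (x : X) : A.IsLim s x (A.op s x) :=
  A.opFun_spec hs x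

theorem op_eq {s : ℝ} (hs : 0 ≤ s) {x y : X} (h : A.IsLim s x y) : A.op s x = y :=
  A.opFun_eq hs h

theorem op_zero : A.op 0 = ContinuousLinearMap.id ℝ X := by
  ext x
  exact A.op_eq le_rfl fun ε hε => ⟨1, one_pos, ε, hε, fun δ _ _ U _ h => h⟩

theorem op_add {s t : ℝ} (hs : 0 ≤ s) (ht : 0 ≤ t) (x : X) :
    A.op (s + t) x = A.op t (A.op s x) := by
  refine A.op_eq (add_nonneg hs ht) fun ε hε => ?_
  obtain ⟨d, hd, η, hη, h⟩ := A.op_spec ht (A.op s x) ε hε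
  obtain ⟨d', hd', η', hη', h'⟩ := A.op_spec hs x η hη
  refine ⟨min d d', lt_min hd hd', η', hη', fun δ h0 hle U hU hU0 => ?_⟩
  have h1 := h' δ h0 (hle.trans (min_le_right _ _)) U
    (A.mono _ _ _ _ le_rfl (by linarith) hU) hU0
  have h2 := A.shift δ (s + t) s U hU hs (by linarith)
  rw [add_sub_cancel_left] at h2
  exact h δ h0 (hle.trans (min_le_left _ _)) (fun r => U (s + r)) h2 (by simpa using h1)

theorem op_pow (m : ℕ) : A.op m = A.op 1 ^ m := by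
  induction m with
  | zero => rw [Nat.cast_zero, op_zero, pow_zero]; rfl
  | succ n ih =>
    ext x
    rw [pow_succ', Nat.cast_succ, A.op_add (Nat.cast_nonneg n) zero_le_one, ih]
    rfl

/-- A bound against all fine approximations passes to the operator. -/
theorem le_of_approx {s : ℝ} (hs : 0 ≤ s) (x y : X) {a b c δ₀ : ℝ} (hδ₀ : 0 < δ₀)
    (h : ∀ δ, 0 < δ → δ ≤ δ₀ → ∀ U ∈ A.Sol δ s,
      ‖y - U s‖ ≤ a + b * ‖U 0‖ + c * ‖x - U 0‖) :
    ‖y - A.op s x‖ ≤ a + b * ‖x‖ := by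
  refine le_of_forall_pos_le_add fun r hr => ?_
  set ε := r / (|b| + |c| + 1) with hεdef
  have hε : 0 < ε := by positivity
  obtain ⟨d, hd, η, hη, hU⟩ := A.op_spec hs x ε hε
  obtain ⟨U, hUs, hU0⟩ := A.exists_near x (lt_min hd hδ₀) (lt_min hη hε) hs
  rw [lt_min_iff] at hU0
  have h1 := hU _ (lt_min hd hδ₀) (min_le_left _ _) U hUs hU0.1
  have h2 := h _ (lt_min hd hδ₀) (min_le_right _ _) U hUs
  have h3 : b * ‖U 0‖ ≤ b * ‖x‖ + |b| * ε := by
    have e : |‖U 0‖ - ‖x‖| ≤ ε := (abs_norm_sub_norm_le _ _).trans hU0.2.le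
    have e2 : b * (‖U 0‖ - ‖x‖) ≤ |b| * ε := (le_abs_self _).trans
      ((abs_mul _ _).le.trans (mul_le_mul_of_nonneg_left e (abs_nonneg b)))
    linarith
  have h4 : c * ‖x - U 0‖ ≤ |c| * ε := by
    rw [norm_sub_rev]
    exact (mul_le_mul_of_nonneg_right (le_abs_self _) (norm_nonneg _)).trans
      (mul_le_mul_of_nonneg_left hU0.2.le (abs_nonneg _))
  have h5 : ‖y - A.op s x‖ ≤ ‖y - U s‖ + ‖U s - A.op s x‖ :=
    norm_sub_le_norm_sub_add_norm_sub _ _ _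
  have : (|b| + |c| + 1) * ε = r := by rw [hεdef]; field_simp
  linarith

end Op

end Approx

/-- A time-one inequality with finitely many observations makes the operator a contraction off a
finite rank projection. -/
theorem Approx.exists_projection {X : Type*} [NormedAddCommGroup X] [InnerProductSpace ℝ X]
    [CompleteSpace X] (A : Approx X) {θ K δ₀ : ℝ} (hθ : 0 ≤ θ) (hK : 0 ≤ K) (hδ₀ : 0 < δ₀)
    {N : ℕ} (t : Fin N → ℝ) (ht : ∀ k, t k ∈ Set.Icc (0:ℝ) 1) (l : Fin N → X →L[ℝ] ℝ)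
    (h : ∀ δ, 0 < δ → δ ≤ δ₀ → ∀ U ∈ A.Sol δ 1,
      ‖U 1‖ ≤ θ * ‖U 0‖ + K * ∑ k, |l k (U (t k))| + K * A.err δ (U 0)) :
    ∃ P : X →L[ℝ] X, FiniteDimensional ℝ (LinearMap.range P.toLinearMap) ∧
      ∀ v, ‖A.op 1 (v - P v)‖ ≤ θ * ‖v‖ := by
  classical
  let g : Fin N → X := fun k =>
    (InnerProductSpace.toDual ℝ X).symm ((l k).comp (A.op (t k)))
  let W : Submodule ℝ X := Submodule.span ℝ (Set.range g)
  have : FiniteDimensional ℝ W := FiniteDimensional.span_of_finite ℝ (Set.finite_range g)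
  refine ⟨W.starProjection, ?_, fun v => ?_⟩
  · refine Submodule.finiteDimensional_of_le (?_ : _ ≤ W)
    rintro _ ⟨v, rfl⟩
    exact W.starProjection_apply_mem v
  set x := v - W.starProjection v with hx
  have hxn : ‖x‖ ≤ ‖v‖ := by
    rw [hx, ← Submodule.starProjection_orthogonal_val]
    exact Submodule.norm_starProjection_apply_le _ v
  have hker : ∀ k, l k (A.op (t k) x) = 0 := fun k => by
    have hmem : x ∈ Wᗮ := W.sub_starProjection_mem_orthogonal v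
    have := hmem (g k) (Submodule.subset_span ⟨k, rfl⟩)
    rwa [InnerProductSpace.toDual_symm_apply] at this
  refine (le_of_forall_pos_le_add fun r hr => ?_).trans (mul_le_mul_of_nonneg_left hxn hθ)
  set L := ∑ k, ‖l k‖
  have hL0 : 0 ≤ L := Finset.sum_nonneg fun k _ => norm_nonneg _
  set M := θ + 1 + K * L + K * (1 + |A.E|) with hM
  have hM0 : 0 < M := by positivity
  set ε := r / M with hεdef
  have hε : 0 < ε := by positivity
  obtain ⟨d, hd, η, hη, hU⟩ := A.op_spec zero_le_one x ε hε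
  choose dk hdk ηk hηk hUk using fun k => A.op_spec (ht k).1 x ε hε
  obtain ⟨e, he, he', herr⟩ := A.err_small x hε
  have hev : ∀ᶠ δ in 𝓝[>] (0:ℝ), (δ ≤ d ∧ δ ≤ δ₀ ∧ δ ≤ e ∧ ∀ k, δ ≤ dk k) ∧ 0 < δ := by
    have aux : ∀ c : ℝ, 0 < c → ∀ᶠ δ in 𝓝[>] (0:ℝ), δ ≤ c := fun c hc =>
      eventually_nhdsWithin_of_eventually_nhds (eventually_le_nhds hc)
    exact ((aux d hd).and ((aux δ₀ hδ₀).and ((aux e he).and
      (Filter.eventually_all.2 fun k => aux _ (hdk k))))).and self_mem_nhdsWithin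
  obtain ⟨δ, ⟨l1, l2, l3, l4⟩, hδ⟩ := hev.exists
  have hev' : ∀ᶠ ζ in 𝓝[>] (0:ℝ), (ζ ≤ η ∧ ζ ≤ ε ∧ ∀ k, ζ ≤ ηk k) ∧ 0 < ζ := by
    have aux : ∀ c : ℝ, 0 < c → ∀ᶠ δ in 𝓝[>] (0:ℝ), δ ≤ c := fun c hc =>
      eventually_nhdsWithin_of_eventually_nhds (eventually_le_nhds hc)
    exact ((aux η hη).and ((aux ε hε).and
      (Filter.eventually_all.2 fun k => aux _ (hηk k)))).and self_mem_nhdsWithin
  obtain ⟨ζ, ⟨z1, z2, z3⟩, hζ⟩ := hev'.exists
  obtain ⟨U, hUs, hU0⟩ := A.exists_near x hδ hζ zero_le_one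
  have a1 := hU δ hδ l1 U hUs (hU0.trans_le z1)
  have a2 : ∑ k, |l k (U (t k))| ≤ L * ε := by
    rw [Finset.sum_mul]
    refine Finset.sum_le_sum fun k _ => ?_
    have hk := hUk k δ hδ (l4 k) U (A.mono _ _ _ _ le_rfl (ht k).2 hUs) (hU0.trans_le (z3 k))
    have e : l k (U (t k)) = l k (U (t k) - A.op (t k) x) := by
      rw [map_sub, hker k, sub_zero]
    rw [e, ← Real.norm_eq_abs]
    exact ((l k).le_opNorm _).trans (mul_le_mul_of_nonneg_left hk.le (norm_nonneg _))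
  have a3 := h δ hδ l2 U hUs
  have a4 : A.err δ (U 0) ≤ (1 + |A.E|) * ε := by
    have := A.err_nonneg_bound hδ (l3.trans he') x (U 0) (hU0.le.trans z2)
    linarith [herr δ hδ l3]
  have a5 : ‖A.op 1 x‖ ≤ ‖U 1‖ + ε := by
    have := norm_le_norm_add_norm_sub' (A.op 1 x) (U 1)
    rw [norm_sub_rev] at this; linarith
  have a6 : θ * ‖U 0‖ ≤ θ * (‖x‖ + ε) := by
    refine mul_le_mul_of_nonneg_left ?_ hθ
    have := norm_le_norm_add_norm_sub' (U 0) x
    linarith [hU0.le.trans z2]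
  have a7 := mul_le_mul_of_nonneg_left a2 hK
  have a8 := mul_le_mul_of_nonneg_left a4 hK
  have : M * ε = r := by rw [hεdef]; field_simp
  rw [hM] at this
  linarith

end Vale.Agent.P264.LinOp
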