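import Vale.Agent.P264.LinOp.Static
import Vale.Agent.P264.Dict.Targets

/-!
Energy estimates in rescaled time for one potential: the full norm and the tail moving along the
characteristics.
-/

namespace Vale.Agent.P264.LinOp

open Set Filter Topology MeasureTheory
open scoped ContDiff

/-- The statements of other modules used here. -/
structure Inputs : Prop where
  coercive : Energy.CoerciveTarget
  forcing : Energy.ForcingTarget
  drifting : Energy.DriftTarget
  cells : Energy.CellTarget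
  snapEqn : Dict.SnapEqnTarget
  normDeriv : Dict.NormDerivTarget

/-- `exp (-s/2) w_t`, the non-transport part of the time derivative of a snapshot. -/
noncomputable def dtx (L : ℝ) (w : ℝ → ℝ → ℝ) (s y : ℝ) : ℝ :=
  Real.exp (-s / 2) * Calc.pdT (Ico 0 1) (Icc 0 L) w (tof s) (Real.exp (-s / 2) * y)

theorem dtx_continuous {L : ℝ} {w : ℝ → ℝ → ℝ}
    (hw : ContDiffOn ℝ ∞ (Function.uncurry w) (Ico 0 1 ×ˢ Icc 0 L)) (hL : 0 < L) {s : ℝ}
    (hs : 0 ≤ s) : ContinuousOn (dtx L w s) (Icc 0 (Ys L s)) :=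
  continuousOn_const.mul ((Calc.Smooth2.pdT (uniqueDiffOn_Ico 0 1) (uniqueDiffOn_Icc hL)
    hw).continuousOn.comp (continuous_const.prodMk (continuous_const.mul continuous_id)).continuousOn
      fun _ hy => ⟨tof_mem hs, scaled_mem hy⟩)

theorem hasDerivAt_snap {L : ℝ} {w : ℝ → ℝ → ℝ}
    (hw : ContDiffOn ℝ ∞ (Function.uncurry w) (Ico 0 1 ×ˢ Icc 0 L)) {s y : ℝ}
    (hs : 0 < s) (hy : y ∈ Ioo 0 (Ys L s)) :
    HasDerivAt (fun r => snap w r y) (dtx L w s y + drift (snap w s) y) s := by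
  set x := Real.exp (-s / 2) * y with hx
  have hx0 : 0 < x := mul_pos (Real.exp_pos _) hy.1
  have hxL : x < L := by
    calc x < Real.exp (-s / 2) * (L * Real.exp (s / 2)) :=
          mul_lt_mul_of_pos_left hy.2 (Real.exp_pos _)
      _ = L := by rw [mul_comm L, ← mul_assoc, ← Real.exp_add]; ring_nf; simp
  have ht : tof s ∈ Ioo (0:ℝ) 1 := by
    have := Real.exp_lt_one_iff.2 (show -s < 0 by linarith)
    have := Real.exp_pos (-s)
    unfold tof; constructor <;> linarith
  have hmem : Ico (0:ℝ) 1 ×ˢ Icc 0 L ∈ 𝓝 (tof s, x) :=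
    prod_mem_nhds (Ico_mem_nhds ht.1 ht.2) (Icc_mem_nhds hx0 hxL)
  set D := fderivWithin ℝ (Function.uncurry w) (Ico 0 1 ×ˢ Icc 0 L) (tof s, x) with hD
  have hF : HasFDerivAt (Function.uncurry w) D (tof s, x) :=
    ((hw.differentiableOn (by simp)) _ (mem_of_mem_nhds hmem)).hasFDerivWithinAt.hasFDerivAt hmem
  have hneg : HasDerivAt (fun r : ℝ => -r / 2) (-1 / 2) s := (hasDerivAt_id s).neg.div_const 2
  have hp : HasDerivAt (fun r : ℝ => (tof r, Real.exp (-r / 2) * y))
      ((Real.exp (-s), Real.exp (-s / 2) * (-1 / 2) * y) : ℝ × ℝ) s := by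
    refine HasDerivAt.prodMk ?_ (hneg.exp.mul_const y)
    have := ((hasDerivAt_id s).neg.exp).const_sub 1
    unfold tof
    simpa using this
  have hz : HasDerivAt (fun z : ℝ => (tof s, Real.exp (-s / 2) * z))
      ((0, Real.exp (-s / 2)) : ℝ × ℝ) y :=
    (hasDerivAt_const y (tof s)).prodMk
      (by simpa using (hasDerivAt_id y).const_mul (Real.exp (-s / 2)))
  have h1 : HasDerivAt (fun r => w (tof r) (Real.exp (-r / 2) * y))
      (D (Real.exp (-s), Real.exp (-s / 2) * (-1 / 2) * y)) s :=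
    (HasFDerivAt.comp_hasDerivAt (f := fun r => (tof r, Real.exp (-r / 2) * y)) s hF hp :)
  have h2 : HasDerivAt (fun z => w (tof s) (Real.exp (-s / 2) * z))
      (D (0, Real.exp (-s / 2))) y :=
    (HasFDerivAt.comp_hasDerivAt (f := fun z => (tof s, Real.exp (-s / 2) * z)) y hF hz :)
  have hd : deriv (snap w s) y = Real.exp (s / 2) * D (0, Real.exp (-s / 2)) :=
    (h2.const_mul (Real.exp (s / 2))).deriv
  have hexp : HasDerivAt (fun r : ℝ => Real.exp (r / 2)) (Real.exp (s / 2) * (1 / 2)) s :=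
    ((hasDerivAt_id s).div_const 2).exp
  refine (hexp.mul h1).congr_deriv ?_
  have e1 : ((Real.exp (-s), Real.exp (-s / 2) * (-1 / 2) * y) : ℝ × ℝ)
      = Real.exp (-s) • ((1, 0) : ℝ × ℝ) + (-1 / 2 * y) • ((0, Real.exp (-s / 2)) : ℝ × ℝ) := by
    ext <;> simp <;> ring
  rw [drift, hd, e1, map_add, map_smul, map_smul, smul_eq_mul, smul_eq_mul]
  have e2 : Real.exp (s / 2) * Real.exp (-s) = Real.exp (-s / 2) := by
    rw [← Real.exp_add]; ring_nf
  simp only [dtx, Calc.pdT, snap, ← hx, ← hD]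
  linear_combination (D (1, 0)) * e2

/-- The rescaled equation in terms of `dtx`. -/
theorem dtx_eq (hi : Inputs) {L : ℝ} {a f w : ℝ → ℝ → ℝ} (hp : Pot L a f w) (hL : 0 < L) {s y : ℝ}
    (hs : 0 < s) (hy : y ∈ Ioo 0 (Ys L s)) :
    dtx L w s y = -dst (fun z => rcoef a s z * deriv (deriv (snap w s)) z) y
      + Real.exp (-s / 2) * f (tof s) (Real.exp (-s / 2) * y) := by
  have h1 := hi.snapEqn L a f w hL hp s hs y hy
  have h2 := (hasDerivAt_snap hp.smooth hs hy).deriv
  simp only [rcoef]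
  linarith

theorem good_pos {σ : Shrinker} {M δ L : ℝ} {a : ℝ → ℝ → ℝ} {s₀ T : ℝ}
    (hg : Good σ M δ L a s₀ T) : 0 < L :=
  lt_of_lt_of_le (one_div_pos.2 hg.δ_pos) hg.long

theorem one_le_Ys {σ : Shrinker} {M δ L : ℝ} {a : ℝ → ℝ → ℝ} {s₀ T s : ℝ}
    (hg : Good σ M δ L a s₀ T) (hδ : δ ≤ 1) (hs : 0 ≤ s) : 1 ≤ Ys L s :=
  ((le_div_iff₀ hg.δ_pos).2 (by linarith)).trans (hg.long.trans (le_Ys (good_pos hg) hs))

theorem integral_congr_Ioo {f g : ℝ → ℝ} {Y : ℝ} (hY : 0 ≤ Y) (h : ∀ y ∈ Ioo 0 Y, f y = g y) :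
    (∫ y in (0:ℝ)..Y, f y) = ∫ y in (0:ℝ)..Y, g y := by
  rw [intervalIntegral.integral_of_le hY, intervalIntegral.integral_of_le hY,
    integral_Ioc_eq_integral_Ioo, integral_Ioc_eq_integral_Ioo]
  exact setIntegral_congr_fun measurableSet_Ioo h

/-- Derivative of a norm with a cutoff moving along with a speed `l`. -/
theorem moving (hi : Inputs) (σ : Shrinker) : ∃ δe : ℝ, 0 < δe ∧ δe ≤ 1 ∧ ∀ M G : ℝ,
    ∃ c C : ℝ, 0 < c ∧ 0 < C ∧
      ∀ (δ L s₀ T F s l : ℝ) (a f w : ℝ → ℝ → ℝ) (κ : ℝ → ℝ), Pot L a f w →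
        Good σ M δ L a s₀ T → Forced F L f s₀ T → δ ≤ 1 / 1000 → s ∈ Ioo s₀ (s₀ + T) →
        ContDiff ℝ ∞ κ → Cut (Ys L s) G δe (fun y => κ (y * Real.exp (-l * s))) →
        (∀ z, (4 - 8 * l) * (z * deriv κ z) ≤ 0) →
        ∃ N', HasDerivAt
            (fun r => wsq 5 8 (fun y => κ (y * Real.exp (-l * r))) (Ys L r) (snap w r)) N' s ∧
          N' ≤ -wsq 5 8 (fun y => κ (y * Real.exp (-l * s))) (Ys L s) (snap w s)
            - c * (diss 5 (fun y => κ (y * Real.exp (-l * s))) (Ys L s) (rcoef a s) (snap w s)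
              + κ 0 ^ 8 * near δe (snap w s))
            + C * loss 5 (fun y => κ (y * Real.exp (-l * s))) (Ys L s) (snap w s)
            + 2 * F ^ 2 := by
  obtain ⟨δ₁, hδ₁, hen⟩ := energy_static hi.coercive hi.forcing
  obtain ⟨δe, hδe, hδe1, hδe2, hcoef⟩ := coef_of_good σ hδ₁
  refine ⟨δe, hδe, hδe2, fun M G => ?_⟩
  obtain ⟨c, C, hc, hC, hen⟩ := hen M G δe hδe hδe1
  refine ⟨c, C + 5, hc, by linarith,
    fun δ L s₀ T F s l a f w κ hp hg hF hδ hs hκ hcut hsign => ?_⟩
  have hs0 : 0 < s := lt_of_le_of_lt hg.start hs.1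
  have hsI : s ∈ Icc s₀ (s₀ + T) := Ioo_subset_Icc_self hs
  have hL := good_pos hg
  have hY := Ys_pos (s := s) hL
  have hY1 : δe ≤ Ys L s := hδe2.trans (one_le_Ys hg (by linarith) hs0.le)
  have hcf := hcoef M δ L a s₀ T s _ hg hδ hsI hY1 le_rfl
  set κs : ℝ → ℝ := fun y => κ (y * Real.exp (-l * s)) with hκs
  have hV := snap_slice hp.smooth hs0.le
  refine ⟨_, hi.normDeriv L a f w hL hp 5 l κ hκ s hs0, ?_⟩
  have h1 := hen (Ys L s) F (rcoef a s) κs (snap w s) (fun _ => 0) (fun _ => 0) (dtx L w s)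
    (fun y => Real.exp (-s / 2) * f (tof s) (Real.exp (-s / 2) * y)) hY1 hcf hcut
    (Or.inr (hg.edge s hsI)) hV contDiffOn_const continuousOn_const (fun y _ => by ring)
    (dtx_continuous hp.smooth hL hs0.le) (fun y hy => hF.2 s hsI y hy) (fun y hy => by
      rw [dtx_eq hi hp hL hs0 hy]
      simp [dst])
  have efsq : fsq 5 κs (Ys L s) (rcoef a s) (fun _ => 0) = 0 := by simp [fsq]
  have hκ0 : κs 0 = κ 0 := by simp [hκs]
  rw [efsq, hκ0, add_zero] at h1
  have e1 : (∫ y in (0:ℝ)..Ys L s, 2 * κ (y * Real.exp (-l * s)) ^ 8 * rho 5 y * snap w s y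
        * (deriv (fun r => snap w r y) s - drift (snap w s) y))
      = ∫ y in (0:ℝ)..Ys L s, 2 * (κs y ^ 8 * rho 5 y * snap w s y * dtx L w s y) := by
    refine integral_congr_Ioo hY.le fun y hy => ?_
    rw [(hasDerivAt_snap hp.smooth hs0 hy).deriv]
    simp only [hκs]; ring
  have e3 : (∫ y in (0:ℝ)..Ys L s, (4 - 8 * l) * y * κ (y * Real.exp (-l * s)) ^ 7
      * (deriv κ (y * Real.exp (-l * s)) * Real.exp (-l * s)) * rho 5 y * snap w s y ^ 2) ≤ 0 := by
    rw [← neg_nonneg, ← intervalIntegral.integral_neg]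
    refine integral_nonneg_Ioo hY.le fun y hy => ?_
    have h := hsign (y * Real.exp (-l * s))
    have h7 := pow_nonneg (hcut.nonneg y) 7
    have hr := rho_nonneg 5 hy.1.le
    have : 0 ≤ κs y ^ 7 * rho 5 y * snap w s y ^ 2 := by positivity
    simp only [hκs] at this
    nlinarith [mul_le_mul_of_nonneg_left h this]
  have hVc := hV.continuousOn
  have hκc : Continuous κs := hcut.smooth.continuous
  have iW : IntervalIntegrable (fun y => κs y ^ 8 * rho 5 y * snap w s y ^ 2) volume 0 (Ys L s) :=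
    ContinuousOn.intervalIntegrable (by
      rw [uIcc_of_le hY.le]
      exact (((hκc.pow 8).mul (continuous_rho 5)).continuousOn).mul (hVc.pow 2))
  have iL : IntervalIntegrable
      (fun y => κs y ^ 4 * rho 5 y * snap w s y ^ 2 / (1 + y ^ 2)) volume 0 (Ys L s) :=
    ContinuousOn.intervalIntegrable (by
      rw [uIcc_of_le hY.le]
      exact ((((hκc.pow 4).mul (continuous_rho 5)).continuousOn).mul (hVc.pow 2)).div
        (by fun_prop) fun y _ => by positivity)
  have e2 : (∫ y in (0:ℝ)..Ys L s, κ (y * Real.exp (-l * s)) ^ 8 * rho 5 y * snap w s y ^ 2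
        * ((6 - 2 * ((5:ℕ):ℝ) * y ^ 2 / (1 + y ^ 2)) / 2))
      ≤ -2 * wsq 5 8 κs (Ys L s) (snap w s) + 5 * loss 5 κs (Ys L s) (snap w s) := by
    rw [wsq, loss, ← intervalIntegral.integral_const_mul, ← intervalIntegral.integral_const_mul,
      ← intervalIntegral.integral_add (iW.const_mul _) (iL.const_mul _)]
    refine intervalIntegral.integral_mono_on_of_le_Ioo hY.le ?_ ((iW.const_mul _).add
      (iL.const_mul _)) fun y hy => ?_
    · exact iW.mul_continuousOn (g := fun y : ℝ => (6 - 2 * ((5:ℕ):ℝ) * y ^ 2 / (1 + y ^ 2)) / 2)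
        (Continuous.continuousOn (((continuous_const.sub ((continuous_const.mul
          (continuous_id.pow 2)).div (by fun_prop) fun y => by positivity))).div_const 2))
    · have h0 := hcut.nonneg y
      have hk : κs y ^ 8 ≤ κs y ^ 4 := pow_le_pow_of_le_one h0 (hcut.le_one y) (by norm_num)
      have hr := rho_nonneg 5 hy.1.le
      have hq : 0 ≤ rho 5 y * snap w s y ^ 2 / (1 + y ^ 2) := by positivity
      have := mul_le_mul_of_nonneg_right hk hq
      have e : κ (y * Real.exp (-l * s)) ^ 8 * rho 5 y * snap w s y ^ 2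
            * ((6 - 2 * ((5:ℕ):ℝ) * y ^ 2 / (1 + y ^ 2)) / 2)
          = -2 * (κs y ^ 8 * rho 5 y * snap w s y ^ 2)
            + 5 * (κs y ^ 8 * (rho 5 y * snap w s y ^ 2 / (1 + y ^ 2))) := by
        simp only [hκs]
        push_cast
        field_simp
        ring
      rw [e]
      calc _ ≤ -2 * (κs y ^ 8 * rho 5 y * snap w s y ^ 2)
            + 5 * (κs y ^ 4 * (rho 5 y * snap w s y ^ 2 / (1 + y ^ 2))) := by linarith
        _ = _ := by ring
  rw [e1]
  linarith

theorem normN_eq (L : ℝ) (w : ℝ → ℝ → ℝ) (s : ℝ) :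
    normN L w s = wsq 5 8 (fun _ => 1) (Ys L s) (snap w s) := by simp [normN, wsq]

theorem normN_nonneg {L : ℝ} (hL : 0 < L) (w : ℝ → ℝ → ℝ) (s : ℝ) : 0 ≤ normN L w s :=
  integral_nonneg_Ioo (Ys_pos hL).le fun y hy => by
    have := rho_nonneg 5 hy.1.le
    positivity

/-- The energy inequality for the full norm. -/
theorem full (hi : Inputs) (σ : Shrinker) : ∃ δe : ℝ, 0 < δe ∧ δe ≤ 1 ∧ ∀ M : ℝ,
    ∃ c C : ℝ, 0 < c ∧ 0 < C ∧ ∀ (δ L s₀ T F s : ℝ) (a f w : ℝ → ℝ → ℝ), Pot L a f w →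
        Good σ M δ L a s₀ T → Forced F L f s₀ T → δ ≤ 1 / 1000 → s ∈ Ioo s₀ (s₀ + T) →
        ∃ N', HasDerivAt (normN L w) N' s ∧
          N' ≤ -normN L w s
            - c * (diss 5 (fun _ => 1) (Ys L s) (rcoef a s) (snap w s) + near δe (snap w s))
            + C * loss 5 (fun _ => 1) (Ys L s) (snap w s) + 2 * F ^ 2 := by
  obtain ⟨δe, h0, h1, h⟩ := moving hi σ
  refine ⟨δe, h0, h1, fun M => ?_⟩
  obtain ⟨c, C, hc, hC, h⟩ := h M 0
  refine ⟨c, C, hc, hC, fun δ L s₀ T F s a f w hp hg hF hδ hs => ?_⟩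
  obtain ⟨N', hN, hle⟩ := h δ L s₀ T F s 0 a f w (fun _ => 1) hp hg hF hδ hs contDiff_const
    (cut_one _ _ le_rfl) (fun z => by simp)
  refine ⟨N', ?_, ?_⟩
  · rwa [show normN L w = fun r => wsq 5 8 (fun _ => (1:ℝ)) (Ys L r) (snap w r) from
      funext (normN_eq L w)]
  · rw [normN_eq]
    simpa using hle

theorem loss_le {Y : ℝ} (hY : 0 ≤ Y) {κ V : ℝ → ℝ} (hκ : Continuous κ) (hV : ContinuousOn V (Icc 0 Y))
    {c : ℝ} (h : ∀ y ∈ Ioo 0 Y, κ y ^ 4 / (1 + y ^ 2) ≤ c) :
    loss 5 κ Y V ≤ c * wsq 5 0 (fun _ => 1) Y V := by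
  have i1 : IntervalIntegrable
      (fun y => κ y ^ 4 * rho 5 y * V y ^ 2 / (1 + y ^ 2)) volume 0 Y :=
    ContinuousOn.intervalIntegrable (by
      rw [uIcc_of_le hY]
      exact ((((hκ.pow 4).mul (continuous_rho 5)).continuousOn).mul (hV.pow 2)).div
        (by fun_prop) fun y _ => by positivity)
  have i2 : IntervalIntegrable (fun y => (1:ℝ) ^ 0 * rho 5 y * V y ^ 2) volume 0 Y :=
    ContinuousOn.intervalIntegrable (by
      rw [uIcc_of_le hY]
      exact (continuous_const.mul (continuous_rho 5)).continuousOn.mul (hV.pow 2))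
  rw [loss, wsq, ← intervalIntegral.integral_const_mul]
  refine intervalIntegral.integral_mono_on_of_le_Ioo hY i1 (i2.const_mul _) fun y hy => ?_
  have := rho_nonneg 5 hy.1.le
  have h' := mul_le_mul_of_nonneg_right (h y hy) (show 0 ≤ rho 5 y * V y ^ 2 by positivity)
  rw [pow_zero, one_mul]
  refine le_trans (le_of_eq ?_) h'
  ring

/-- Exponential a priori bound. -/
theorem apriori (hi : Inputs) (σ : Shrinker) (M T : ℝ) : ∃ C : ℝ, 0 < C ∧
    ∀ (δ L s₀ F : ℝ) (a f w : ℝ → ℝ → ℝ), Pot L a f w → Good σ M δ L a s₀ T →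
      Forced F L f s₀ T → δ ≤ 1 / 1000 →
      ∀ s ∈ Icc s₀ (s₀ + T), normN L w s ≤ C * (normN L w s₀ + F ^ 2) := by
  obtain ⟨δe, hδe, -, h⟩ := full hi σ
  obtain ⟨c, C, hc, hC, h⟩ := h M
  refine ⟨Real.exp (C * |T|) + 2 * |T| * Real.exp (2 * |C| * |T|), by positivity,
    fun δ L s₀ F a f w hp hg hF hδ s hs => ?_⟩
  have hL := good_pos hg
  have hT : 0 ≤ T := by linarith [hs.1, hs.2]
  have hcont : ContinuousOn (normN L w) (Icc s₀ (s₀ + T)) :=
    (continuousOn_wsq hp.smooth hL continuous_const 0 hg.start (by linarith)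
      (κ := fun _ => 1)).congr fun r _ => normN_eq L w r
  have hd : ∀ r ∈ Ioo s₀ (s₀ + T), HasDerivAt (normN L w) (deriv (normN L w) r) r ∧
      deriv (normN L w) r ≤ C * normN L w r + 2 * F ^ 2 := by
    intro r hr
    obtain ⟨N', hN, hle⟩ := h δ L s₀ T F r a f w hp hg hF hδ hr
    have hr0 : 0 ≤ r := hg.start.trans hr.1.le
    have hY : 0 < Ys L r := Ys_pos hL
    refine ⟨hN.deriv.symm ▸ hN, ?_⟩
    rw [hN.deriv]
    have hd0 := diss_nonneg hY.le (fun _ => 1) (snap w r) (a := rcoef a r)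
      fun y hy => (hg.pos r (Ioo_subset_Icc_self hr) y hy).le
    have hn0 := near_nonneg hδe.le (snap w r)
    have hl := loss_le hY.le (κ := fun _ => (1:ℝ)) continuous_const
      (snap_slice hp.smooth hr0).continuousOn (c := 1) fun y _ => by
        rw [one_pow, div_le_one (by positivity)]; linarith [sq_nonneg y]
    rw [one_mul, ← normN] at hl
    have hnn := normN_nonneg hL w r
    have := mul_nonneg hc.le (add_nonneg hd0 hn0)
    linarith [mul_le_mul_of_nonneg_left hl hC.le]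
  have h2 := gron (by positivity) hcont (fun r hr => (hd r hr).1) (fun r hr => (hd r hr).2) s hs
  have hN0 := normN_nonneg hL w s₀
  have hF2 := sq_nonneg F
  have he : Real.exp (C * (s - s₀)) ≤ Real.exp (C * |T|) := by
    rw [Real.exp_le_exp, abs_of_nonneg hT]
    exact mul_le_mul_of_nonneg_left (by linarith [hs.2]) hC.le
  rw [show s₀ + T - s₀ = T by ring] at h2
  have h3 := mul_le_mul_of_nonneg_right he hN0
  rw [abs_of_nonneg hT] at h3 ⊢
  nlinarith [mul_nonneg (Real.exp_pos (C * T)).le hF2,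
    mul_nonneg (show 0 ≤ 2 * T * Real.exp (2 * |C| * T) by positivity) hN0]

/-- The part of a state beyond `R`. -/
noncomputable def tail (R : ℝ) (x : H) : H :=
  ((Lp.memLp x).indicator (measurableSet_Ioi (a := R))).toLp _

theorem tail_coe (R : ℝ) (x : H) :
    (tail R x : ℝ → ℝ) =ᵐ[μ5] (Ioi R).indicator x :=
  MemLp.coeFn_toLp _

theorem norm_tail_sq (R : ℝ) (x : H) :
    ‖tail R x‖ ^ 2 = ∫ y, (Ioi R).indicator (fun z => x z ^ 2) y ∂μ5 := by
  rw [norm_sq_eq]
  refine integral_congr_ae ?_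
  filter_upwards [tail_coe R x] with y hy
  rw [hy]
  by_cases hm : y ∈ Ioi R
  · rw [indicator_of_mem hm, indicator_of_mem hm]
  · rw [indicator_of_notMem hm, indicator_of_notMem hm]; ring

theorem norm_tail_state_sq (R : ℝ) {Y : ℝ} (hY : 0 ≤ Y) {V : ℝ → ℝ}
    (hV : ContinuousOn V (Icc 0 Y)) :
    ‖tail R (state Y V)‖ ^ 2
      = ∫ y in (0:ℝ)..Y, rho 5 y * (Ioi R).indicator (fun z => V z ^ 2) y := by
  rw [norm_tail_sq, ← integral_state hY]
  refine integral_congr_ae ?_
  filter_upwards [state_coe hV] with y hy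
  by_cases hm : y ∈ Ioi R <;> by_cases hi : y ∈ Icc 0 Y <;> simp [hy, hm, hi]

/-- Tails decay along the characteristics. -/
theorem tail_est (hi : Inputs) (σ : Shrinker) (M T : ℝ) : ∃ C : ℝ, 0 < C ∧
    ∀ (δ L s₀ F R₀ : ℝ) (a f w : ℝ → ℝ → ℝ), Pot L a f w → Good σ M δ L a s₀ T →
      Forced F L f s₀ T → δ ≤ 1 / 1000 → 1 ≤ R₀ → ∀ s ∈ Icc s₀ (s₀ + T),
      ‖tail (2 * R₀ * Real.exp (T / 2)) (stateAt L w s)‖ ^ 2
        ≤ Real.exp (-(s - s₀)) * ‖tail R₀ (stateAt L w s₀)‖ ^ 2
          + C * (normN L w s₀ / R₀ ^ 2 + F ^ 2) := by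
  obtain ⟨G, hG, hcut⟩ := cut_affine
  obtain ⟨δe, hδe, hδe1, hmov⟩ := moving hi σ
  obtain ⟨c, C, hc, hC, hmov⟩ := hmov M G
  obtain ⟨A, hA, hap⟩ := apriori hi σ M T
  refine ⟨(C * A + C * A + 2) * (|T| * Real.exp (2 * |T|) + 1), by positivity,
    fun δ L s₀ F R₀ a f w hp hg hF hδ hR s hs => ?_⟩
  have hL := good_pos hg
  have hT : 0 ≤ T := by linarith [hs.1, hs.2]
  set α := Real.exp (s₀ / 2) / R₀ with hαdef
  set κ : ℝ → ℝ := fun z => Real.smoothTransition (α * z + -1) with hκ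
  have hκd : ContDiff ℝ ∞ κ :=
    Real.smoothTransition.contDiff.comp ((contDiff_const.mul contDiff_id).add contDiff_const)
  have hα : 0 < α := by positivity
  set Tl : ℝ → ℝ := fun r => wsq 5 8 (fun y => κ (y * Real.exp (-(1 / 2) * r))) (Ys L r) (snap w r)
    with hTl
  have hsign : ∀ z, (4 - 8 * (1 / 2 : ℝ)) * (z * deriv κ z) ≤ 0 := fun z => by norm_num
  have hα' : ∀ r, α * Real.exp (-(1 / 2) * r) = Real.exp ((s₀ - r) / 2) / R₀ := fun r => by
    rw [hαdef, div_mul_eq_mul_div, ← Real.exp_add]; ring_nf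
  have hsmall : ∀ r, s₀ ≤ r → α * Real.exp (-(1 / 2) * r) ≤ 1 / R₀ := fun r hr => by
    rw [hα']; exact div_le_div_of_nonneg_right (Real.exp_le_one_iff.2 (by linarith)) (by linarith)
  have hd : ∀ r ∈ Ioo s₀ (s₀ + T), HasDerivAt Tl (deriv Tl r) r ∧
      deriv Tl r ≤ -1 * Tl r + (C * (A * (normN L w s₀ + F ^ 2)) / R₀ ^ 2 + 2 * F ^ 2) := by
    intro r hr
    have hr0 : 0 ≤ r := hg.start.trans hr.1.le
    have ha' := hsmall r hr.1.le
    have hα0 : 0 < α * Real.exp (-(1 / 2) * r) := by positivity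
    have hR1 : 1 / R₀ ≤ 1 := by rw [div_le_one (by linarith)]; exact hR
    have hfun : (fun y => κ (y * Real.exp (-(1 / 2) * r)))
        = fun y => Real.smoothTransition (α * Real.exp (-(1 / 2) * r) * y + -1) := by
      funext y; simp only [hκ]; ring_nf
    have hcutr : Cut (Ys L r) G δe fun y => κ (y * Real.exp (-(1 / 2) * r)) := by
      rw [hfun]
      refine hcut _ _ _ _ (fun y hy hm => ?_) fun y hy => ?_
      · rw [abs_of_pos hα0, mul_add, mul_one]
        linarith [hm.2]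
      · have h1 : α * Real.exp (-(1 / 2) * r) * y ≤ 1 := by
          rcases le_total y 0 with h | h
          · nlinarith
          · exact mul_le_one₀ (ha'.trans hR1) h (hy.trans hδe1)
        rw [Real.smoothTransition.zero_of_nonpos (by linarith),
          Real.smoothTransition.zero_of_nonpos (by norm_num)]
    obtain ⟨N', hN, hle⟩ := hmov δ L s₀ T F r (1 / 2) a f w κ hp hg hF hδ hr hκd hcutr hsign
    refine ⟨hN.deriv.symm ▸ hN, ?_⟩
    rw [hN.deriv]
    have hY : 0 < Ys L r := Ys_pos hL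
    have hd0 := diss_nonneg hY.le (fun y => κ (y * Real.exp (-(1 / 2) * r))) (snap w r)
      (a := rcoef a r) fun y hy => (hg.pos r (Ioo_subset_Icc_self hr) y hy).le
    have hk0 : κ 0 = 0 := by
      simp only [hκ]; exact Real.smoothTransition.zero_of_nonpos (by norm_num)
    rw [hk0] at hle
    have hl := loss_le hY.le hcutr.smooth.continuous (snap_slice hp.smooth hr0).continuousOn
      (c := 1 / R₀ ^ 2) fun y hy => by
        by_cases hz : y ≤ R₀
        · have h1 : κ (y * Real.exp (-(1 / 2) * r)) = 0 := by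
            refine Real.smoothTransition.zero_of_nonpos ?_
            have := (mul_le_mul ha' hz hy.1.le (by positivity))
            rw [one_div_mul_cancel (by linarith : R₀ ≠ 0)] at this
            linarith
          rw [h1]; simp; positivity
        · refine div_le_div₀ zero_le_one (pow_le_one₀ (hcutr.nonneg y) (hcutr.le_one y))
            (by positivity) ?_
          nlinarith
    rw [← normN] at hl
    have hap' := hap δ L s₀ F a f w hp hg hF hδ r (Ioo_subset_Icc_self hr)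
    have h5 : C * loss 5 (fun y => κ (y * Real.exp (-(1 / 2) * r))) (Ys L r) (snap w r)
        ≤ C * (A * (normN L w s₀ + F ^ 2)) / R₀ ^ 2 := by
      refine (mul_le_mul_of_nonneg_left
        (hl.trans (mul_le_mul_of_nonneg_left hap' (by positivity))) hC.le).trans (le_of_eq ?_)
      ring
    have h6 := mul_nonneg hc.le hd0
    simp only [hTl, zero_pow (show (8:ℕ) ≠ 0 by norm_num), zero_mul, add_zero] at hle ⊢
    linarith
  have hcont : ContinuousOn Tl (Icc s₀ (s₀ + T)) :=
    continuousOn_wsq hp.smooth hL hκd.continuous (1 / 2) hg.start (by linarith)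
  have hN0 := normN_nonneg hL w s₀
  have h2 := gron (by positivity) hcont (fun r hr => (hd r hr).1) (fun r hr => (hd r hr).2) s hs
  rw [show s₀ + T - s₀ = T by ring, abs_neg, abs_one, mul_one] at h2
  have hlow : ‖tail (2 * R₀ * Real.exp (T / 2)) (stateAt L w s)‖ ^ 2 ≤ Tl s := by
    have hVc := (snap_slice hp.smooth (hg.start.trans hs.1)).continuousOn
    have hY : 0 < Ys L s := Ys_pos hL
    rw [stateAt, norm_tail_state_sq _ hY.le hVc]
    simp only [hTl, wsq]
    refine intervalIntegral.integral_mono_on_of_le_Ioo hY.le ?_ ?_ fun y hy => ?_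
    · refine IntervalIntegrable.continuousOn_mul ?_ (continuous_rho 5).continuousOn
      rw [intervalIntegrable_iff_integrableOn_Ioc_of_le hY.le]
      exact ((hVc.pow 2).integrableOn_Icc.mono_set Ioc_subset_Icc_self).indicator measurableSet_Ioi
    · refine ContinuousOn.intervalIntegrable ?_
      rw [uIcc_of_le hY.le]
      exact ((((hκd.continuous.comp (continuous_id.mul continuous_const)).pow 8).mul
        (continuous_rho 5)).continuousOn).mul (hVc.pow 2)
    · have hr := rho_nonneg 5 hy.1.le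
      by_cases hm : y ∈ Ioi (2 * R₀ * Real.exp (T / 2))
      · rw [indicator_of_mem hm]
        have h1 : κ (y * Real.exp (-(1 / 2) * s)) = 1 := by
          refine Real.smoothTransition.one_of_one_le ?_
          have h2 : 2 ≤ α * Real.exp (-(1 / 2) * s) * y := by
            rw [hα', div_mul_eq_mul_div, le_div_iff₀ (by linarith)]
            calc 2 * R₀ = Real.exp ((s₀ - s) / 2) * (2 * R₀ * Real.exp ((s - s₀) / 2)) := by
                  rw [mul_comm (2 * R₀), ← mul_assoc, ← Real.exp_add]; ring_nf; simp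
              _ ≤ _ := by
                  refine mul_le_mul_of_nonneg_left (le_trans ?_ (le_of_lt hm)) (Real.exp_pos _).le
                  exact mul_le_mul_of_nonneg_left
                    (Real.exp_le_exp.2 (by linarith [hs.2])) (by linarith)
          linarith
        rw [h1]; linarith
      · rw [indicator_of_notMem hm]; simp; positivity
  have hup : Tl s₀ ≤ ‖tail R₀ (stateAt L w s₀)‖ ^ 2 := by
    have hVc := (snap_slice hp.smooth hg.start).continuousOn
    have hY : 0 < Ys L s₀ := Ys_pos hL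
    rw [stateAt, norm_tail_state_sq _ hY.le hVc]
    simp only [hTl, wsq]
    refine intervalIntegral.integral_mono_on_of_le_Ioo hY.le ?_ ?_ fun y hy => ?_
    · refine ContinuousOn.intervalIntegrable ?_
      rw [uIcc_of_le hY.le]
      exact ((((hκd.continuous.comp (continuous_id.mul continuous_const)).pow 8).mul
        (continuous_rho 5)).continuousOn).mul (hVc.pow 2)
    · refine IntervalIntegrable.continuousOn_mul ?_ (continuous_rho 5).continuousOn
      rw [intervalIntegrable_iff_integrableOn_Ioc_of_le hY.le]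
      exact ((hVc.pow 2).integrableOn_Icc.mono_set Ioc_subset_Icc_self).indicator measurableSet_Ioi
    · have hr := rho_nonneg 5 hy.1.le
      have hk0 := Real.smoothTransition.nonneg (α * (y * Real.exp (-(1 / 2) * s₀)) + -1)
      have hk1 := Real.smoothTransition.le_one (α * (y * Real.exp (-(1 / 2) * s₀)) + -1)
      by_cases hm : y ∈ Ioi R₀
      · rw [indicator_of_mem hm]
        simp only [hκ]
        calc _ ≤ 1 * rho 5 y * snap w s₀ y ^ 2 := by
              gcongr; exact pow_le_one₀ hk0 hk1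
          _ = _ := by ring
      · rw [indicator_of_notMem hm]
        have h1 : κ (y * Real.exp (-(1 / 2) * s₀)) = 0 := by
          refine Real.smoothTransition.zero_of_nonpos ?_
          have h2 := mul_le_mul (hsmall s₀ le_rfl) (not_lt.1 hm) hy.1.le (by positivity)
          rw [one_div_mul_cancel (by linarith : R₀ ≠ 0)] at h2
          linarith
        rw [h1]; simp
  refine hlow.trans (h2.trans ?_)
  rw [show -1 * (s - s₀) = -(s - s₀) by ring]
  refine add_le_add (mul_le_mul_of_nonneg_left hup (Real.exp_pos _).le) ?_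
  rw [abs_of_nonneg hT]
  set X := normN L w s₀ / R₀ ^ 2
  set E := T * Real.exp (2 * T)
  have hX : 0 ≤ X := by positivity
  have hE : 0 ≤ E := by positivity
  have hF2 : F ^ 2 / R₀ ^ 2 ≤ F ^ 2 := div_le_self (sq_nonneg F) (by nlinarith)
  have hG' : C * (A * (normN L w s₀ + F ^ 2)) / R₀ ^ 2 + 2 * F ^ 2
      ≤ (C * A + C * A + 2) * (X + F ^ 2) := by
    rw [show C * (A * (normN L w s₀ + F ^ 2)) / R₀ ^ 2 = C * A * X + C * A * (F ^ 2 / R₀ ^ 2) by
      simp only [X]; ring]
    nlinarith [mul_le_mul_of_nonneg_left hF2 (mul_nonneg hC.le hA.le), mul_nonneg hC.le hA.le,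
      sq_nonneg F]
  calc (C * (A * (normN L w s₀ + F ^ 2)) / R₀ ^ 2 + 2 * F ^ 2) * T * Real.exp (2 * T)
      = (C * (A * (normN L w s₀ + F ^ 2)) / R₀ ^ 2 + 2 * F ^ 2) * E := by simp only [E]; ring
    _ ≤ (C * A + C * A + 2) * (X + F ^ 2) * E := mul_le_mul_of_nonneg_right hG' hE
    _ ≤ _ := by
        have : 0 ≤ (C * A + C * A + 2) * (X + F ^ 2) := by positivity
        nlinarith

end Vale.Agent.P264.LinOp
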