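import Vale.Agent.P264.LinOp.Targets
import Vale.Agent.P264.Middle.SliceInt

/-!
Regularity of rescaled snapshots, cutoffs, and a scalar comparison lemma.
-/

namespace Vale.Agent.P264.LinOp

open Set Filter Topology MeasureTheory
open scoped ContDiff

/-- Scalar comparison: `f' ≤ k f + G` integrates. -/
theorem gron {f f' : ℝ → ℝ} {k G a b : ℝ} (hG : 0 ≤ G) (hf : ContinuousOn f (Icc a b))
    (hd : ∀ s ∈ Ioo a b, HasDerivAt f (f' s) s) (hle : ∀ s ∈ Ioo a b, f' s ≤ k * f s + G) :
    ∀ s ∈ Icc a b,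
      f s ≤ Real.exp (k * (s - a)) * f a + G * (b - a) * Real.exp (2 * |k| * (b - a)) := by
  intro s hs
  have hab : 0 ≤ b - a := by linarith [hs.1, hs.2]
  set G' := G * Real.exp (|k| * (b - a)) with hG'
  set g : ℝ → ℝ := fun r => Real.exp (-k * (r - a)) * f r - G' * (r - a) with hg
  have hge : ∀ r ∈ Ioo a b, HasDerivAt g
      (Real.exp (-k * (r - a)) * (f' r - k * f r) - G') r := by
    intro r hr
    have h1 : HasDerivAt (fun r : ℝ => -k * (r - a)) (-k) r := by
      simpa using ((hasDerivAt_id r).sub_const a).const_mul (-k)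
    have h2 := (h1.exp.mul (hd r hr)).sub (((hasDerivAt_id r).sub_const a).const_mul G')
    refine h2.congr_deriv ?_
    ring
  have hanti : AntitoneOn g (Icc a b) := by
    refine antitoneOn_of_hasDerivWithinAt_nonpos (convex_Icc a b) ?_
      (fun r hr => (hge r (interior_Icc (a := a) (b := b) ▸ hr)).hasDerivWithinAt) ?_
    · exact ((Real.continuous_exp.comp (by fun_prop)).continuousOn.mul hf).sub
        (by fun_prop)
    · intro r hr
      rw [interior_Icc] at hr
      have he : Real.exp (-k * (r - a)) ≤ Real.exp (|k| * (b - a)) := by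
        rw [Real.exp_le_exp]
        have h1 : -k * (r - a) ≤ |k| * (r - a) :=
          mul_le_mul_of_nonneg_right (neg_le_abs k) (by linarith [hr.1])
        exact h1.trans (mul_le_mul_of_nonneg_left (by linarith [hr.2]) (abs_nonneg k))
      have h3 := mul_le_mul_of_nonneg_left
        (show f' r - k * f r ≤ G by linarith [hle r hr]) (Real.exp_pos (-k * (r - a))).le
      have h4 := mul_le_mul_of_nonneg_right he hG
      rw [hG']
      linarith
  have h := hanti (left_mem_Icc.2 (by linarith)) hs hs.1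
  simp only [hg, sub_self, mul_zero, Real.exp_zero, one_mul, sub_zero] at h
  have hprod : Real.exp (k * (s - a)) * Real.exp (-k * (s - a)) = 1 := by
    rw [← Real.exp_add]; ring_nf; exact Real.exp_zero
  have h' := mul_le_mul_of_nonneg_left (sub_le_iff_le_add.1 h) (Real.exp_pos (k * (s - a))).le
  rw [← mul_assoc, hprod, one_mul, mul_add] at h'
  refine h'.trans (add_le_add le_rfl ?_)
  have he : Real.exp (k * (s - a)) ≤ Real.exp (|k| * (b - a)) := by
    rw [Real.exp_le_exp]
    exact (mul_le_mul_of_nonneg_right (le_abs_self k) (by linarith [hs.1])).trans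
      (mul_le_mul_of_nonneg_left (by linarith [hs.2]) (abs_nonneg k))
  calc Real.exp (k * (s - a)) * (G' * (s - a))
      ≤ Real.exp (|k| * (b - a)) * (G' * (b - a)) := by
        refine mul_le_mul he (mul_le_mul_of_nonneg_left (by linarith [hs.2]) ?_)
          (mul_nonneg ?_ (by linarith [hs.1])) (Real.exp_pos _).le <;> positivity
    _ = _ := by
        rw [hG', show (2 : ℝ) * |k| * (b - a) = |k| * (b - a) + |k| * (b - a) by ring,
          Real.exp_add]
        ring

theorem tof_mem {s : ℝ} (hs : 0 ≤ s) : tof s ∈ Ico (0:ℝ) 1 := by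
  have h1 : Real.exp (-s) ≤ 1 := Real.exp_le_one_iff.2 (by linarith)
  have h2 := Real.exp_pos (-s)
  unfold tof; constructor <;> linarith

theorem Ys_pos {L s : ℝ} (hL : 0 < L) : 0 < Ys L s := by unfold Ys; positivity

theorem le_Ys {L s : ℝ} (hL : 0 < L) (hs : 0 ≤ s) : L ≤ Ys L s :=
  le_mul_of_one_le_right hL.le (Real.one_le_exp (by linarith))

theorem scaled_mem {L s y : ℝ} (hy : y ∈ Icc 0 (Ys L s)) :
    Real.exp (-s / 2) * y ∈ Icc 0 L := by
  refine ⟨mul_nonneg (Real.exp_pos _).le hy.1, ?_⟩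
  calc Real.exp (-s / 2) * y ≤ Real.exp (-s / 2) * (L * Real.exp (s / 2)) :=
        mul_le_mul_of_nonneg_left hy.2 (Real.exp_pos _).le
    _ = L := by
        rw [mul_comm L, ← mul_assoc, ← Real.exp_add]
        ring_nf; simp

variable {L : ℝ} {w : ℝ → ℝ → ℝ}

theorem snap_slice (hw : ContDiffOn ℝ ∞ (Function.uncurry w) (Ico 0 1 ×ˢ Icc 0 L)) {s : ℝ}
    (hs : 0 ≤ s) : ContDiffOn ℝ ∞ (snap w s) (Icc 0 (Ys L s)) :=
  contDiffOn_const.mul (hw.comp (contDiff_const.prodMk (contDiff_const.mul contDiff_id)).contDiffOn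
    fun _ hy => ⟨tof_mem hs, scaled_mem hy⟩)

theorem rcoef_slice (ha : ContDiffOn ℝ ∞ (Function.uncurry w) (Ico 0 1 ×ˢ Icc 0 L)) {s : ℝ}
    (hs : 0 ≤ s) : ContDiffOn ℝ ∞ (rcoef w s) (Icc 0 (Ys L s)) :=
  contDiffOn_const.mul (ha.comp (contDiff_const.prodMk (contDiff_const.mul contDiff_id)).contDiffOn
    fun _ hy => ⟨tof_mem hs, scaled_mem hy⟩)

theorem stateAt_norm_sq (hw : ContDiffOn ℝ ∞ (Function.uncurry w) (Ico 0 1 ×ˢ Icc 0 L))
    (hL : 0 < L) {s : ℝ} (hs : 0 ≤ s) : ‖stateAt L w s‖ ^ 2 = normN L w s :=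
  norm_state_sq (Ys_pos hL).le (snap_slice hw hs).continuousOn

/-- Snapshots are smooth on products of a time window and a fixed interval inside `[0, L]`. -/
theorem snap_smooth2 (hw : ContDiffOn ℝ ∞ (Function.uncurry w) (Ico 0 1 ×ˢ Icc 0 L)) (hL : 0 < L)
    {s₀ T K : ℝ} (hs₀ : 0 ≤ s₀) (hK : K ≤ L) :
    Calc.Smooth2 (Icc 0 T) (Icc 0 K) fun r y => snap w (s₀ + r) y := by
  unfold Calc.Smooth2 snap tof
  have hin : ContDiff ℝ ∞ fun p : ℝ × ℝ =>
      ((1 - Real.exp (-(s₀ + p.1)), Real.exp (-(s₀ + p.1) / 2) * p.2) : ℝ × ℝ) := by fun_prop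
  refine ((Real.contDiff_exp.comp
    ((contDiff_const.add contDiff_fst).div_const 2)).contDiffOn).mul
    (hw.comp hin.contDiffOn fun p hp => ?_)
  have h0 : 0 ≤ s₀ + p.1 := by linarith [(Set.mem_prod.1 hp).1.1]
  exact ⟨tof_mem h0, scaled_mem ⟨(Set.mem_prod.1 hp).2.1,
    ((Set.mem_prod.1 hp).2.2.trans hK).trans (le_Ys hL h0)⟩⟩

/-- A weighted norm of snapshots depends continuously on the rescaled time. -/
theorem continuousOn_wsq (hw : ContDiffOn ℝ ∞ (Function.uncurry w) (Ico 0 1 ×ˢ Icc 0 L))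
    (hL : 0 < L) {κ : ℝ → ℝ} (hκ : Continuous κ) (l : ℝ) {a b : ℝ} (ha : 0 ≤ a) (hab : a ≤ b) :
    ContinuousOn
      (fun r => wsq 5 8 (fun y => κ (y * Real.exp (-l * r))) (Ys L r) (snap w r)) (Icc a b) := by
  have heq : ∀ r, wsq 5 8 (fun y => κ (y * Real.exp (-l * r))) (Ys L r) (snap w r)
      = Real.exp (r / 2) * ∫ x in (0:ℝ)..L,
          κ (Real.exp (r / 2) * x * Real.exp (-l * r)) ^ 8 * rho 5 (Real.exp (r / 2) * x)
            * (Real.exp (r / 2) * w (tof r) x) ^ 2 := by
    intro r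
    have hc : Real.exp (r / 2) ≠ 0 := (Real.exp_pos _).ne'
    have h := intervalIntegral.integral_comp_mul_left
      (fun y => κ (y * Real.exp (-l * r)) ^ 8 * rho 5 y * snap w r y ^ 2) hc (a := 0) (b := L)
    simp only [mul_zero, smul_eq_mul] at h
    rw [show Real.exp (r / 2) * L = Ys L r by unfold Ys; ring] at h
    rw [wsq, ← mul_inv_cancel_left₀ hc (∫ y in (0:ℝ)..Ys L r,
      κ (y * Real.exp (-l * r)) ^ 8 * rho 5 y * snap w r y ^ 2), ← h]
    congr 1
    refine intervalIntegral.integral_congr fun x _ => ?_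
    simp only [snap]
    rw [show Real.exp (-r / 2) * (Real.exp (r / 2) * x) = x by
      rw [← mul_assoc, ← Real.exp_add]; ring_nf; simp]
  simp only [heq]
  refine (Real.continuous_exp.comp (by fun_prop)).continuousOn.mul
    (Middle.continuousOn_slice_integral hL.le hab ?_)
  have hw' : ContinuousOn (fun p : ℝ × ℝ => w (tof p.1) p.2) (Icc a b ×ˢ Icc 0 L) :=
    hw.continuousOn.comp (f := fun p : ℝ × ℝ => (tof p.1, p.2))
      (by unfold tof; fun_prop) fun p hp =>
        ⟨tof_mem (ha.trans (Set.mem_prod.1 hp).1.1), (Set.mem_prod.1 hp).2⟩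
  have hr := continuous_rho 5
  exact ((((hκ.comp (by fun_prop)).pow 8).mul (hr.comp (by fun_prop))).continuousOn).mul
    (((Real.continuous_exp.comp (by fun_prop)).continuousOn.mul hw').pow 2)

/-- Bounds for the first two derivatives of the smooth step. -/
theorem step_bound : ∃ B : ℝ, 0 ≤ B ∧ (∀ x, |deriv Real.smoothTransition x| ≤ B) ∧
    (∀ x, |deriv (deriv Real.smoothTransition) x| ≤ B) ∧
    (∀ x, x ∉ Icc (0:ℝ) 1 → deriv Real.smoothTransition x = 0 ∧
      deriv (deriv Real.smoothTransition) x = 0) := by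
  have hc : ContDiff ℝ ∞ (deriv Real.smoothTransition) :=
    (contDiff_infty_iff_deriv.1 Real.smoothTransition.contDiff).2
  have hz : ∀ x, x ∉ Icc (0:ℝ) 1 → deriv Real.smoothTransition x = 0 ∧
      deriv (deriv Real.smoothTransition) x = 0 := by
    intro x hx
    obtain ⟨c, hcc⟩ : ∃ c, Real.smoothTransition =ᶠ[𝓝 x] fun _ => c := by
      rcases lt_or_ge x 0 with h | h
      · exact ⟨0, (eventually_lt_nhds h).mono fun z hz => Real.smoothTransition.zero_of_nonpos hz.le⟩
      · have h1 : 1 < x := lt_of_not_ge fun hle => hx ⟨h, hle⟩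
        exact ⟨1, (eventually_gt_nhds h1).mono fun z hz => Real.smoothTransition.one_of_one_le hz.le⟩
    have h1 : deriv Real.smoothTransition =ᶠ[𝓝 x] fun _ => (0:ℝ) := by
      simpa using hcc.deriv
    exact ⟨h1.eq_of_nhds, by simpa using h1.deriv_eq⟩
  have hc2 : Continuous (deriv (deriv Real.smoothTransition)) :=
    (contDiff_infty_iff_deriv.1 hc).2.continuous
  obtain ⟨B₁, h1⟩ := (isCompact_Icc (a := (0:ℝ)) (b := 1)).exists_bound_of_continuousOn
    hc.continuous.continuousOn
  obtain ⟨B₂, h2⟩ := (isCompact_Icc (a := (0:ℝ)) (b := 1)).exists_bound_of_continuousOn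
    hc2.continuousOn
  refine ⟨max (max B₁ B₂) 0, le_max_right _ _, fun x => ?_, fun x => ?_, hz⟩ <;>
    by_cases hx : x ∈ Icc (0:ℝ) 1
  · exact (h1 x hx).trans (le_max_of_le_left (le_max_left _ _))
  · rw [(hz x hx).1, abs_zero]; exact le_max_right _ _
  · exact (h2 x hx).trans (le_max_of_le_left (le_max_right _ _))
  · rw [(hz x hx).2, abs_zero]; exact le_max_right _ _

/-- Uniform bounds for cutoffs obtained from the smooth step by an affine change of variable. -/
theorem cut_affine : ∃ G : ℝ, 0 ≤ G ∧ ∀ (Y δ α β : ℝ),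
    (∀ y, 0 ≤ y → α * y + β ∈ Icc (0:ℝ) 1 → |α| * (1 + y) ≤ 4) →
    (∀ y, y ≤ δ → Real.smoothTransition (α * y + β) = Real.smoothTransition β) →
    Cut Y G δ fun y => Real.smoothTransition (α * y + β) := by
  obtain ⟨B, hB, h1, h2, hz⟩ := step_bound
  have hst : ∀ x, HasDerivAt Real.smoothTransition (deriv Real.smoothTransition x) x := fun x =>
    ((Real.smoothTransition.contDiff (n := 1)).differentiable (by simp) x).hasDerivAt
  have hst2 : ∀ x, HasDerivAt (deriv Real.smoothTransition)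
      (deriv (deriv Real.smoothTransition) x) x := fun x =>
    (((contDiff_infty_iff_deriv.1 Real.smoothTransition.contDiff).2.differentiable (by simp))
      x).hasDerivAt
  refine ⟨16 * B, by positivity, fun Y δ α β hαy hflat => ?_⟩
  have haff : ∀ y, HasDerivAt (fun z => α * z + β) α y := fun y => by
    simpa using ((hasDerivAt_id y).const_mul α).add_const β
  have hd1 : deriv (fun y => Real.smoothTransition (α * y + β))
      = fun y => deriv Real.smoothTransition (α * y + β) * α :=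
    funext fun y => ((hst _).comp y (haff y)).deriv
  have hd2 : ∀ y, deriv (deriv fun y => Real.smoothTransition (α * y + β)) y
      = deriv (deriv Real.smoothTransition) (α * y + β) * α * α := fun y => by
    rw [hd1]; exact (((hst2 _).comp y (haff y)).mul_const α).deriv
  refine ⟨Real.smoothTransition.contDiff.comp ((contDiff_const.mul contDiff_id).add contDiff_const),
    fun y => Real.smoothTransition.nonneg _, fun y => Real.smoothTransition.le_one _,
    fun y hy => by simpa using hflat y hy, fun y hy => ?_, fun y hy => ?_⟩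
  · rw [hd1, abs_mul, le_div_iff₀ (by linarith [hy.1]), mul_assoc]
    by_cases hm : α * y + β ∈ Icc (0:ℝ) 1
    · calc _ ≤ B * 4 := mul_le_mul (h1 _) (hαy y hy.1 hm)
            (mul_nonneg (abs_nonneg _) (by linarith [hy.1])) hB
        _ ≤ 16 * B := by linarith
    · rw [(hz _ hm).1, abs_zero, zero_mul]; positivity
  · rw [hd2, abs_mul, abs_mul, le_div_iff₀ (pow_pos (by linarith [hy.1]) 2)]
    by_cases hm : α * y + β ∈ Icc (0:ℝ) 1
    · have h4 := hαy y hy.1 hm
      calc _ = |deriv (deriv Real.smoothTransition) (α * y + β)| * (|α| * (1 + y)) ^ 2 := by ring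
        _ ≤ B * 4 ^ 2 := mul_le_mul (h2 _)
            (pow_le_pow_left₀ (mul_nonneg (abs_nonneg _) (by linarith [hy.1])) h4 2)
            (sq_nonneg _) hB
        _ = 16 * B := by ring
    · rw [(hz _ hm).2]; simp; positivity

theorem cut_one (Y δ : ℝ) {G : ℝ} (hG : 0 ≤ G) : Cut Y G δ fun _ => (1:ℝ) :=
  ⟨contDiff_const, fun _ => zero_le_one, fun _ => le_rfl, fun _ _ => rfl,
    fun y hy => by simp only [deriv_const, abs_zero]; exact div_nonneg hG (by linarith [hy.1]),
    fun y hy => by simp only [deriv_const', deriv_const, abs_zero]; positivity⟩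

end Vale.Agent.P264.LinOp
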