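import Vale.Agent.P264.LinOp.Regular
import Vale.Agent.P264.Energy.Targets
import Mathlib.Analysis.SpecialFunctions.Integrals.Basic

/-!
Static consequences of the energy targets used by the linear operator module.
-/

namespace Vale.Agent.P264.LinOp

open Set Filter Topology MeasureTheory
open scoped ContDiff

variable {Y : ℝ}

/-- First derivative, continued to both ends. -/
noncomputable def d1 (Y : ℝ) (V : ℝ → ℝ) : ℝ → ℝ := derivWithin V (Icc 0 Y)

/-- Second derivative, continued to both ends. -/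
noncomputable def d2 (Y : ℝ) (V : ℝ → ℝ) : ℝ → ℝ := d1 Y (d1 Y V)

theorem d1_smooth (hY : 0 < Y) {V : ℝ → ℝ} (hV : ContDiffOn ℝ ∞ V (Icc 0 Y)) :
    ContDiffOn ℝ ∞ (d1 Y V) (Icc 0 Y) :=
  ((contDiffOn_infty_iff_derivWithin (uniqueDiffOn_Icc hY)).1 hV).2

theorem d2_smooth (hY : 0 < Y) {V : ℝ → ℝ} (hV : ContDiffOn ℝ ∞ V (Icc 0 Y)) :
    ContDiffOn ℝ ∞ (d2 Y V) (Icc 0 Y) :=
  d1_smooth hY (d1_smooth hY hV)

theorem d1_eq {V : ℝ → ℝ} {y : ℝ} (hy : y ∈ Ioo 0 Y) : d1 Y V y = deriv V y :=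
  derivWithin_of_mem_nhds (Icc_mem_nhds hy.1 hy.2)

theorem d2_eq {V : ℝ → ℝ} {y : ℝ} (hy : y ∈ Ioo 0 Y) : d2 Y V y = deriv (deriv V) y := by
  rw [d2, d1_eq hy]
  refine EventuallyEq.deriv_eq ?_
  filter_upwards [Ioo_mem_nhds hy.1 hy.2] with z hz using d1_eq hz

theorem dst_congr {f g : ℝ → ℝ} (h : ∀ z ∈ Ioo 0 Y, f z = g z) {y : ℝ} (hy : y ∈ Ioo 0 Y) :
    dst f y = dst g y := by
  have h1 : (fun z => z ^ 7 * f z) =ᶠ[𝓝 y] fun z => z ^ 7 * g z := by
    filter_upwards [Ioo_mem_nhds hy.1 hy.2] with z hz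
    rw [h z hz]
  rw [dst, dst, h1.deriv.deriv_eq]

theorem dst_expand {h : ℝ → ℝ} (hh : ContDiffOn ℝ ∞ h (Icc 0 Y)) {y : ℝ} (hy : y ∈ Ioo 0 Y) :
    dst h y = (42 * y ^ 5 * h y + 14 * y ^ 6 * d1 Y h y + y ^ 7 * d2 Y h y) / y ^ 7 := by
  have hY : 0 < Y := hy.1.trans hy.2
  have hd : ∀ f : ℝ → ℝ, ContDiffOn ℝ ∞ f (Icc 0 Y) → ∀ z ∈ Ioo 0 Y,
      HasDerivAt f (d1 Y f z) z := fun f hf z hz => by
    rw [d1_eq hz]
    exact ((hf.contDiffAt (Icc_mem_nhds hz.1 hz.2)).differentiableAt (by simp)).hasDerivAt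
  have e1 : deriv (fun z => z ^ 7 * h z) =ᶠ[𝓝 y]
      fun z => 7 * z ^ 6 * h z + z ^ 7 * d1 Y h z := by
    filter_upwards [Ioo_mem_nhds hy.1 hy.2] with z hz
    refine (((hasDerivAt_id z).pow 7).mul (hd h hh z hz)).deriv.trans ?_
    simp
  have e2 := ((((hasDerivAt_id y).pow 6).const_mul 7).mul (hd h hh y hy)).add
    (((hasDerivAt_id y).pow 7).mul (hd _ (d1_smooth hY hh) y hy))
  rw [dst, e1.deriv_eq]
  congr 1
  refine e2.deriv.trans ?_
  simp only [d2, id, Pi.pow_apply]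
  push_cast
  ring

theorem dst_lin (c : ℝ) {f g : ℝ → ℝ} (hf : ContDiffOn ℝ ∞ f (Icc 0 Y))
    (hg : ContDiffOn ℝ ∞ g (Icc 0 Y)) {y : ℝ} (hy : y ∈ Ioo 0 Y) :
    dst (fun z => f z + c * g z) y = dst f y + c * dst g y := by
  have hY : 0 < Y := hy.1.trans hy.2
  have hu := uniqueDiffOn_Icc hY
  have hfg : ContDiffOn ℝ ∞ (fun z => f z + c * g z) (Icc 0 Y) :=
    hf.add (contDiffOn_const.mul hg)
  have e : ∀ F G : ℝ → ℝ, ContDiffOn ℝ ∞ F (Icc 0 Y) → ContDiffOn ℝ ∞ G (Icc 0 Y) →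
      ∀ z ∈ Icc 0 Y, d1 Y (fun z => F z + c * G z) z = d1 Y F z + c * d1 Y G z :=
    fun F G hF hG z hz => (((hF.differentiableOn (by simp) z hz).hasDerivWithinAt).add
      (((hG.differentiableOn (by simp) z hz).hasDerivWithinAt).const_mul c)).derivWithin (hu z hz)
  have e2 : d2 Y (fun z => f z + c * g z) y = d2 Y f y + c * d2 Y g y := by
    rw [d2, d2, d2, ← e _ _ (d1_smooth hY hf) (d1_smooth hY hg) y (Ioo_subset_Icc_self hy)]
    exact derivWithin_congr (fun z hz => e f g hf hg z hz) (e f g hf hg y (Ioo_subset_Icc_self hy))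
  rw [dst_expand hfg hy, dst_expand hf hy, dst_expand hg hy, e f g hf hg y (Ioo_subset_Icc_self hy),
    e2]
  ring

/-- The energy integrand is integrable. -/
theorem dst_integrable (hY : 0 < Y) {κ V h : ℝ → ℝ} (hκ : Continuous κ)
    (hV : ContinuousOn V (Icc 0 Y)) (hh : ContDiffOn ℝ ∞ h (Icc 0 Y)) :
    IntervalIntegrable (fun y => κ y ^ 8 * rho 5 y * V y * dst h y) volume 0 Y := by
  have hc : ContinuousOn (fun y => κ y ^ 8 * V y
      * (42 * y * h y + 14 * y ^ 2 * d1 Y h y + y ^ 3 * d2 Y h y) / (1 + y ^ 2) ^ 5)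
      (Icc 0 Y) := by
    refine ContinuousOn.div ((((hκ.pow 8).continuousOn).mul hV).mul ?_)
      (by fun_prop) fun y _ => by positivity
    exact (((continuousOn_const.mul continuousOn_id).mul hh.continuousOn).add
      ((continuousOn_const.mul (continuousOn_id.pow 2)).mul
        (d1_smooth hY hh).continuousOn)).add
      ((continuousOn_id.pow 3).mul (d2_smooth hY hh).continuousOn)
  refine (intervalIntegrable_congr_uIoo fun y hy => ?_).1
    ((uIcc_of_le hY.le).symm ▸ hc).intervalIntegrable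
  rw [uIoo_of_le hY.le] at hy
  rw [dst_expand hh hy]
  have := hy.1.ne'
  simp only [rho]
  field_simp

theorem integral_nonneg_Ioo {f : ℝ → ℝ} (hY : 0 ≤ Y) (h : ∀ y ∈ Ioo 0 Y, 0 ≤ f y) :
    0 ≤ ∫ y in (0:ℝ)..Y, f y := by
  rw [intervalIntegral.integral_of_le hY, integral_Ioc_eq_integral_Ioo]
  exact setIntegral_nonneg measurableSet_Ioo h

theorem loss_nonneg (hY : 0 ≤ Y) (κ V : ℝ → ℝ) : 0 ≤ loss 5 κ Y V :=
  integral_nonneg_Ioo hY fun y hy => by
    have := rho_nonneg 5 hy.1.le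
    positivity

theorem diss_nonneg (hY : 0 ≤ Y) (κ V : ℝ → ℝ) {a : ℝ → ℝ} (ha : ∀ y ∈ Ioo 0 Y, 0 ≤ a y) :
    0 ≤ diss 5 κ Y a V :=
  integral_nonneg_Ioo hY fun y hy => by
    have := rho_nonneg 5 hy.1.le
    have := ha y hy
    positivity

theorem near_nonneg {δ : ℝ} (hδ : 0 ≤ δ) (V : ℝ → ℝ) : 0 ≤ near δ V :=
  integral_nonneg_Ioo hδ fun y hy => by
    have := hy.1.le
    positivity

/-- The energy inequality at a fixed time, for `E = -dst (a D'') - dst F + g`. -/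
theorem energy_static (hc : Energy.CoerciveTarget) (hf : Energy.ForcingTarget) :
    ∃ δ₀ : ℝ, 0 < δ₀ ∧ ∀ M G δ : ℝ, 0 < δ → δ ≤ δ₀ → ∃ c C : ℝ, 0 < c ∧ 0 < C ∧
      ∀ (Y F₀ : ℝ) (a κ D F K E g : ℝ → ℝ), δ ≤ Y → Coef Y M δ a → Cut Y G δ κ → Edge Y κ a →
        ContDiffOn ℝ ∞ D (Icc 0 Y) → ContDiffOn ℝ ∞ F (Icc 0 Y) → ContinuousOn K (Icc 0 Y) →
        (∀ y ∈ Icc 0 Y, F y = a y * K y) → ContinuousOn E (Icc 0 Y) →
        (∀ y ∈ Ioo 0 Y, rho 5 y * g y ^ 2 * (1 + y ^ 2) ≤ F₀ ^ 2) →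
        (∀ y ∈ Ioo 0 Y,
          E y = -dst (fun z => a z * deriv (deriv D) z) y - dst F y + g y) →
        (∫ y in (0:ℝ)..Y, 2 * (κ y ^ 8 * rho 5 y * D y * E y))
          ≤ -c * (diss 5 κ Y a D + κ 0 ^ 8 * near δ D) + C * (loss 5 κ Y D + fsq 5 κ Y a K)
            + wsq 5 8 κ Y D + 2 * F₀ ^ 2 := by
  obtain ⟨δ₁, hδ₁, hc⟩ := hc
  obtain ⟨δ₂, hδ₂, hf⟩ := hf
  refine ⟨min δ₁ δ₂, lt_min hδ₁ hδ₂, fun M G δ hδ hle => ?_⟩
  obtain ⟨c, C₁, hc0, hC₁, hc⟩ := hc 5 (by norm_num) (by norm_num) M G δ hδ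
    (hle.trans (min_le_left _ _))
  obtain ⟨C₂, hC₂, hf⟩ := hf 5 (by norm_num) (by norm_num) M G δ hδ
    (hle.trans (min_le_right _ _)) (c / 2) (by positivity)
  refine ⟨c, 2 * (C₁ + C₂), hc0, by positivity,
    fun Y F₀ a κ D F K E g hδY hA hκ hedge hD hF hK hFK hE hg heq => ?_⟩
  have hY : 0 < Y := hδ.trans_le hδY
  have h1 := hc Y a κ D hδY hA hκ hedge hD
  have h2 := hf Y a κ D F K hδY hA hκ hedge hD hF hK hFK
  have hκc := hκ.smooth.continuous
  have hh : ContDiffOn ℝ ∞ (fun z => a z * d2 Y D z) (Icc 0 Y) :=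
    hA.smooth.mul (d2_smooth hY hD)
  have cong : ∀ y ∈ Ioo 0 Y, dst (fun z => a z * deriv (deriv D) z) y
      = dst (fun z => a z * d2 Y D z) y :=
    fun y hy => dst_congr (fun z hz => by rw [d2_eq hz]) hy
  have i1 : IntervalIntegrable
      (fun y => κ y ^ 8 * rho 5 y * D y * dst (fun z => a z * deriv (deriv D) z) y) volume 0 Y :=
    (intervalIntegrable_congr_uIoo fun y hy => by
      rw [uIoo_of_le hY.le] at hy; simp only [cong y hy]).1
      (dst_integrable hY hκc hD.continuousOn hh)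
  have i2 := dst_integrable hY hκc hD.continuousOn hF
  have iE : IntervalIntegrable (fun y => κ y ^ 8 * rho 5 y * D y * E y) volume 0 Y :=
    ContinuousOn.intervalIntegrable (by
      rw [uIcc_of_le hY.le]
      exact ((((hκc.pow 8).mul (continuous_rho 5)).continuousOn).mul hD.continuousOn).mul hE)
  have iD : IntervalIntegrable (fun y => κ y ^ 8 * rho 5 y * D y ^ 2) volume 0 Y :=
    ContinuousOn.intervalIntegrable (by
      rw [uIcc_of_le hY.le]
      exact (((hκc.pow 8).mul (continuous_rho 5)).continuousOn).mul (hD.continuousOn.pow 2))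
  have iA : IntervalIntegrable (fun y : ℝ => (1:ℝ) / (1 + y ^ 2)) volume 0 Y :=
    (continuous_const.div (by fun_prop) fun y => by positivity).intervalIntegrable _ _
  have hmono : (∫ y in (0:ℝ)..Y, (2 * (κ y ^ 8 * rho 5 y * D y * E y)
        + 2 * (κ y ^ 8 * rho 5 y * D y * dst (fun z => a z * deriv (deriv D) z) y)
        + 2 * (κ y ^ 8 * rho 5 y * D y * dst F y)))
      ≤ ∫ y in (0:ℝ)..Y, (κ y ^ 8 * rho 5 y * D y ^ 2 + F₀ ^ 2 * (1 / (1 + y ^ 2))) := by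
    refine intervalIntegral.integral_mono_on_of_le_Ioo hY.le
      (((iE.const_mul 2).add (i1.const_mul 2)).add (i2.const_mul 2))
      (iD.add (iA.const_mul _)) fun y hy => ?_
    have hk0 := pow_nonneg (hκ.nonneg y) 8
    have hk1 : κ y ^ 8 ≤ 1 := pow_le_one₀ (hκ.nonneg y) (hκ.le_one y)
    have hr := rho_nonneg 5 hy.1.le
    have hsq : 0 ≤ κ y ^ 8 * rho 5 y * (D y - g y) ^ 2 := by positivity
    have hgy : κ y ^ 8 * rho 5 y * g y ^ 2 ≤ F₀ ^ 2 * (1 / (1 + y ^ 2)) := by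
      rw [mul_one_div, le_div_iff₀ (by positivity)]
      calc κ y ^ 8 * rho 5 y * g y ^ 2 * (1 + y ^ 2)
          = κ y ^ 8 * (rho 5 y * g y ^ 2 * (1 + y ^ 2)) := by ring
        _ ≤ 1 * (rho 5 y * g y ^ 2 * (1 + y ^ 2)) :=
            mul_le_mul_of_nonneg_right hk1 (by positivity)
        _ ≤ F₀ ^ 2 := by rw [one_mul]; exact hg y hy
    rw [heq y hy]
    linarith
  rw [intervalIntegral.integral_add ((iE.const_mul 2).add (i1.const_mul 2)) (i2.const_mul 2),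
    intervalIntegral.integral_add (iE.const_mul 2) (i1.const_mul 2),
    intervalIntegral.integral_add iD (iA.const_mul _)] at hmono
  simp only [intervalIntegral.integral_const_mul, integral_one_div_one_add_sq, Real.arctan_zero,
    sub_zero] at hmono ⊢
  have hat : F₀ ^ 2 * Real.arctan Y ≤ 2 * F₀ ^ 2 := by
    have := (Real.arctan_lt_pi_div_two Y).le
    have := Real.pi_le_four
    nlinarith [sq_nonneg F₀]
  have h3 := (abs_le.1 h2).1
  have hl := loss_nonneg hY.le κ D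
  have hfs : 0 ≤ fsq 5 κ Y a K := integral_nonneg_Ioo hY.le fun y hy => by
    have := rho_nonneg 5 hy.1.le
    have := hA.pos y hy
    positivity
  rw [show wsq 5 8 κ Y D = ∫ y in (0:ℝ)..Y, κ y ^ 8 * rho 5 y * D y ^ 2 from rfl]
  have := mul_nonneg hC₁.le hfs
  linarith [mul_nonneg hC₂.le hl]

/-- Good coefficients are energy coefficients on every interval inside `[0, Ys]`. -/
theorem coef_of_good (σ : Shrinker) {δ₁ : ℝ} (hδ₁ : 0 < δ₁) : ∃ δe : ℝ, 0 < δe ∧ δe ≤ δ₁ ∧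
    δe ≤ 1 ∧ ∀ (M δ L : ℝ) (a : ℝ → ℝ → ℝ) (s₀ T s Y : ℝ), Good σ M δ L a s₀ T → δ ≤ 1 / 1000 →
      s ∈ Icc s₀ (s₀ + T) → δe ≤ Y → Y ≤ Ys L s → Coef Y M δe (rcoef a s) := by
  have hq : ContinuousWithinAt σ.q (Ici 0) 0 := σ.q_smooth.continuousOn 0 self_mem_Ici
  obtain ⟨r, hr, hrq⟩ := Metric.continuousWithinAt_iff.1 hq (1 / 2000) (by norm_num)
  refine ⟨min (r / 2) (min δ₁ 1), by positivity,
    (min_le_right _ _).trans (min_le_left _ _), (min_le_right _ _).trans (min_le_right _ _),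
    fun M δ L a s₀ T s Y hg hδ hs hY hY' => ?_⟩
  set δe := min (r / 2) (min δ₁ 1)
  have hδe : 0 < δe := by positivity
  have hs0 : 0 ≤ s := hg.start.trans hs.1
  have hY0 : 0 < Y := hδe.trans_le hY
  have hL : 0 < L := lt_of_lt_of_le (by have := hg.δ_pos; positivity) hg.long
  have hsm : ContDiffOn ℝ ∞ (rcoef a s) (Icc 0 Y) :=
    (rcoef_slice hg.smooth hs0).mono (Icc_subset_Icc le_rfl hY')
  have h0 : rcoef a s 0 = 0 := by
    have h1 : Tendsto (fun y => rcoef a s y / y ^ 2 * y ^ 2) (𝓝[>] 0) (𝓝 (1 * 0 ^ 2)) :=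
      (hg.origin s hs).mul ((tendsto_id.mono_left nhdsWithin_le_nhds).pow 2)
    have h2 : Tendsto (rcoef a s) (𝓝[>] 0) (𝓝 0) := by
      refine (Tendsto.congr' ?_ (by simpa using h1))
      filter_upwards [self_mem_nhdsWithin] with y (hy : 0 < y)
      field_simp
    exact tendsto_nhds_unique ((hsm.continuousOn 0 (left_mem_Icc.2 hY0.le)).mono_left
      (nhdsWithin_le_of_mem (mem_of_superset (Ioc_mem_nhdsGT hY0) Ioc_subset_Icc_self))) h2
  have hIoo : ∀ y ∈ Ioo 0 Y, y ∈ Ioo 0 (Ys L s) := fun y hy => ⟨hy.1, hy.2.trans_le hY'⟩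
  have hM : 0 ≤ M := by
    have hm : Y / 2 ∈ Ioo 0 Y := ⟨by positivity, by linarith⟩
    have := (hg.pos s hs _ (hIoo _ hm)).le.trans (hg.upper s hs _ (hIoo _ hm))
    exact nonneg_of_mul_nonneg_left this (by positivity)
  refine ⟨hsm, fun y hy => hg.pos s hs y (hIoo y hy), fun y hy => ?_,
    fun y hy => hg.slope s hs y (hIoo y hy), fun y hy => ?_⟩
  · rcases eq_or_lt_of_le hy.1 with h | h
    · rw [← h, h0]; positivity
    · rcases lt_or_eq_of_le (hy.2.trans hY') with h' | h'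
      · exact hg.upper s hs y ⟨h, h'⟩
      · rw [h', (hg.edge s hs).1]; positivity
  · rcases eq_or_lt_of_le hy.1 with h | h
    · rw [← h, h0]; simp
    have hyr : dist y 0 < r := by
      rw [Real.dist_eq, sub_zero, abs_of_pos h]
      have := hy.2.trans (min_le_left _ _); linarith
    have h1 := hrq hy.1 hyr
    rw [σ.q_zero, Real.dist_eq] at h1
    have hyδ : y < 1 / δ := by
      have h2 : y ≤ 1 := hy.2.trans ((min_le_right _ _).trans (min_le_right _ _))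
      have h3 : 1000 ≤ 1 / δ := by
        rw [le_div_iff₀ hg.δ_pos]; linarith
      linarith
    have h2 := abs_le.1 (hg.close s hs y ⟨h, hyδ⟩)
    obtain ⟨h3, h4⟩ := abs_lt.1 h1
    have hq2 : σ.q y ^ 2 ≤ 1002 / 1000 ∧ 998 / 1000 ≤ σ.q y ^ 2 := by
      constructor <;> nlinarith
    have hyy : 0 ≤ y ^ 2 := sq_nonneg y
    have hA : (y * σ.q y) ^ 2 ≤ 1002 / 1000 * y ^ 2 := by
      rw [mul_pow, mul_comm]; exact mul_le_mul_of_nonneg_right hq2.1 hyy
    have hB : 998 / 1000 * y ^ 2 ≤ (y * σ.q y) ^ 2 := by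
      rw [mul_pow, mul_comm (y ^ 2)]; exact mul_le_mul_of_nonneg_right hq2.2 hyy
    have hC := mul_le_mul_of_nonneg_right hδ (sq_nonneg (y * σ.q y))
    rw [abs_le]
    constructor <;> linarith

end Vale.Agent.P264.LinOp
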